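import Vale.Agent.P161.Gibbs

/-!
Automorphisms of a regular tree act transitively on pairs of vertices at equal distance.
-/

open SimpleGraph

namespace Vale.Agent.P161

universe u

variable {V : Type u} [DecidableEq V] {G : SimpleGraph V} [DecidableRel G.Adj] {d : ℕ}

set_option linter.unusedSectionVars false

/-- The neighbours of `p` one step further from `o`. -/
def children (G : SimpleGraph V) (o p : V) : Set V :=
  {x | G.Adj p x ∧ G.dist o x = G.dist o p + 1}

lemma Reg.closer_unique (h : Reg G d) {o x a b : V} (ha : G.Adj x a) (hb : G.Adj x b)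
    (hda : G.dist o a + 1 = G.dist o x) (hdb : G.dist o b + 1 = G.dist o x) : a = b := by
  refine (h.conn_ball o (G.dist o x - 1)).unique_adj h.tree ?_ ?_ ?_ ha hb <;>
    rw [h.mem_ball] <;> omega

lemma parent_dist (hG : G.IsTree) {o x : V} (hx : x ≠ o) :
    G.dist o (parent hG o x) + 1 = G.dist o x := by
  have := (parent_spec hG hx).2
  rwa [G.dist_comm, G.dist_comm (u := x)] at this

lemma Reg.parent_eq (h : Reg G d) {o p x : V} (hx : x ∈ children G o p) :
    parent h.tree o x = p := by
  have hne : x ≠ o := fun e => by subst e; simpa using hx.2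
  exact h.closer_unique (parent_spec h.tree hne).1 hx.1.symm (parent_dist h.tree hne) hx.2.symm

lemma Reg.mem_children_parent (h : Reg G d) {o x : V} (hx : x ≠ o) :
    x ∈ children G o (parent h.tree o x) :=
  ⟨(parent_spec h.tree hx).1.symm, (parent_dist h.tree hx).symm⟩

lemma Reg.finite_children (h : Reg G d) (o p : V) : (children G o p).Finite :=
  (h.finite_nbhd p).subset fun _ hx => hx.1

lemma Reg.card_children (h : Reg G d) (o p : V) :
    (children G o p).ncard = if p = o then d else d - 1 := by
  split_ifs with hp
  · subst hp
    have : children G p p = G.neighborSet p := by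
      ext x
      simp only [children, Set.mem_ofPred_eq, dist_self, zero_add, mem_neighborSet,
        dist_eq_one_iff_adj, and_self]
    rw [this, h.deg]
  · have hpar := (parent_spec h.tree hp).1
    have : children G o p = G.neighborSet p \ {parent h.tree o p} := by
      ext x
      simp only [children, Set.mem_ofPred_eq, Set.mem_sdiff, mem_neighborSet, Set.mem_singleton_iff]
      constructor
      · rintro ⟨h1, h2⟩
        refine ⟨h1, fun e => ?_⟩
        have := parent_dist h.tree hp
        rw [← e] at this
        omega
      · rintro ⟨h1, h2⟩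
        refine ⟨h1, ?_⟩
        rcases dist_succ_or h.tree o h1 with h3 | h3
        · exact absurd (h.closer_unique h1 hpar h3.symm (parent_dist h.tree hp)) h2
        · exact h3
    rw [this, Set.ncard_sdiff_singleton_of_mem (mem_neighborSet ..|>.2 hpar) , h.deg]

/-- A bijection between two finite sets of equal size, with one prescribed value. -/
lemma exists_bijOn_prescribed {α : Type*} [DecidableEq α] {s t : Set α} (hs : s.Finite)
    (ht : t.Finite) (hc : s.ncard = t.ncard) (a b : α) (hab : a ∈ s ↔ b ∈ t) :
    ∃ f : α → α, Set.BijOn f s t ∧ (a ∈ s → f a = b) := by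
  rcases s.eq_empty_or_nonempty with rfl | hne
  · refine ⟨id, ?_, fun h => absurd h (Set.notMem_empty a)⟩
    have : t = ∅ := (Set.ncard_eq_zero ht).1 (by rw [← hc, Set.ncard_empty])
    simp [this]
  have : Nonempty α := ⟨hne.some⟩
  obtain ⟨f, hf⟩ := hs.exists_bijOn_of_encard_eq (t := t)
    (by rw [← hs.cast_ncard_eq, ← ht.cast_ncard_eq, hc])
  by_cases ha : a ∈ s
  · refine ⟨Equiv.swap (f a) b ∘ f, ?_, fun _ => by simp⟩
    refine Set.BijOn.comp ?_ hf
    exact Equiv.bijOn_swap (hf.mapsTo ha) (hab.1 ha)
  · exact ⟨f, hf, fun h => absurd h ha⟩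

/-- Recursive map of rooted trees from bijections of children. -/
noncomputable def treeMapAux (hG : G.IsTree) (o o' : V) (e : V → V → V → V) : ℕ → V → V
  | 0 => fun _ => o'
  | k + 1 => fun x => e (parent hG o x) (treeMapAux hG o o' e k (parent hG o x)) x

/-- The map of rooted trees. -/
noncomputable def treeMap (hG : G.IsTree) (o o' : V) (e : V → V → V → V) (x : V) : V :=
  treeMapAux hG o o' e (G.dist o x) x

lemma Reg.treeMap_child (h : Reg G d) (o o' : V) (e : V → V → V → V) {p x : V}
    (hx : x ∈ children G o p) :
    treeMap h.tree o o' e x = e p (treeMap h.tree o o' e p) x := by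
  unfold treeMap
  rw [hx.2]
  simp only [treeMapAux, h.parent_eq hx]

/-- Transitivity on pairs at equal distance. -/
lemma Reg.exists_iso (h : Reg G d) {o o' u u' : V} (hd : G.dist o u = G.dist o' u') :
    ∃ g : G ≃g G, g o = o' ∧ g u = u' := by
  have hG := h.tree
  -- ancestors of the prescribed targets
  let anc : V → V → ℕ → V := fun r x k => (fun z => parent hG r z)^[G.dist r x - k] x
  have hancd : ∀ r x k, k ≤ G.dist r x → G.dist r (anc r x k) = k := by
    intro r x
    suffices H : ∀ j, j ≤ G.dist r x →
        G.dist r ((fun z => parent hG r z)^[j] x) = G.dist r x - j by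
      intro k hk
      simp only [anc]
      rw [H _ (Nat.sub_le _ _)]
      omega
    intro j
    induction j with
    | zero => simp
    | succ j ih =>
      intro hj
      have hj' := ih (by omega)
      rw [Function.iterate_succ_apply']
      have hne : (fun z => parent hG r z)^[j] x ≠ r := fun e => by
        rw [e, dist_self] at hj'; omega
      have := parent_dist hG hne
      omega
  have hanc_child : ∀ r x k, k + 1 ≤ G.dist r x → anc r x (k + 1) ∈ children G r (anc r x k) := by
    intro r x k hk
    have e : anc r x k = parent hG r (anc r x (k + 1)) := by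
      simp only [anc]
      rw [show G.dist r x - k = (G.dist r x - (k + 1)) + 1 by omega, Function.iterate_succ_apply']
    rw [e]
    refine h.mem_children_parent fun e' => ?_
    have := hancd r x (k + 1) hk
    rw [e', dist_self] at this
    omega
  have hanc_self : ∀ r x, anc r x (G.dist r x) = x := fun r x => by simp [anc]
  have hanc0 : ∀ r x, anc r x 0 = r := fun r x =>
    ((h.tree.connected r _).dist_eq_zero_iff.1 (hancd r x 0 (Nat.zero_le _))).symm
  -- the child bijections
  have hex : ∀ p q : V, ∃ f : V → V, ((p = o ↔ q = o') →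
      Set.BijOn f (children G o p) (children G o' q) ∧
      ∀ k, k + 1 ≤ G.dist o u → p = anc o u k → q = anc o' u' k →
        f (anc o u (k + 1)) = anc o' u' (k + 1)) := by
    intro p q
    by_cases hpq : p = o ↔ q = o'
    swap
    · exact ⟨id, fun hh => absurd hh hpq⟩
    have hcard : (children G o p).ncard = (children G o' q).ncard := by
      rw [h.card_children, h.card_children]; exact if_congr hpq rfl rfl
    by_cases hk : ∃ k, k + 1 ≤ G.dist o u ∧ p = anc o u k ∧ q = anc o' u' k
    · obtain ⟨k, hk1, hk2, hk3⟩ := hk
      obtain ⟨f, hf, hfa⟩ := exists_bijOn_prescribed (h.finite_children o p) (h.finite_children o' q)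
        hcard (anc o u (k + 1)) (anc o' u' (k + 1))
        (iff_of_true (hk2 ▸ hanc_child o u k hk1) (hk3 ▸ hanc_child o' u' k (hd ▸ hk1)))
      refine ⟨f, fun _ => ⟨hf, fun j hj1 hj2 _ => ?_⟩⟩
      have : j = k := by
        rw [← hancd o u j (by omega), ← hancd o u k (by omega), ← hj2, ← hk2]
      subst this
      exact hfa (hk2 ▸ hanc_child o u _ hk1)
    · rcases (children G o p).eq_empty_or_nonempty with hemp | hne
      · have : children G o' q = ∅ :=
          (Set.ncard_eq_zero (h.finite_children o' q)).1 (by rw [← hcard, hemp, Set.ncard_empty])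
        exact ⟨id, fun _ => ⟨by simp [hemp, this], fun k hk1 hk2 hk3 => absurd ⟨k, hk1, hk2, hk3⟩ hk⟩⟩
      · have hne' : (children G o' q).Nonempty := Set.nonempty_of_ncard_ne_zero (by
          rw [← hcard]; exact ((Set.ncard_pos (h.finite_children o p)).2 hne).ne')
        obtain ⟨f, hf, -⟩ := exists_bijOn_prescribed (h.finite_children o p) (h.finite_children o' q)
          hcard hne.some hne'.some (iff_of_true hne.some_mem hne'.some_mem)
        exact ⟨f, fun _ => ⟨hf, fun k hk1 hk2 hk3 => absurd ⟨k, hk1, hk2, hk3⟩ hk⟩⟩
  choose e he using hex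
  set F := treeMap hG o o' e with hF
  have hFo : F o = o' := by simp [hF, treeMap, treeMapAux]
  have hdist : ∀ x, G.dist o' (F x) = G.dist o x ∧ (x = o ↔ F x = o') := by
    intro x
    generalize hk : G.dist o x = k
    induction k generalizing x with
    | zero =>
      obtain rfl := (h.tree.connected o x).dist_eq_zero_iff.1 hk
      simp [hFo]
    | succ k ih =>
      have hx : x ≠ o := fun e => by subst e; simp at hk
      have hc := h.mem_children_parent hx
      set p := parent hG o x
      have hpk : G.dist o p = k := by have := hc.2; omega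
      obtain ⟨i1, i2⟩ := ih p hpk
      have hm := (he p (F p) i2).1.mapsTo hc
      rw [← h.treeMap_child o o' e hc] at hm
      have hd' : G.dist o' (F x) = k + 1 := by rw [hm.2, i1]
      exact ⟨hd', iff_of_false hx fun e' => by rw [e', dist_self] at hd'; omega⟩
  have hbij : ∀ p, Set.BijOn F (children G o p) (children G o' (F p)) := fun p =>
    (he p (F p) (hdist p).2).1.congr fun x hx => (h.treeMap_child o o' e hx).symm
  have hinj : Function.Injective F := by
    intro x y hxy
    generalize hk : G.dist o x = k
    induction k generalizing x y with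
    | zero =>
      obtain rfl := (h.tree.connected o x).dist_eq_zero_iff.1 hk
      rw [hFo] at hxy
      exact ((hdist y).2.2 hxy.symm).symm
    | succ k ih =>
      have hy : G.dist o y = k + 1 := by
        rw [← (hdist y).1, ← hxy, (hdist x).1, hk]
      have hx' : x ≠ o := fun e => by subst e; simp at hk
      have hy' : y ≠ o := fun e => by subst e; simp at hy
      have hcx := h.mem_children_parent hx'
      have hcy := h.mem_children_parent hy'
      have h1 := (hbij _).mapsTo hcx
      have h2 := (hbij _).mapsTo hcy
      rw [← hxy] at h2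
      have hp : F (parent hG o x) = F (parent hG o y) :=
        (h.parent_eq h1).symm.trans (h.parent_eq h2)
      have hpp := ih hp (by have := hcx.2; omega)
      rw [← hpp] at hcy
      exact (hbij _).injOn hcx hcy hxy
  have hsurj : Function.Surjective F := by
    intro y
    generalize hk : G.dist o' y = k
    induction k generalizing y with
    | zero =>
      obtain rfl := (h.tree.connected o' y).dist_eq_zero_iff.1 hk
      exact ⟨o, hFo⟩
    | succ k ih =>
      have hy : y ≠ o' := fun e => by subst e; simp at hk
      have hc := h.mem_children_parent hy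
      obtain ⟨p, hp⟩ := ih (parent hG o' y) (by have := hc.2; omega)
      rw [← hp] at hc
      obtain ⟨x, -, hx⟩ := (hbij p).surjOn hc
      exact ⟨x, hx⟩
  have hadj : ∀ x y, G.Adj (F x) (F y) ↔ G.Adj x y := by
    have hgo : ∀ x y, G.dist o x + 1 = G.dist o y → (G.Adj (F x) (F y) ↔ G.Adj x y) := by
      intro x y hxy
      constructor
      · intro ha
        have : F y ∈ children G o' (F x) := ⟨ha, by rw [(hdist x).1, (hdist y).1, hxy]⟩
        obtain ⟨z, hz, hzy⟩ := (hbij x).surjOn this
        exact hinj hzy ▸ hz.1
      · intro ha
        exact ((hbij x).mapsTo ⟨ha, hxy.symm⟩).1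
    intro x y
    constructor
    · intro ha
      rcases dist_succ_or hG o' ha with h1 | h1
      · exact ((hgo y x (by rw [← (hdist y).1, ← (hdist x).1, h1])).1 ha.symm).symm
      · exact (hgo x y (by rw [← (hdist y).1, ← (hdist x).1, h1])).1 ha
    · intro ha
      rcases dist_succ_or hG o ha with h1 | h1
      · exact ((hgo y x h1.symm).2 ha.symm).symm
      · exact (hgo x y h1.symm).2 ha
  refine ⟨⟨Equiv.ofBijective F ⟨hinj, hsurj⟩, hadj _ _⟩, hFo, ?_⟩
  have hpath : ∀ k ≤ G.dist o u, F (anc o u k) = anc o' u' k := by
    intro k
    induction k with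
    | zero => intro _; rw [hanc0, hanc0, hFo]
    | succ k ih =>
      intro hk
      have i := ih (by omega)
      rw [hF, h.treeMap_child o o' e (hanc_child o u k hk)]
      refine (he _ _ (hdist _).2).2 k hk rfl ?_
      exact i
  have := hpath _ le_rfl
  rw [hanc_self, hd, hanc_self] at this
  exact this

lemma dist_iso (g : G ≃g G) (a b : V) : G.dist (g a) (g b) = G.dist a b := by
  have key : ∀ (g : G ≃g G) a b, G.dist (g a) (g b) ≤ G.dist a b := by
    intro g a b
    by_cases hr : G.Reachable a b
    · obtain ⟨p, hp⟩ := hr.exists_walk_length_eq_dist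
      refine (G.dist_le (p.map g.toHom)).trans ?_
      simp [hp]
    · have hr' : ¬ G.Reachable (g a) (g b) := fun hh => hr (g.reachable_iff.1 hh)
      simp [dist_eq_zero_of_not_reachable hr']
  refine le_antisymm (key g a b) ?_
  simpa using key g.symm (g a) (g b)

end Vale.Agent.P161
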