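import Vale.Agent.P161.HaarLaw

/-!
Gaussian shift identities and the chi square bound for discrete innovations.
-/

open MeasureTheory ProbabilityTheory
open scoped ENNReal NNReal

namespace Vale.Agent.P161

universe u

variable {ι : Type u} [Fintype ι] {h : ℝ≥0}

set_option linter.unusedSectionVars false

/-- One step: independent centred normals with variance `h`. -/
noncomputable def stepPi (ι : Type u) [Fintype ι] (h : ℝ≥0) : Measure (ι → ℝ) :=
  Measure.pi fun _ : ι => gaussianReal 0 h

instance (ι : Type u) [Fintype ι] (h : ℝ≥0) : IsProbabilityMeasure (stepPi ι h) := by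
  unfold stepPi; infer_instance

/-- The density of a shift by `h e`. -/
noncomputable def tilt (h : ℝ≥0) (e a : ι → ℝ) : ℝ :=
  Real.exp (∑ i, e i * a i - (h : ℝ) / 2 * ∑ i, e i ^ 2)

lemma tilt_pos (e a : ι → ℝ) : 0 < tilt h e a := Real.exp_pos _

lemma measurable_tilt (e : ι → ℝ) : Measurable (tilt h e) := by unfold tilt; fun_prop

lemma measurable_tilt₂ :
    Measurable fun p : (ι → ℝ) × (ι → ℝ) => tilt h p.1 p.2 := by unfold tilt; fun_prop

lemma stepPi_map_add (hh : h ≠ 0) (e : ι → ℝ) :
    (stepPi ι h).map (fun a i => a i + (h : ℝ) * e i)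
      = (stepPi ι h).withDensity fun a => ENNReal.ofReal (tilt h e a) := by
  have h1 : ∀ i : ι, (gaussianReal 0 h).map (fun x => x + (h : ℝ) * e i)
      = (gaussianReal 0 h).withDensity
          fun x => ENNReal.ofReal (Real.exp (e i * x - (h : ℝ) / 2 * e i ^ 2)) := by
    intro i
    rw [gaussianReal_map_add_const, zero_add, gaussianReal_of_var_ne_zero _ hh,
      gaussianReal_of_var_ne_zero _ hh,
      ← withDensity_mul _ (measurable_gaussianPDF _ _) (by fun_prop)]
    congr 1
    funext x
    rw [Pi.mul_apply, gaussianPDF, gaussianPDF,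
      ← ENNReal.ofReal_mul (gaussianPDFReal_nonneg _ _ _)]
    congr 1
    rw [gaussianPDFReal, gaussianPDFReal, mul_assoc _ _ (Real.exp _), ← Real.exp_add]
    congr 2
    have : (h : ℝ) ≠ 0 := by exact_mod_cast hh
    field_simp
    ring
  unfold stepPi
  have : ∀ i : ι, IsProbabilityMeasure ((gaussianReal 0 h).map fun x => x + (h : ℝ) * e i) :=
    fun i => Measure.isProbabilityMeasure_map (by fun_prop)
  rw [Measure.pi_map_pi (f := fun i (x : ℝ) => x + (h : ℝ) * e i) fun i => by fun_prop]
  refine Measure.pi_eq fun s hs => ?_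
  rw [withDensity_apply _ (MeasurableSet.univ_pi hs)]
  simp only [h1, withDensity_apply _ (hs _)]
  rw [← lintegral_indicator (MeasurableSet.univ_pi hs)]
  have hint : ∀ i, Integrable (fun x => (s i).indicator
      (fun x => Real.exp (e i * x - (h : ℝ) / 2 * e i ^ 2)) x) (gaussianReal 0 h) := fun i => by
    refine Integrable.indicator ?_ (hs i)
    simpa [Real.exp_sub] using (integrable_exp_mul_gaussianReal (μ := 0) (v := h) (e i)).div_const
      (Real.exp ((h : ℝ) / 2 * e i ^ 2))
  have hind : ∀ a : ι → ℝ, (Set.univ.pi s).indicator (fun a => ENNReal.ofReal (tilt h e a)) a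
      = ENNReal.ofReal (∏ i, (s i).indicator
          (fun x => Real.exp (e i * x - (h : ℝ) / 2 * e i ^ 2)) (a i)) := by
    intro a
    by_cases ha : a ∈ Set.univ.pi s
    · rw [Set.indicator_of_mem ha, tilt, Finset.mul_sum, ← Finset.sum_sub_distrib, Real.exp_sum]
      congr 1
      exact Finset.prod_congr rfl fun i _ => by simp [Set.indicator_of_mem (ha i trivial)]
    · rw [Set.indicator_of_notMem ha]
      simp only [Set.mem_pi, Set.mem_univ, forall_const, not_forall] at ha
      obtain ⟨i, hi⟩ := ha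
      rw [Finset.prod_eq_zero (Finset.mem_univ i) (Set.indicator_of_notMem hi _), ENNReal.ofReal_zero]
  simp only [hind]
  have hnn : ∀ i x, 0 ≤ (s i).indicator
      (fun x => Real.exp (e i * x - (h : ℝ) / 2 * e i ^ 2)) x :=
    fun i x => Set.indicator_nonneg (fun x _ => (Real.exp_pos _).le) x
  rw [← ofReal_integral_eq_lintegral_ofReal (Integrable.fintype_prod hint)
      (Filter.Eventually.of_forall fun a => Finset.prod_nonneg fun i _ => hnn i _),
    integral_fintype_prod_eq_prod (f := fun i x => (s i).indicator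
      (fun x => Real.exp (e i * x - (h : ℝ) / 2 * e i ^ 2)) x),
    ENNReal.ofReal_prod_of_nonneg fun i _ => integral_nonneg (hnn i)]
  refine Finset.prod_congr rfl fun i _ => ?_
  rw [ofReal_integral_eq_lintegral_ofReal (hint i) (Filter.Eventually.of_forall (hnn i)),
    ← lintegral_indicator (hs i)]
  congr 1
  funext x
  by_cases hx : x ∈ s i <;> simp [hx]

lemma lintegral_shift (hh : h ≠ 0) (e : ι → ℝ) {f : (ι → ℝ) → ℝ≥0∞} (hf : Measurable f) :
    ∫⁻ a, f (fun i => a i + (h : ℝ) * e i) ∂stepPi ι h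
      = ∫⁻ a, ENNReal.ofReal (tilt h e a) * f a ∂stepPi ι h := by
  rw [← lintegral_map hf (by fun_prop), stepPi_map_add hh,
    lintegral_withDensity_eq_lintegral_mul _ (measurable_tilt e).ennreal_ofReal hf]
  rfl

lemma lintegral_tilt (hh : h ≠ 0) (e : ι → ℝ) :
    ∫⁻ a, ENNReal.ofReal (tilt h e a) ∂stepPi ι h = 1 := by
  simpa using (lintegral_shift hh e (f := fun _ => 1) measurable_const).symm

lemma incPi_eq (N : ℕ) : incPi ι h N = Measure.pi fun _ : Fin N => stepPi ι h := rfl

lemma lintegral_incPi_succ {N : ℕ} {f : (Fin (N + 1) → ι → ℝ) → ℝ≥0∞} (hf : Measurable f) :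
    ∫⁻ x, f x ∂incPi ι h (N + 1)
      = ∫⁻ x, ∫⁻ a, f (Fin.snoc x a) ∂stepPi ι h ∂incPi ι h N := by
  have hmp := (measurePreserving_piFinSuccAbove
    (fun _ : Fin (N + 1) => stepPi ι h) (Fin.last N)).symm
  rw [incPi_eq, incPi_eq, ← hmp.lintegral_comp hf]
  refine (lintegral_prod_symm (fun p => f ((MeasurableEquiv.piFinSuccAbove
    (fun _ : Fin (N + 1) => ι → ℝ) (Fin.last N)).symm p))
    (hf.comp hmp.measurable).aemeasurable).trans ?_
  refine lintegral_congr fun x => lintegral_congr fun a => ?_
  congr 1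
  simp [MeasurableEquiv.piFinSuccAbove_symm_apply, Fin.insertNthEquiv, Fin.insertNth_last']

/-- The total of the increments. -/
def tot {N : ℕ} (x : Fin N → ι → ℝ) : ι → ℝ := fun i => ∑ k, x k i

lemma measurable_tot {N : ℕ} : Measurable (tot (ι := ι) (N := N)) := by
  unfold tot; fun_prop

lemma tot_snoc {N : ℕ} (x : Fin N → ι → ℝ) (a : ι → ℝ) :
    tot (Fin.snoc (α := fun _ => ι → ℝ) x a) = tot x + a := by
  funext i
  simp [tot, Fin.sum_univ_castSucc]

/-- Adding the drift `h M(current position)` to the increments, step by step. -/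
noncomputable def shear (h : ℝ≥0) (M : (ι → ℝ) → ι → ℝ) :
    (N : ℕ) → (Fin N → ι → ℝ) → (Fin N → ι → ℝ)
  | 0, b => b
  | N + 1, b => Fin.snoc (α := fun _ => ι → ℝ) (shear h M N (Fin.init b))
      fun i => b (Fin.last N) i + (h : ℝ) * M (tot (shear h M N (Fin.init b))) i

/-- Removing the drift from the increments. -/
noncomputable def innov (h : ℝ≥0) (M : (ι → ℝ) → ι → ℝ) :
    (N : ℕ) → (Fin N → ι → ℝ) → (Fin N → ι → ℝ)
  | 0, x => x
  | N + 1, x => Fin.snoc (α := fun _ => ι → ℝ) (innov h M N (Fin.init x))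
      fun i => x (Fin.last N) i - (h : ℝ) * M (tot (Fin.init x)) i

/-- The density of the sheared increments. -/
noncomputable def dens (h : ℝ≥0) (M : (ι → ℝ) → ι → ℝ) : (N : ℕ) → (Fin N → ι → ℝ) → ℝ
  | 0, _ => 1
  | N + 1, x => dens h M N (Fin.init x) * tilt h (M (tot (Fin.init x))) (x (Fin.last N))

lemma innov_shear (M : (ι → ℝ) → ι → ℝ) (N : ℕ) (b : Fin N → ι → ℝ) :
    innov h M N (shear h M N b) = b := by
  induction N with
  | zero => rfl
  | succ N ih =>
    simp only [innov, shear, Fin.init_snoc, Fin.snoc_last, add_sub_cancel_right, ih]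
    exact Fin.snoc_init_self b

lemma shear_innov (M : (ι → ℝ) → ι → ℝ) (N : ℕ) (x : Fin N → ι → ℝ) :
    shear h M N (innov h M N x) = x := by
  induction N with
  | zero => rfl
  | succ N ih =>
    simp only [innov, shear, Fin.init_snoc, Fin.snoc_last, ih, sub_add_cancel]
    exact Fin.snoc_init_self x

lemma dens_pos (M : (ι → ℝ) → ι → ℝ) (N : ℕ) (x : Fin N → ι → ℝ) : 0 < dens h M N x := by
  induction N with
  | zero => exact one_pos
  | succ N ih => exact mul_pos (ih _) (tilt_pos _ _)

lemma measurable_init {N : ℕ} :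
    Measurable fun b : Fin (N + 1) → ι → ℝ => Fin.init b :=
  measurable_pi_lambda _ fun _ => measurable_pi_apply _

lemma measurable_snoc {N : ℕ} :
    Measurable fun p : (Fin N → ι → ℝ) × (ι → ℝ) => Fin.snoc (α := fun _ => ι → ℝ) p.1 p.2 := by
  refine measurable_pi_lambda _ fun k => ?_
  refine Fin.lastCases ?_ (fun j => ?_) k
  · simpa using measurable_snd
  · simp only [Fin.snoc_castSucc]
    exact (measurable_pi_apply j).comp measurable_fst

lemma measurable_shear {M : (ι → ℝ) → ι → ℝ} (hM : Measurable M) (N : ℕ) :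
    Measurable (shear h M N) := by
  induction N with
  | zero => exact measurable_id
  | succ N ih =>
    have h1 := ih.comp (measurable_init (ι := ι) (N := N))
    refine measurable_snoc.comp (h1.prodMk (measurable_pi_lambda _ fun i => ?_))
    have h2 : Measurable fun b : Fin (N + 1) → ι → ℝ => M (tot (shear h M N (Fin.init b))) i :=
      (measurable_pi_apply i).comp (hM.comp (measurable_tot.comp h1))
    have h3 : Measurable fun b : Fin (N + 1) → ι → ℝ => b (Fin.last N) i :=
      (measurable_pi_apply i).comp (measurable_pi_apply _)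
    exact h3.add (h2.const_mul (h : ℝ))

lemma measurable_innov {M : (ι → ℝ) → ι → ℝ} (hM : Measurable M) (N : ℕ) :
    Measurable (innov h M N) := by
  induction N with
  | zero => exact measurable_id
  | succ N ih =>
    refine measurable_snoc.comp ((ih.comp measurable_init).prodMk
      (measurable_pi_lambda _ fun i => ?_))
    have h2 : Measurable fun b : Fin (N + 1) → ι → ℝ => M (tot (Fin.init b)) i :=
      (measurable_pi_apply i).comp (hM.comp (measurable_tot.comp measurable_init))
    have h3 : Measurable fun b : Fin (N + 1) → ι → ℝ => b (Fin.last N) i :=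
      (measurable_pi_apply i).comp (measurable_pi_apply _)
    exact h3.sub (h2.const_mul (h : ℝ))

lemma measurable_dens {M : (ι → ℝ) → ι → ℝ} (hM : Measurable M) (N : ℕ) :
    Measurable (dens h M N) := by
  induction N with
  | zero => exact measurable_const
  | succ N ih =>
    refine (ih.comp measurable_init).mul ?_
    have h2 : Measurable fun x : Fin (N + 1) → ι → ℝ => M (tot (Fin.init x)) :=
      hM.comp (measurable_tot.comp measurable_init)
    have h3 : Measurable fun x : Fin (N + 1) → ι → ℝ => x (Fin.last N) := measurable_pi_apply _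
    exact measurable_tilt₂.comp (h2.prodMk h3)

lemma lintegral_shear (hh : h ≠ 0) {M : (ι → ℝ) → ι → ℝ} (hM : Measurable M) (N : ℕ)
    {f : (Fin N → ι → ℝ) → ℝ≥0∞} (hf : Measurable f) :
    ∫⁻ b, f (shear h M N b) ∂incPi ι h N
      = ∫⁻ x, ENNReal.ofReal (dens h M N x) * f x ∂incPi ι h N := by
  induction N with
  | zero => simp [shear, dens]
  | succ N ih =>
    rw [lintegral_incPi_succ (f := fun b => f (shear h M (N + 1) b))
        (hf.comp (measurable_shear hM _)),
      lintegral_incPi_succ (f := fun x => ENNReal.ofReal (dens h M (N + 1) x) * f x)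
        ((measurable_dens hM _).ennreal_ofReal.mul hf)]
    simp only [shear, dens, Fin.init_snoc, Fin.snoc_last]
    have hg : ∀ x : Fin N → ι → ℝ, Measurable fun a => f (Fin.snoc x a) := fun x =>
      hf.comp (measurable_snoc.comp (measurable_const.prodMk measurable_id))
    have e : ∀ x : Fin N → ι → ℝ,
        ∫⁻ a, f (Fin.snoc (α := fun _ => ι → ℝ) x fun i => a i + (h : ℝ) * M (tot x) i)
            ∂stepPi ι h
          = ∫⁻ a, ENNReal.ofReal (tilt h (M (tot x)) a) * f (Fin.snoc x a) ∂stepPi ι h :=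
      fun x => lintegral_shift hh _ (hg x)
    simp only [e]
    have hmeas : Measurable fun x : Fin N → ι → ℝ =>
        ∫⁻ a, ENNReal.ofReal (tilt h (M (tot x)) a) * f (Fin.snoc x a) ∂stepPi ι h := by
      refine Measurable.lintegral_prod_right' (f := fun p : (Fin N → ι → ℝ) × (ι → ℝ) =>
        ENNReal.ofReal (tilt h (M (tot p.1)) p.2) * f (Fin.snoc p.1 p.2)) ?_
      refine Measurable.mul ?_ (hf.comp measurable_snoc)
      have h2 : Measurable fun p : (Fin N → ι → ℝ) × (ι → ℝ) => M (tot p.1) :=
        hM.comp (measurable_tot.comp measurable_fst)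
      exact (measurable_tilt₂.comp (h2.prodMk measurable_snd)).ennreal_ofReal
    rw [ih hmeas]
    refine lintegral_congr fun x => ?_
    rw [← lintegral_const_mul' _ _ ENNReal.ofReal_ne_top]
    refine lintegral_congr fun a => ?_
    rw [ENNReal.ofReal_mul (dens_pos M N x).le, mul_assoc]

lemma map_shear (hh : h ≠ 0) {M : (ι → ℝ) → ι → ℝ} (hM : Measurable M) (N : ℕ) :
    (incPi ι h N).map (shear h M N)
      = (incPi ι h N).withDensity fun x => ENNReal.ofReal (dens h M N x) := by
  refine Measure.ext fun s hs => ?_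
  rw [Measure.map_apply (measurable_shear hM N) hs, withDensity_apply _ hs,
    ← lintegral_indicator_one (measurable_shear hM N hs), ← lintegral_indicator hs]
  refine (lintegral_shear hh hM N (measurable_one.indicator hs)).trans (lintegral_congr fun x => ?_)
  by_cases hx : x ∈ s <;> simp [hx]

lemma integral_shear (hh : h ≠ 0) {M : (ι → ℝ) → ι → ℝ} (hM : Measurable M) (N : ℕ)
    {f : (Fin N → ι → ℝ) → ℝ} (hf : Measurable f) :
    ∫ b, f (shear h M N b) ∂incPi ι h N = ∫ x, dens h M N x * f x ∂incPi ι h N := by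
  rw [← integral_map (measurable_shear hM N).aemeasurable hf.aestronglyMeasurable, map_shear hh hM,
    integral_withDensity_eq_integral_toReal_smul (measurable_dens hM N).ennreal_ofReal
      (Filter.Eventually.of_forall fun _ => ENNReal.ofReal_lt_top)]
  refine integral_congr_ae (Filter.Eventually.of_forall fun x => ?_)
  simp [ENNReal.toReal_ofReal (dens_pos M N x).le]

lemma lintegral_dens (hh : h ≠ 0) {M : (ι → ℝ) → ι → ℝ} (hM : Measurable M) (N : ℕ) :
    ∫⁻ x, ENNReal.ofReal (dens h M N x) ∂incPi ι h N = 1 := by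
  simpa using (lintegral_shear hh hM N (f := fun _ => 1) measurable_const).symm

lemma integrable_dens (hh : h ≠ 0) {M : (ι → ℝ) → ι → ℝ} (hM : Measurable M) (N : ℕ) :
    Integrable (dens h M N) (incPi ι h N) :=
  ⟨(measurable_dens hM N).aestronglyMeasurable,
    (hasFiniteIntegral_iff_ofReal (Filter.Eventually.of_forall fun x => (dens_pos M N x).le)).2
      (by rw [lintegral_dens hh hM]; exact ENNReal.one_lt_top)⟩

lemma shear_const (e : ι → ℝ) (N : ℕ) (b : Fin N → ι → ℝ) :
    shear h (fun _ => e) N b = fun k i => b k i + (h : ℝ) * e i := by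
  induction N with
  | zero => funext k; exact k.elim0
  | succ N ih =>
    simp only [shear, ih]
    funext k
    refine Fin.lastCases ?_ (fun j => ?_) k
    · simp
    · simp [Fin.init]

lemma dens_const (e : ι → ℝ) (N : ℕ) (x : Fin N → ι → ℝ) :
    dens h (fun _ => e) N x
      = Real.exp (∑ i, e i * tot x i - (N : ℝ) * ((h : ℝ) / 2 * ∑ i, e i ^ 2)) := by
  induction N with
  | zero => simp [dens, tot]
  | succ N ih =>
    simp only [dens, ih, tilt, ← Real.exp_add]
    congr 1
    have : tot x = tot (Fin.init x) + x (Fin.last N) := by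
      conv_lhs => rw [← Fin.snoc_init_self x, tot_snoc]
    rw [this]
    simp only [Pi.add_apply, mul_add, Finset.sum_add_distrib]
    push_cast
    ring

/-- A finite mixture of signals: finitely many sign vectors with positive weights adding to 1. -/
structure Mixture (ι : Type u) [Fintype ι] where
  /-- the index type -/
  carrier : Type u
  /-- the support -/
  supp : Finset carrier
  /-- the weights -/
  wt : carrier → ℝ
  /-- the signal -/
  sig : carrier → ι → ℝ
  wt_pos : ∀ a ∈ supp, 0 < wt a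
  wt_sum : ∑ a ∈ supp, wt a = 1
  sig_abs : ∀ a ∈ supp, ∀ i, |sig a i| = 1

namespace Mixture

variable (P : Mixture ι)

/-- Unnormalised posterior weight. -/
noncomputable def pw (y : ι → ℝ) (a : P.carrier) : ℝ :=
  P.wt a * Real.exp (∑ i, P.sig a i * y i)

/-- Posterior mean. -/
noncomputable def post (y : ι → ℝ) : ι → ℝ := fun i =>
  (∑ a ∈ P.supp, P.pw y a * P.sig a i) / ∑ a ∈ P.supp, P.pw y a

lemma nonempty : P.supp.Nonempty := by
  rw [Finset.nonempty_iff_ne_empty]
  intro h
  have := P.wt_sum
  simp [h] at this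

lemma norm_pos (y : ι → ℝ) : 0 < ∑ a ∈ P.supp, P.pw y a :=
  Finset.sum_pos (fun a ha => mul_pos (P.wt_pos a ha) (Real.exp_pos _)) P.nonempty

lemma abs_post_le (y : ι → ℝ) (i : ι) : |P.post y i| ≤ 1 := by
  rw [post, abs_div, abs_of_pos (P.norm_pos y), div_le_one (P.norm_pos y)]
  refine (Finset.abs_sum_le_sum_abs _ _).trans (le_of_eq (Finset.sum_congr rfl fun a ha => ?_))
  rw [abs_mul, P.sig_abs a ha, mul_one, abs_of_pos (show 0 < P.pw y a from mul_pos (P.wt_pos a ha) (Real.exp_pos _))]

lemma measurable_post : Measurable P.post := by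
  unfold post pw; fun_prop

lemma sum_centred (y : ι → ℝ) (i : ι) :
    ∑ a ∈ P.supp, P.pw y a * (P.sig a i - P.post y i) = 0 := by
  simp only [mul_sub, Finset.sum_sub_distrib, ← Finset.sum_mul]
  rw [post, mul_div_cancel₀ _ (P.norm_pos y).ne', sub_self]

/-- The density of the noisy increments. -/
noncomputable def lik (h : ℝ≥0) (N : ℕ) (x : Fin N → ι → ℝ) : ℝ :=
  ∑ a ∈ P.supp, P.wt a * dens h (fun _ => P.sig a) N x

lemma lik_eq (N : ℕ) (x : Fin N → ι → ℝ) :
    P.lik h N x = Real.exp (-((N : ℝ) * ((h : ℝ) / 2 * Fintype.card ι)))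
      * ∑ a ∈ P.supp, P.pw (tot x) a := by
  rw [lik, Finset.mul_sum]
  refine Finset.sum_congr rfl fun a ha => ?_
  have : ∑ i, P.sig a i ^ 2 = (Fintype.card ι : ℝ) := by
    simp [show ∀ i, P.sig a i ^ 2 = 1 from fun i => by rw [← sq_abs, P.sig_abs a ha]; norm_num]
  rw [dens_const, this, pw, Real.exp_sub, Real.exp_neg]
  ring

lemma lik_pos (N : ℕ) (x : Fin N → ι → ℝ) : 0 < P.lik h N x :=
  Finset.sum_pos (fun a ha => mul_pos (P.wt_pos a ha) (dens_pos _ _ _)) P.nonempty

lemma measurable_lik (N : ℕ) : Measurable (P.lik h N) :=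
  Finset.measurable_sum _ fun _ _ => (measurable_dens measurable_const N).const_mul _

lemma integrable_lik (hh : h ≠ 0) (N : ℕ) : Integrable (P.lik h N) (incPi ι h N) :=
  integrable_finsetSum _ fun _ _ => (integrable_dens hh measurable_const N).const_mul _

lemma integral_lik (hh : h ≠ 0) (N : ℕ) : ∫ x, P.lik h N x ∂incPi ι h N = 1 := by
  unfold lik
  rw [integral_finsetSum _ fun a _ => (integrable_dens hh measurable_const N).const_mul _]
  refine (Finset.sum_congr rfl fun a _ => ?_).trans P.wt_sum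
  have := integral_shear hh (M := fun _ : ι → ℝ => P.sig a) measurable_const N
    (f := fun _ => (1 : ℝ)) measurable_const
  simp only [integral_const, probReal_univ, one_smul, mul_one] at this
  rw [integral_const_mul, ← this, mul_one]

/-- The mixture of shifted increments has density `lik`. -/
lemma integral_mixture (hh : h ≠ 0) (N : ℕ) {f : (Fin N → ι → ℝ) → ℝ} (hf : Measurable f)
    {C : ℝ} (hC : ∀ x, |f x| ≤ C) :
    ∑ a ∈ P.supp, P.wt a * ∫ b, f (fun k i => b k i + (h : ℝ) * P.sig a i) ∂incPi ι h N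
      = ∫ x, P.lik h N x * f x ∂incPi ι h N := by
  unfold lik
  simp only [Finset.sum_mul]
  rw [integral_finsetSum _ fun a _ => ((integrable_dens hh measurable_const N).const_mul _).mul_bdd
    hf.aestronglyMeasurable (Filter.Eventually.of_forall hC)]
  refine Finset.sum_congr rfl fun a _ => ?_
  have := integral_shear hh (M := fun _ : ι → ℝ => P.sig a) measurable_const N hf
  simp only [shear_const] at this
  rw [this, ← integral_const_mul]
  simp only [mul_assoc]

/-- Bayes: the signal minus its posterior mean is orthogonal to functions of the data. -/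
lemma bayes (hh : h ≠ 0) (N : ℕ) (i : ι) {f : (Fin N → ι → ℝ) → ℝ} (hf : Measurable f)
    {C : ℝ} (hC : ∀ x, |f x| ≤ C) :
    ∑ a ∈ P.supp, P.wt a * ∫ b, f (fun k j => b k j + (h : ℝ) * P.sig a j)
        * P.sig a i ∂incPi ι h N
      = ∫ x, P.lik h N x * (f x * P.post (tot x) i) ∂incPi ι h N := by
  have key : ∀ a ∈ P.supp, P.wt a * ∫ b, f (fun k j => b k j + (h : ℝ) * P.sig a j)
        * P.sig a i ∂incPi ι h N
      = ∫ x, P.wt a * dens h (fun _ => P.sig a) N x * (f x * P.sig a i) ∂incPi ι h N := by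
    intro a _
    have := integral_shear hh (M := fun _ : ι → ℝ => P.sig a) measurable_const N
      (hf.mul_const (P.sig a i))
    simp only [shear_const] at this
    rw [this, ← integral_const_mul]
    simp only [mul_assoc]
  rw [Finset.sum_congr rfl key, ← integral_finsetSum]
  · refine integral_congr_ae (Filter.Eventually.of_forall fun x => ?_)
    simp only [lik_eq, post]
    rw [show ∀ c s q r : ℝ, c * s * (q * (r / s)) = c * q * (s * (r / s)) from fun _ _ _ _ => by ring,
      mul_div_cancel₀ _ (P.norm_pos _).ne', Finset.mul_sum]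
    refine Finset.sum_congr rfl fun a ha => ?_
    have : ∑ j, P.sig a j ^ 2 = (Fintype.card ι : ℝ) := by
      simp [show ∀ j, P.sig a j ^ 2 = 1 from fun j => by rw [← sq_abs, P.sig_abs a ha]; norm_num]
    rw [dens_const, this, pw, Real.exp_sub, Real.exp_neg]
    ring
  · intro a ha
    refine ((integrable_dens hh measurable_const N).const_mul _).mul_bdd (c := C)
      (hf.mul_const _).aestronglyMeasurable (Filter.Eventually.of_forall fun x => ?_)
    rw [Real.norm_eq_abs, abs_mul, P.sig_abs a ha, mul_one]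
    exact hC x

lemma step_chi (hh : h ≠ 0) (hsmall : 4 * (Fintype.card ι : ℝ) * h ≤ 1) (y m : ι → ℝ)
    (hm : m = P.post y) :
    ∫⁻ a, ENNReal.ofReal
        ((Real.exp (-((h : ℝ) / 2 * Fintype.card ι)) * ∑ c ∈ P.supp, P.pw (y + a) c) ^ 2
          / tilt h m a) ∂stepPi ι h
      ≤ ENNReal.ofReal ((∑ c ∈ P.supp, P.pw y c) ^ 2
          * (1 + 16 * (Fintype.card ι : ℝ) ^ 2 * (h : ℝ) ^ 2)) := by
  set n : ℝ := (Fintype.card ι : ℝ)
  set q : P.carrier → P.carrier → ℝ := fun c c' =>
    (h : ℝ) * ∑ i, (P.sig c i - m i) * (P.sig c' i - m i) with hq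
  have hsq : ∀ c ∈ P.supp, ∀ i, P.sig c i * P.sig c i = 1 := fun c hc i => by
    rw [← abs_mul_abs_self, P.sig_abs c hc]; norm_num
  have hpw : ∀ c a, P.pw (y + a) c = P.pw y c * Real.exp (∑ i, P.sig c i * a i) := fun c a => by
    simp only [pw, Pi.add_apply, mul_add, Finset.sum_add_distrib, Real.exp_add]
    ring
  have key : ∀ a, (Real.exp (-((h : ℝ) / 2 * n)) * ∑ c ∈ P.supp, P.pw (y + a) c) ^ 2 / tilt h m a
      = ∑ c ∈ P.supp, ∑ c' ∈ P.supp, P.pw y c * P.pw y c' * Real.exp (q c c')
          * tilt h (fun i => P.sig c i + P.sig c' i - m i) a := by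
    intro a
    rw [mul_pow, sq (∑ c ∈ P.supp, P.pw (y + a) c), Finset.sum_mul_sum, Finset.mul_sum,
      Finset.sum_div]
    refine Finset.sum_congr rfl fun c hc => ?_
    rw [Finset.mul_sum, Finset.sum_div]
    refine Finset.sum_congr rfl fun c' hc' => ?_
    have hn : n = ∑ _i : ι, (1 : ℝ) := by simp [n]
    have e : -((h : ℝ) / 2 * n) + -((h : ℝ) / 2 * n) + ∑ i, P.sig c i * a i
        + ∑ i, P.sig c' i * a i - (∑ i, m i * a i - (h : ℝ) / 2 * ∑ i, m i ^ 2)
        = q c c' + (∑ i, (P.sig c i + P.sig c' i - m i) * a i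
          - (h : ℝ) / 2 * ∑ i, (P.sig c i + P.sig c' i - m i) ^ 2) := by
      simp only [hq, hn, Finset.mul_sum, ← Finset.sum_neg_distrib, ← Finset.sum_add_distrib,
        ← Finset.sum_sub_distrib]
      refine Finset.sum_congr rfl fun i _ => ?_
      linear_combination ((h : ℝ) / 2) * (hsq c hc i) + ((h : ℝ) / 2) * (hsq c' hc' i)
    have e' := congrArg Real.exp e
    simp only [Real.exp_add, Real.exp_sub] at e'
    rw [hpw, hpw, sq]
    simp only [tilt, Real.exp_sub]
    rw [div_eq_mul_inv] at e' ⊢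
    linear_combination (P.pw y c * P.pw y c') * e'
  simp only [key]
  have hp0 : ∀ c ∈ P.supp, 0 ≤ P.pw y c := fun c hc =>
    (mul_pos (P.wt_pos c hc) (Real.exp_pos _)).le
  have hterm : ∀ c ∈ P.supp, ∀ c' ∈ P.supp,
      0 ≤ P.pw y c * P.pw y c' * Real.exp (q c c') := fun c hc c' hc' =>
    mul_nonneg (mul_nonneg (hp0 c hc) (hp0 c' hc')) (Real.exp_pos _).le
  have hsum : ∀ a, ENNReal.ofReal (∑ c ∈ P.supp, ∑ c' ∈ P.supp,
        P.pw y c * P.pw y c' * Real.exp (q c c')
          * tilt h (fun i => P.sig c i + P.sig c' i - m i) a)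
      = ∑ c ∈ P.supp, ∑ c' ∈ P.supp, ENNReal.ofReal (P.pw y c * P.pw y c' * Real.exp (q c c'))
          * ENNReal.ofReal (tilt h (fun i => P.sig c i + P.sig c' i - m i) a) := by
    intro a
    rw [ENNReal.ofReal_sum_of_nonneg fun c hc => Finset.sum_nonneg fun c' hc' =>
      mul_nonneg (hterm c hc c' hc') (tilt_pos _ _).le]
    refine Finset.sum_congr rfl fun c hc => ?_
    rw [ENNReal.ofReal_sum_of_nonneg fun c' hc' =>
      mul_nonneg (hterm c hc c' hc') (tilt_pos _ _).le]
    exact Finset.sum_congr rfl fun c' hc' => ENNReal.ofReal_mul (hterm c hc c' hc')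
  simp only [hsum]
  rw [lintegral_finsetSum _ fun c _ => Finset.measurable_sum _ fun c' _ =>
    (measurable_tilt _).ennreal_ofReal.const_mul _]
  simp only [lintegral_finsetSum _ fun c' _ => (measurable_tilt _).ennreal_ofReal.const_mul _,
    lintegral_const_mul _ (measurable_tilt _).ennreal_ofReal, lintegral_tilt hh, mul_one]
  rw [← Finset.sum_congr rfl fun c hc => ENNReal.ofReal_sum_of_nonneg fun c' hc' => hterm c hc c' hc',
    ← ENNReal.ofReal_sum_of_nonneg fun c hc => Finset.sum_nonneg fun c' hc' => hterm c hc c' hc']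
  refine ENNReal.ofReal_le_ofReal ?_
  have hqle : ∀ c ∈ P.supp, ∀ c' ∈ P.supp, |q c c'| ≤ 4 * n * h := by
    intro c hc c' hc'
    rw [hq, abs_mul, NNReal.abs_eq, show 4 * n * (h : ℝ) = h * ∑ _i : ι, (4 : ℝ) by simp [n]; ring]
    refine mul_le_mul_of_nonneg_left ((Finset.abs_sum_le_sum_abs _ _).trans ?_) h.2
    refine Finset.sum_le_sum fun i _ => ?_
    have hmi : |m i| ≤ 1 := hm ▸ P.abs_post_le y i
    rw [abs_mul, show (4 : ℝ) = 2 * 2 by norm_num]
    refine mul_le_mul ?_ ?_ (abs_nonneg _) zero_le_two <;>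
      refine (abs_sub _ _).trans ?_ <;> linarith [P.sig_abs c hc i, P.sig_abs c' hc' i]
  calc ∑ c ∈ P.supp, ∑ c' ∈ P.supp, P.pw y c * P.pw y c' * Real.exp (q c c')
      ≤ ∑ c ∈ P.supp, ∑ c' ∈ P.supp,
          P.pw y c * P.pw y c' * ((1 + 16 * n ^ 2 * (h : ℝ) ^ 2) + q c c') := by
        refine Finset.sum_le_sum fun c hc => Finset.sum_le_sum fun c' hc' => ?_
        refine mul_le_mul_of_nonneg_left ?_ (mul_nonneg (hp0 c hc) (hp0 c' hc'))
        have h1 : |q c c'| ≤ 1 := (hqle c hc c' hc').trans hsmall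
        have h2 := (abs_le.1 (Real.abs_exp_sub_one_sub_id_le h1)).2
        have h3 : q c c' ^ 2 ≤ (4 * n * h) ^ 2 :=
          sq_le_sq.2 ((hqle c hc c' hc').trans (le_abs_self _))
        linarith [mul_pow (4 * n) (h : ℝ) 2, mul_pow (4 : ℝ) n 2]
    _ = _ := by
        have hzero : ∑ c ∈ P.supp, ∑ c' ∈ P.supp, P.pw y c * P.pw y c' * q c c' = 0 := by
          refine Finset.sum_eq_zero fun c _ => ?_
          simp only [hq, Finset.mul_sum]
          rw [Finset.sum_comm]
          refine Finset.sum_eq_zero fun i _ => ?_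
          rw [show ∑ c' ∈ P.supp, P.pw y c * P.pw y c'
              * ((h : ℝ) * ((P.sig c i - m i) * (P.sig c' i - m i)))
            = (P.pw y c * (h : ℝ) * (P.sig c i - m i))
                * ∑ c' ∈ P.supp, P.pw y c' * (P.sig c' i - m i) by
              rw [Finset.mul_sum]; exact Finset.sum_congr rfl fun c' _ => by ring]
          rw [hm, P.sum_centred, mul_zero]
        simp only [mul_add, Finset.sum_add_distrib, hzero, add_zero, ← Finset.sum_mul,
          ← Finset.mul_sum]
        ring

lemma lintegral_sq_div (hh : h ≠ 0) (hsmall : 4 * (Fintype.card ι : ℝ) * h ≤ 1) (N : ℕ) :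
    ∫⁻ x, ENNReal.ofReal (P.lik h N x ^ 2 / dens h P.post N x) ∂incPi ι h N
      ≤ ENNReal.ofReal ((1 + 16 * (Fintype.card ι : ℝ) ^ 2 * (h : ℝ) ^ 2) ^ N) := by
  induction N with
  | zero =>
    refine le_of_eq ?_
    simp [lik, dens, P.wt_sum]
  | succ N ih =>
    have hmeas : ∀ M, Measurable fun x : Fin M → ι → ℝ =>
        ENNReal.ofReal (P.lik h M x ^ 2 / dens h P.post M x) := fun M =>
      (((P.measurable_lik M).pow_const 2).div (measurable_dens P.measurable_post M)).ennreal_ofReal
    rw [lintegral_incPi_succ (hmeas _), pow_succ,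
      ENNReal.ofReal_mul (pow_nonneg (by positivity) _)]
    have hb : ∀ x : Fin N → ι → ℝ,
        ∫⁻ a, ENNReal.ofReal (P.lik h (N + 1) (Fin.snoc x a) ^ 2
            / dens h P.post (N + 1) (Fin.snoc x a)) ∂stepPi ι h
          ≤ ENNReal.ofReal (P.lik h N x ^ 2 / dens h P.post N x)
            * ENNReal.ofReal (1 + 16 * (Fintype.card ι : ℝ) ^ 2 * (h : ℝ) ^ 2) := by
      intro x
      set n : ℝ := (Fintype.card ι : ℝ)
      set C := Real.exp (-((N : ℝ) * ((h : ℝ) / 2 * n))) ^ 2 / dens h P.post N x with hC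
      have hC0 : 0 ≤ C := div_nonneg (sq_nonneg _) (dens_pos _ _ _).le
      have hrw : ∀ a, P.lik h (N + 1) (Fin.snoc x a) ^ 2 / dens h P.post (N + 1) (Fin.snoc x a)
          = C * ((Real.exp (-((h : ℝ) / 2 * n)) * ∑ c ∈ P.supp, P.pw (tot x + a) c) ^ 2
              / tilt h (P.post (tot x)) a) := by
        intro a
        rw [P.lik_eq, tot_snoc, hC]
        simp only [dens, Fin.init_snoc, Fin.snoc_last]
        rw [show -(((N + 1 : ℕ) : ℝ) * ((h : ℝ) / 2 * n))
          = -((N : ℝ) * ((h : ℝ) / 2 * n)) + -((h : ℝ) / 2 * n) by push_cast; ring, Real.exp_add,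
          div_mul_div_comm]
        ring
      simp only [hrw, ENNReal.ofReal_mul hC0]
      rw [lintegral_const_mul' _ _ ENNReal.ofReal_ne_top]
      refine (mul_le_mul_right (P.step_chi hh hsmall (tot x) _ rfl) _).trans (le_of_eq ?_)
      rw [← ENNReal.ofReal_mul hC0, ← ENNReal.ofReal_mul
        (div_nonneg (sq_nonneg _) (dens_pos _ _ _).le), P.lik_eq]
      congr 1
      rw [hC]
      ring
    refine (lintegral_mono hb).trans ?_
    rw [lintegral_mul_const _ (hmeas N)]
    exact mul_le_mul_left ih _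

/-- Total variation bound between the innovations and independent normals. -/
lemma innov_near (hh : h ≠ 0) (hsmall : 4 * (Fintype.card ι : ℝ) * h ≤ 1) (N : ℕ)
    {f : (Fin N → ι → ℝ) → ℝ} (hf : Measurable f) (hf1 : ∀ x, |f x| ≤ 1) :
    |∫ x, P.lik h N x * f (innov h P.post N x) ∂incPi ι h N - ∫ b, f b ∂incPi ι h N|
      ≤ Real.sqrt ((1 + 16 * (Fintype.card ι : ℝ) ^ 2 * (h : ℝ) ^ 2) ^ N - 1) := by
  set K := (1 + 16 * (Fintype.card ι : ℝ) ^ 2 * (h : ℝ) ^ 2) ^ N with hK
  have hM := P.measurable_post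
  set g := fun x => f (innov h P.post N x)
  have hg : Measurable g := hf.comp (measurable_innov hM N)
  have e : ∫ b, f b ∂incPi ι h N = ∫ x, dens h P.post N x * g x ∂incPi ι h N := by
    rw [← integral_shear hh hM N hg]
    simp only [g, innov_shear]
  have hiL := P.integrable_lik hh N
  have hiE := integrable_dens hh hM N
  have hgb : ∀ x, ‖g x‖ ≤ 1 := fun x => hf1 _
  rw [e, ← integral_sub (hiL.mul_bdd hg.aestronglyMeasurable (Filter.Eventually.of_forall hgb))
    (hiE.mul_bdd hg.aestronglyMeasurable (Filter.Eventually.of_forall hgb))]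
  have hnn : ∀ x, 0 ≤ P.lik h N x ^ 2 / dens h P.post N x :=
    fun x => div_nonneg (sq_nonneg _) (dens_pos _ _ _).le
  have hint : Integrable (fun x => P.lik h N x ^ 2 / dens h P.post N x) (incPi ι h N) :=
    ⟨(((P.measurable_lik N).pow_const 2).div (measurable_dens hM N)).aestronglyMeasurable,
      (hasFiniteIntegral_iff_ofReal (Filter.Eventually.of_forall hnn)).2
        ((P.lintegral_sq_div hh hsmall N).trans_lt ENNReal.ofReal_lt_top)⟩
  have hK1 : 1 ≤ K := one_le_pow₀ (by nlinarith [sq_nonneg ((Fintype.card ι : ℝ) * h)])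
  have hchi : ∫ x, P.lik h N x ^ 2 / dens h P.post N x ∂incPi ι h N ≤ K := by
    rw [integral_eq_lintegral_of_nonneg_ae (Filter.Eventually.of_forall hnn) hint.1]
    exact ENNReal.toReal_le_of_le_ofReal (by linarith) (P.lintegral_sq_div hh hsmall N)
  have hEint : ∫ x, dens h P.post N x ∂incPi ι h N = 1 := by
    have := integral_shear hh hM N (f := fun _ => (1 : ℝ)) measurable_const
    simpa using this.symm
  refine le_trans (abs_integral_le_integral_abs) ?_
  -- for every positive `s` the integral is at most `(K - 1) / (2 s) + s / 2`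
  have hs : ∀ s : ℝ, 0 < s →
      ∫ x, |P.lik h N x * g x - dens h P.post N x * g x| ∂incPi ι h N
        ≤ (K - 1) / (2 * s) + s / 2 := by
    intro s hs
    have hpt : ∀ x, |P.lik h N x * g x - dens h P.post N x * g x|
        ≤ (P.lik h N x ^ 2 / dens h P.post N x - 2 * P.lik h N x + dens h P.post N x) / (2 * s)
          + s / 2 * dens h P.post N x := by
      intro x
      rw [← sub_mul, abs_mul]
      refine le_trans (mul_le_of_le_one_right (abs_nonneg _) (hgb x)) ?_
      set L := P.lik h N x
      set E := dens h P.post N x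
      have hE : 0 < E := dens_pos _ _ _
      have h1 : L ^ 2 / E - 2 * L + E = |L - E| ^ 2 / E := by
        rw [sq_abs]; field_simp; ring
      rw [h1]
      have h2 : |L - E| ^ 2 / E / (2 * s) + s / 2 * E - |L - E|
          = (|L - E| - s * E) ^ 2 / (2 * s * E) := by
        field_simp; ring
      have h3 : 0 ≤ (|L - E| - s * E) ^ 2 / (2 * s * E) :=
        div_nonneg (sq_nonneg _) (by positivity)
      linarith
    have hi1 := hint.sub (hiL.const_mul 2)
    have hi2 := (hi1.add hiE).div_const (2 * s)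
    refine (integral_mono_ae ?_ (hi2.add (hiE.const_mul (s / 2)))
      (Filter.Eventually.of_forall hpt)).trans ?_
    · exact ((hiL.mul_bdd hg.aestronglyMeasurable (Filter.Eventually.of_forall hgb)).sub
        (hiE.mul_bdd hg.aestronglyMeasurable (Filter.Eventually.of_forall hgb))).abs
    · simp only [Pi.add_apply, Pi.sub_apply] at hi2 ⊢
      rw [integral_add hi2 (hiE.const_mul _), integral_div]
      have e2 : ∫ x, (P.lik h N x ^ 2 / dens h P.post N x - 2 * P.lik h N x + dens h P.post N x)
            ∂incPi ι h N = (∫ x, P.lik h N x ^ 2 / dens h P.post N x ∂incPi ι h N) - 2 + 1 := by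
        have e3 := integral_add hi1 hiE
        simp only [Pi.sub_apply] at e3
        rw [e3, integral_sub hint (hiL.const_mul 2), integral_const_mul, hEint,
          P.integral_lik hh N, mul_one]
      rw [e2, integral_const_mul, hEint]
      gcongr <;> linarith
  rcases (Real.sqrt_nonneg (K - 1)).lt_or_eq with h0 | h0
  · refine (hs _ h0).trans (le_of_eq ?_)
    have := Real.sq_sqrt (sub_nonneg.2 hK1)
    field_simp
    linarith
  · rw [← h0]
    refine le_of_forall_pos_le_add fun ε hε => ?_
    have hK0 : K - 1 = 0 := by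
      have := Real.sq_sqrt (sub_nonneg.2 hK1)
      rw [← h0] at this
      simpa using this.symm
    have := hs ε hε
    rw [hK0] at this
    simp only [zero_div, zero_add] at this
    linarith

end Mixture

end Vale.Agent.P161
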