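import Mathlib

/-!
Dyadic Schauder coordinates of Brownian increments and their linear algebra.
-/

open MeasureTheory ProbabilityTheory
open scoped ENNReal NNReal

namespace Vale.Agent.P161

/-- The scale of the level `n` midpoint coordinate. -/
noncomputable def amp (n : ℕ) : ℝ := Real.sqrt ((1 / 2 : ℝ) ^ n) / 2

/-- The mesh at level `n`. -/
noncomputable def mesh (n : ℕ) : ℝ := (1 / 2 : ℝ) ^ n

lemma mesh_pos (n : ℕ) : 0 < mesh n := by unfold mesh; positivity

lemma mesh_succ (n : ℕ) : mesh (n + 1) = mesh n / 2 := by unfold mesh; ring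

lemma amp_pos (n : ℕ) : 0 < amp n := by unfold amp; positivity

lemma amp_sq (n : ℕ) : amp n ^ 2 = mesh n / 4 := by
  unfold amp mesh
  rw [div_pow, Real.sq_sqrt (by positivity)]
  norm_num

/-- `±1` according to parity. -/
noncomputable def sgn (k : ℕ) : ℝ := if k % 2 = 0 then 1 else -1

/-- The level `n` increments built from the coefficients. -/
noncomputable def inc : ℕ → (ℕ × ℕ → ℝ) → ℕ → ℝ
  | 0, Z, k => Z (0, k)
  | n + 1, Z, k => inc n Z (k / 2) / 2 + sgn k * amp n * Z (n + 1, k / 2)

/-- Sum neighbouring pairs. -/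
def agg (b : ℕ → ℝ) : ℕ → ℝ := fun j => b (2 * j) + b (2 * j + 1)

/-- The coefficients read off from level `n` increments (zero above level `n`). -/
noncomputable def coef : ℕ → ℕ × ℕ → (ℕ → ℝ) → ℝ
  | 0, idx, b => if idx.1 = 0 then b idx.2 else 0
  | n + 1, idx, b =>
    if idx.1 = n + 1 then (b (2 * idx.2) - b (2 * idx.2 + 1)) / (2 * amp n)
    else coef n idx (agg b)

/-- The indices relevant for level `n` and horizon `T`. -/
def lvl (T : ℕ) : ℕ → Finset (ℕ × ℕ)
  | 0 => (Finset.range T).image fun i => (0, i)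
  | n + 1 => lvl T n ∪ (Finset.range (T * 2 ^ n)).image fun j => (n + 1, j)

lemma mem_lvl {T n : ℕ} {idx : ℕ × ℕ} :
    idx ∈ lvl T n ↔ idx.1 ≤ n ∧ idx.2 < T * 2 ^ (idx.1 - 1) := by
  induction n with
  | zero =>
    obtain ⟨l, j⟩ := idx
    simp only [lvl, Finset.mem_image, Finset.mem_range, Prod.mk.injEq, Nat.le_zero]
    constructor
    · rintro ⟨i, hi, rfl, rfl⟩; simpa using hi
    · rintro ⟨rfl, hj⟩; exact ⟨j, by simpa using hj, rfl, rfl⟩
  | succ n ih =>
    obtain ⟨l, j⟩ := idx
    simp only [lvl, Finset.mem_union, ih, Finset.mem_image, Finset.mem_range, Prod.mk.injEq]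
    constructor
    · rintro (⟨h1, h2⟩ | ⟨i, hi, rfl, rfl⟩)
      · exact ⟨by omega, h2⟩
      · exact ⟨le_rfl, by simpa using hi⟩
    · rintro ⟨h1, h2⟩
      rcases Nat.lt_or_ge l (n + 1) with h | h
      · exact Or.inl ⟨by omega, h2⟩
      · obtain rfl : l = n + 1 := by omega
        exact Or.inr ⟨j, by simpa using h2, rfl, rfl⟩

lemma lvl_mono {T T' n n' : ℕ} (hT : T ≤ T') (hn : n ≤ n') : lvl T n ⊆ lvl T' n' := by
  intro idx h
  rw [mem_lvl] at h ⊢
  exact ⟨h.1.trans hn, h.2.trans_le (Nat.mul_le_mul_right _ hT)⟩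

lemma sum_range_two_mul {M : Type*} [AddCommMonoid M] (f : ℕ → M) (N : ℕ) :
    ∑ k ∈ Finset.range (2 * N), f k = ∑ j ∈ Finset.range N, (f (2 * j) + f (2 * j + 1)) := by
  induction N with
  | zero => simp
  | succ N ih =>
    rw [show 2 * (N + 1) = 2 * N + 1 + 1 by ring, Finset.sum_range_succ, Finset.sum_range_succ, ih,
      Finset.sum_range_succ, add_assoc]

@[simp] lemma sgn_even (j : ℕ) : sgn (2 * j) = 1 := by simp [sgn]
@[simp] lemma sgn_odd (j : ℕ) : sgn (2 * j + 1) = -1 := by simp [sgn]

lemma half_even (j : ℕ) : 2 * j / 2 = j := by omega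
lemma half_odd (j : ℕ) : (2 * j + 1) / 2 = j := by omega

lemma inc_even (n : ℕ) (Z : ℕ × ℕ → ℝ) (j : ℕ) :
    inc (n + 1) Z (2 * j) = inc n Z j / 2 + amp n * Z (n + 1, j) := by
  simp [inc]

lemma inc_odd (n : ℕ) (Z : ℕ × ℕ → ℝ) (j : ℕ) :
    inc (n + 1) Z (2 * j + 1) = inc n Z j / 2 - amp n * Z (n + 1, j) := by
  simp [inc, half_odd, sub_eq_add_neg]

lemma agg_inc (n : ℕ) (Z : ℕ × ℕ → ℝ) : agg (inc (n + 1) Z) = inc n Z := by
  funext j; rw [agg, inc_even, inc_odd]; ring

lemma inc_congr {T n : ℕ} {Z Z' : ℕ × ℕ → ℝ} (h : ∀ idx ∈ lvl T n, Z idx = Z' idx) {k : ℕ}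
    (hk : k < T * 2 ^ n) : inc n Z k = inc n Z' k := by
  induction n generalizing k with
  | zero => exact h _ (mem_lvl.2 ⟨le_rfl, by simpa using hk⟩)
  | succ n ih =>
    have hk' : k / 2 < T * 2 ^ n := by rw [pow_succ, ← mul_assoc] at hk; omega
    simp only [inc]
    rw [ih (fun idx hi => h idx (lvl_mono le_rfl (Nat.le_succ n) hi)) hk',
      h (n + 1, k / 2) (mem_lvl.2 ⟨le_rfl, by simpa using hk'⟩)]

lemma inc_add (n : ℕ) (Z Z' : ℕ × ℕ → ℝ) (k : ℕ) :
    inc n (Z + Z') k = inc n Z k + inc n Z' k := by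
  induction n generalizing k with
  | zero => rfl
  | succ n ih => simp only [inc, ih, Pi.add_apply]; ring

lemma inc_smul (n : ℕ) (c : ℝ) (Z : ℕ × ℕ → ℝ) (k : ℕ) :
    inc n (c • Z) k = c * inc n Z k := by
  induction n generalizing k with
  | zero => rfl
  | succ n ih => simp only [inc, ih, Pi.smul_apply, smul_eq_mul]; ring

lemma inc_measurable (n k : ℕ) : Measurable fun Z : ℕ × ℕ → ℝ => inc n Z k := by
  induction n generalizing k with
  | zero => exact measurable_pi_apply _
  | succ n ih =>
    exact ((ih _).div_const _).add ((measurable_pi_apply _).const_mul _)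

lemma coef_inc {n : ℕ} {idx : ℕ × ℕ} (h : idx.1 ≤ n) (Z : ℕ × ℕ → ℝ) :
    coef n idx (inc n Z) = Z idx := by
  induction n with
  | zero =>
    obtain ⟨l, j⟩ := idx
    obtain rfl : l = 0 := Nat.le_zero.1 h
    simp [coef, inc]
  | succ n ih =>
    by_cases hl : idx.1 = n + 1
    · have ha := (amp_pos n).ne'
      rw [coef, if_pos hl, inc_even, inc_odd, show (n + 1, idx.2) = idx from Prod.ext hl.symm rfl]
      field_simp
      ring
    · rw [coef, if_neg hl, agg_inc, ih (by omega)]

lemma coef_of_gt {n : ℕ} {idx : ℕ × ℕ} (h : n < idx.1) (b : ℕ → ℝ) : coef n idx b = 0 := by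
  induction n generalizing b with
  | zero => rw [coef, if_neg (by omega)]
  | succ n ih => rw [coef, if_neg (by omega), ih (by omega)]

lemma inc_coef (n : ℕ) (b : ℕ → ℝ) (k : ℕ) : inc n (fun idx => coef n idx b) k = b k := by
  induction n generalizing b k with
  | zero => simp [inc, coef]
  | succ n ih =>
    have ha := (amp_pos n).ne'
    have e : inc n (fun idx => coef (n + 1) idx b) (k / 2) = agg b (k / 2) := by
      have e1 : inc n (fun idx => coef (n + 1) idx b) (k / 2)
          = inc n (fun idx => coef n idx (agg b)) (k / 2) :=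
        inc_congr (T := k / 2 + 1) (fun idx hi => by
          rw [coef, if_neg (by have := (mem_lvl.1 hi).1; omega)])
          (lt_of_lt_of_le (Nat.lt_succ_self _) (Nat.le_mul_of_pos_right _ (Nat.two_pow_pos n)))
      rw [e1, ih]
    simp only [inc]
    rw [e, coef, if_pos rfl, agg]
    rcases Nat.even_or_odd' k with ⟨j, rfl | rfl⟩
    · simp only [half_even, sgn_even]; field_simp; ring
    · simp only [half_odd, sgn_odd]; field_simp; ring

lemma coef_add (n : ℕ) (idx : ℕ × ℕ) (b b' : ℕ → ℝ) :
    coef n idx (b + b') = coef n idx b + coef n idx b' := by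
  induction n generalizing b b' with
  | zero => simp only [coef]; split_ifs <;> simp
  | succ n ih =>
    simp only [coef]
    have : agg (b + b') = agg b + agg b' := by funext j; simp [agg]; ring
    split_ifs
    · simp only [Pi.add_apply]; ring
    · rw [this, ih]

lemma coef_sub (n : ℕ) (idx : ℕ × ℕ) (b b' : ℕ → ℝ) :
    coef n idx (b - b') = coef n idx b - coef n idx b' := by
  have := coef_add n idx (b - b') b'
  rw [sub_add_cancel] at this
  linarith

lemma coef_congr {T n : ℕ} {idx : ℕ × ℕ} (hi : idx.2 < T * 2 ^ (idx.1 - 1)) {b b' : ℕ → ℝ}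
    (h : ∀ k < T * 2 ^ n, b k = b' k) : coef n idx b = coef n idx b' := by
  induction n generalizing b b' with
  | zero =>
    simp only [coef]
    split_ifs with h0
    · exact h _ (by simpa [h0] using hi)
    · rfl
  | succ n ih =>
    simp only [coef]
    have hN : T * 2 ^ (n + 1) = T * 2 ^ n * 2 := by ring
    split_ifs with h0
    · rw [h0] at hi
      simp only [Nat.add_sub_cancel] at hi
      rw [h _ (by omega), h _ (by omega)]
    · exact ih fun k hk => by simp only [agg]; rw [h _ (by omega), h _ (by omega)]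

/-- The constant bounding a coefficient by the total variation of the increments. -/
noncomputable def coefK (idx : ℕ × ℕ) : ℝ :=
  if idx.1 = 0 then 1 else 1 / (2 * amp (idx.1 - 1))

lemma coefK_nonneg (idx : ℕ × ℕ) : 0 ≤ coefK idx := by
  unfold coefK
  split_ifs
  · norm_num
  · exact div_nonneg zero_le_one (mul_nonneg zero_le_two (amp_pos _).le)

lemma abs_coef_le {T : ℕ} (n : ℕ) {idx : ℕ × ℕ} (hi : idx.2 < T * 2 ^ (idx.1 - 1)) (b : ℕ → ℝ) :
    |coef n idx b| ≤ coefK idx * ∑ k ∈ Finset.range (T * 2 ^ n), |b k| := by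
  induction n generalizing b with
  | zero =>
    simp only [coef]
    split_ifs with h0
    · rw [coefK, if_pos h0, one_mul]
      exact Finset.single_le_sum (f := fun k => |b k|) (fun k _ => abs_nonneg _)
        (Finset.mem_range.2 (by simpa [h0] using hi))
    · simpa using mul_nonneg (coefK_nonneg idx) (Finset.sum_nonneg fun k _ => abs_nonneg (b k))
  | succ n ih =>
    simp only [coef]
    rw [show T * 2 ^ (n + 1) = 2 * (T * 2 ^ n) by ring, sum_range_two_mul]
    split_ifs with h0
    · rw [coefK, if_neg (by omega), h0]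
      simp only [Nat.add_sub_cancel]
      rw [h0] at hi
      simp only [Nat.add_sub_cancel] at hi
      rw [abs_div, abs_of_pos (mul_pos two_pos (amp_pos n)), one_div_mul_eq_div]
      gcongr
      · exact (mul_pos two_pos (amp_pos n)).le
      · exact le_trans (abs_sub _ _) (Finset.single_le_sum
          (f := fun k => |b (2 * k)| + |b (2 * k + 1)|)
          (fun k _ => add_nonneg (abs_nonneg _) (abs_nonneg _)) (Finset.mem_range.2 hi))
    · refine (ih (agg b)).trans (mul_le_mul_of_nonneg_left ?_ (coefK_nonneg idx))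
      exact Finset.sum_le_sum fun k _ => abs_add_le _ _

/-- A coarse increment sequence spread evenly over a finer grid. -/
noncomputable def stretch (m : ℕ) (b : ℕ → ℝ) : ℕ → ℝ := fun k => b (k / 2 ^ m) / 2 ^ m

lemma coef_stretch {n : ℕ} {idx : ℕ × ℕ} (h : idx.1 ≤ n) (m : ℕ) (b : ℕ → ℝ) :
    coef (n + m) idx (stretch m b) = coef n idx b := by
  induction m with
  | zero => congr 1; funext k; simp [stretch]
  | succ m ih =>
    rw [← Nat.add_assoc, coef, if_neg (by omega)]
    have : agg (stretch (m + 1) b) = stretch m b := by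
      funext j
      have h1 : 2 * j / 2 ^ (m + 1) = j / 2 ^ m := by
        rw [pow_succ', Nat.mul_div_mul_left _ _ two_pos]
      have h2 : (2 * j + 1) / 2 ^ (m + 1) = j / 2 ^ m := by
        rw [pow_succ', ← Nat.div_div_eq_div_mul, half_odd]
      simp only [agg, stretch, h1, h2]
      rw [pow_succ]
      field_simp
      ring
    rw [this, ih]

/-- Partial sums of the increments. -/
noncomputable def cum (n : ℕ) (Z : ℕ × ℕ → ℝ) (k : ℕ) : ℝ := ∑ j ∈ Finset.range k, inc n Z j

lemma cum_succ (n : ℕ) (Z : ℕ × ℕ → ℝ) (k : ℕ) : cum n Z (k + 1) = cum n Z k + inc n Z k :=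
  Finset.sum_range_succ _ _

lemma cum_even (n : ℕ) (Z : ℕ × ℕ → ℝ) (j : ℕ) : cum (n + 1) Z (2 * j) = cum n Z j := by
  rw [cum, sum_range_two_mul]
  exact Finset.sum_congr rfl fun i _ => congrFun (agg_inc n Z) i

lemma cum_odd (n : ℕ) (Z : ℕ × ℕ → ℝ) (j : ℕ) :
    cum (n + 1) Z (2 * j + 1) =
      (cum n Z j + cum n Z (j + 1)) / 2 + amp n * Z (n + 1, j) := by
  rw [cum_succ, cum_even, cum_succ, inc_even]; ring

lemma cum_refine (n m : ℕ) (Z : ℕ × ℕ → ℝ) (j : ℕ) :
    cum (n + m) Z (2 ^ m * j) = cum n Z j := by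
  induction m with
  | zero => simp
  | succ m ih => rw [← Nat.add_assoc, pow_succ', mul_assoc, cum_even, ih]

/-- The `ℓ¹` bound on the cumulative basis function of a coordinate. -/
noncomputable def cumBd (T : ℕ) (idx : ℕ × ℕ) : ℝ :=
  if idx.1 = 0 then (T : ℝ) else amp (idx.1 - 1) * mesh idx.1

lemma inc_single_of_lt {n : ℕ} {idx : ℕ × ℕ} (h : n < idx.1) (k : ℕ) :
    inc n (Pi.single idx 1) k = 0 := by
  induction n generalizing k with
  | zero => simp only [inc]; rw [Pi.single_eq_of_ne (fun e => by rw [← e] at h; simp at h)]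
  | succ n ih =>
    simp only [inc]
    rw [ih (by omega), Pi.single_eq_of_ne (fun e => by rw [← e] at h; simp at h)]
    ring

lemma cum_single_top_mem (n i k : ℕ) :
    0 ≤ cum n (Pi.single (0, i) 1) k ∧ cum n (Pi.single (0, i) 1) k ≤ 1 := by
  induction n generalizing k with
  | zero =>
    simp only [cum, inc]
    rw [show ∑ x ∈ Finset.range k, (Pi.single (0, i) (1 : ℝ) : ℕ × ℕ → ℝ) (0, x)
      = if i ∈ Finset.range k then 1 else 0 by
        simp [Pi.single_apply, Finset.sum_ite_eq', Prod.ext_iff]]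
    split_ifs <;> norm_num
  | succ n ih =>
    rcases Nat.even_or_odd' k with ⟨j, rfl | rfl⟩
    · rw [cum_even]; exact ih j
    · rw [cum_odd, Pi.single_eq_of_ne (by simp)]
      have := ih j; have := ih (j + 1)
      constructor <;> linarith

lemma cum_single_end {T n : ℕ} {idx : ℕ × ℕ} (hl : 1 ≤ idx.1) :
    cum n (Pi.single idx 1) (T * 2 ^ n) = 0 := by
  have := cum_refine 0 n (Pi.single idx (1 : ℝ)) T
  rw [zero_add, mul_comm] at this
  rw [this]
  exact Finset.sum_eq_zero fun x _ => inc_single_of_lt (by omega) x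

lemma mesh_sum_abs_cum_single {T n : ℕ} {idx : ℕ × ℕ} (h : idx ∈ lvl T n) :
    mesh n * ∑ k ∈ Finset.range (T * 2 ^ n), |cum n (Pi.single idx 1) k| ≤ cumBd T idx := by
  obtain ⟨hn, hj⟩ := mem_lvl.1 h
  obtain ⟨l, j⟩ := idx
  rcases Nat.eq_zero_or_pos l with rfl | hl
  · rw [cumBd, if_pos rfl]
    calc mesh n * ∑ k ∈ Finset.range (T * 2 ^ n), |cum n (Pi.single (0, j) 1) k|
        ≤ mesh n * ∑ k ∈ Finset.range (T * 2 ^ n), (1 : ℝ) := by
          gcongr with k hk
          · exact (mesh_pos n).le
          · exact abs_le.2 ⟨by linarith [(cum_single_top_mem n j k).1], (cum_single_top_mem n j k).2⟩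
      _ = (T : ℝ) := by
          simp only [Finset.sum_const, Finset.card_range, nsmul_eq_mul, mul_one, mesh]
          push_cast
          rw [one_div_pow]
          field_simp
  · rw [cumBd, if_neg (show ¬ (l, j).1 = 0 by simp; omega)]
    obtain ⟨l, rfl⟩ : ∃ l', l = l' + 1 := ⟨l - 1, by omega⟩
    simp only [Nat.add_sub_cancel] at hj ⊢
    simp only at hn
    clear h
    induction n with
    | zero => omega
    | succ n ih =>
      rw [show T * 2 ^ (n + 1) = 2 * (T * 2 ^ n) by ring, sum_range_two_mul]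
      simp only [cum_even, cum_odd]
      by_cases hl' : l = n
      · subst hl'
        have hz : ∀ k, cum l (Pi.single (l + 1, j) (1 : ℝ)) k = 0 :=
          fun k => Finset.sum_eq_zero fun x _ => inc_single_of_lt (by simp) x
        simp only [hz]
        rw [Finset.sum_eq_single j]
        · simp [abs_of_pos (amp_pos l), mul_comm]
        · intro k _ hk
          rw [Pi.single_eq_of_ne (by simp [hk])]
          simp
        · intro hh; exact absurd (Finset.mem_range.2 hj) hh
      · have ih' := ih (by omega)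
        have hne : ∀ k, (Pi.single (l + 1, j) (1 : ℝ) : ℕ × ℕ → ℝ) (n + 1, k) = 0 :=
          fun k => Pi.single_eq_of_ne (by simp; omega) _
        simp only [hne, mul_zero, add_zero]
        set C := cum n (Pi.single (l + 1, j) (1 : ℝ)) with hC
        have hend : C (T * 2 ^ n) = 0 := cum_single_end (by simp)
        have h0 : C 0 = 0 := by simp [hC, cum]
        set N := T * 2 ^ n
        have hshift : ∑ k ∈ Finset.range N, |C (k + 1)| = ∑ k ∈ Finset.range N, |C k| := by
          have e := Finset.sum_range_succ' (fun k => |C k|) N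
          rw [Finset.sum_range_succ, hend, h0] at e
          simpa using e.symm
        calc mesh (n + 1) * ∑ k ∈ Finset.range N, (|C k| + |(C k + C (k + 1)) / 2|)
            ≤ mesh (n + 1) * ∑ k ∈ Finset.range N,
                (|C k| + (|C k| / 2 + |C (k + 1)| / 2)) := by
              gcongr with k hk
              · exact (mesh_pos _).le
              · rw [abs_div, abs_two, ← add_div]
                gcongr
                exact abs_add_le _ _
          _ = mesh n * ∑ k ∈ Finset.range N, |C k| := by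
              simp only [Finset.sum_add_distrib, ← Finset.sum_div, hshift, mesh_succ]
              ring
          _ ≤ _ := ih'

end Vale.Agent.P161
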