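import Vale.Agent.P161.Weight
import Vale.Agent.P161.Haar

/-!
Coordinatewise stability of the Euler scheme, with constants independent of the volume.
-/

open SimpleGraph

namespace Vale.Agent.P161

universe u

variable {V : Type u} [DecidableEq V] {G : SimpleGraph V} [DecidableRel G.Adj] {θ : ℝ} {d : ℕ}

set_option linter.unusedSectionVars false

/-- The coefficients at site `u`. -/
def slice (Z : V × ℕ × ℕ → ℝ) (u : V) : ℕ × ℕ → ℝ := fun idx => Z (u, idx)

/-- The Euler scheme on `D` driven by the increments read from `Z`. -/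
noncomputable def euler (G : SimpleGraph V) [DecidableRel G.Adj] (θ : ℝ) (D : Finset V) (n : ℕ)
    (Z : V × ℕ × ℕ → ℝ) : ℕ → V → ℝ
  | 0 => fun _ => 0
  | k + 1 => fun u =>
    if u ∈ D then euler G θ D n Z k u + inc n (slice Z u) k
      + mesh n * mag G θ D (euler G θ D n Z k) u
    else 0

lemma euler_congr {T n : ℕ} {D : Finset V} {Z Z' : V × ℕ × ℕ → ℝ}
    (h : ∀ u ∈ D, ∀ idx ∈ lvl T n, Z (u, idx) = Z' (u, idx)) :
    ∀ k ≤ T * 2 ^ n, euler G θ D n Z k = euler G θ D n Z' k := by
  intro k
  induction k with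
  | zero => intro _; rfl
  | succ k ih =>
    intro hk
    funext u
    simp only [euler]
    by_cases hu : u ∈ D
    · rw [if_pos hu, if_pos hu, ih (by omega),
        inc_congr (Z := slice Z u) (Z' := slice Z' u) (h u hu) (by omega : k < T * 2 ^ n)]
    · rw [if_neg hu, if_neg hu]

lemma measurable_mag (D : Finset V) (v : V) : Measurable fun y => mag G θ D y v := by
  unfold mag M Z W fieldSum S
  fun_prop

lemma measurable_euler (D : Finset V) (n k : ℕ) (u : V) :
    Measurable fun Z => euler G θ D n Z k u := by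
  induction k generalizing u with
  | zero => exact measurable_const
  | succ k ih =>
    by_cases hu : u ∈ D
    · simp only [euler, if_pos hu]
      refine ((ih u).add ((inc_measurable n k).comp ?_)).add (Measurable.const_mul ?_ _)
      · exact measurable_pi_lambda _ fun idx => measurable_pi_apply _
      · exact (measurable_mag D u).comp (measurable_pi_lambda _ fun v => ih v)
    · simp only [euler, if_neg hu]
      exact measurable_const

lemma Reg.abs_lt_one (h : Reg G d) {θ r : ℝ} (hθ : 0 ≤ θ) (hr : θ < r)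
    (hr' : ((d : ℝ) - 1) * r ^ 2 < 1) : θ < 1 ∧ ((d : ℝ) - 1) * (θ * r) < 1 := by
  have hd : (2 : ℝ) ≤ d := by exact_mod_cast h.two_le
  have h1 : θ * r ≤ r ^ 2 := by rw [sq]; exact mul_le_mul_of_nonneg_right hr.le (hθ.trans hr.le)
  constructor
  · by_contra hh
    nlinarith
  · nlinarith

/-- The Schur constant. -/
noncomputable def schurC (d : ℕ) (θ r : ℝ) : ℝ :=
  2 / (1 - ((d : ℝ) - 1) * (θ * r)) / (1 - θ / r)

lemma schurC_nonneg (h : Reg G d) {θ r : ℝ} (hθ : 0 ≤ θ) (hr : θ < r)
    (hr' : ((d : ℝ) - 1) * r ^ 2 < 1) : 0 ≤ schurC d θ r := by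
  have hr0 : 0 < r := lt_of_le_of_lt hθ hr
  refine div_nonneg (div_nonneg two_pos.le ?_) ?_
  · linarith [(h.abs_lt_one hθ hr hr').2]
  · rw [sub_nonneg, div_le_one hr0]; exact hr.le

/-- The effect of moving one coefficient on the Euler path. -/
lemma euler_perturb (h : Reg G d) {r : ℝ} (hθ : 0 ≤ θ) (hr : θ < r)
    (hr' : ((d : ℝ) - 1) * r ^ 2 < 1) {D : Finset V} (hD : Conn G D) {u0 : V} (hu0 : u0 ∈ D)
    (n : ℕ) (idx : ℕ × ℕ) (Z : V × ℕ × ℕ → ℝ) (t s : ℝ) :
    ∀ k, ∀ u ∈ D,
      |euler G θ D n (Function.update Z (u0, idx) t) k u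
        - euler G θ D n (Function.update Z (u0, idx) s) k u
        - (if u = u0 then (t - s) * cum n (Pi.single idx 1) k else 0)|
      ≤ |t - s| * ((1 + mesh n * schurC d θ r) ^ k
          * (mesh n * ∑ j ∈ Finset.range k, |cum n (Pi.single idx 1) j|)) * r ^ G.dist u u0 := by
  have hr0 : 0 < r := lt_of_le_of_lt hθ hr
  obtain ⟨hθ1, hz⟩ := h.abs_lt_one hθ hr hr'
  have hC := schurC_nonneg h hθ hr hr'
  have hh := mesh_pos n
  set lam := schurC d θ r
  set C := cum n (Pi.single idx (1 : ℝ)) with hCdef
  intro k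
  induction k with
  | zero => intro u _; simp [euler, hCdef, cum]
  | succ k ih =>
    intro u hu
    simp only [euler, if_pos hu]
    set y := euler G θ D n (Function.update Z (u0, idx) t) k
    set y' := euler G θ D n (Function.update Z (u0, idx) s) k
    have hinc : inc n (slice (Function.update Z (u0, idx) t) u) k
        - inc n (slice (Function.update Z (u0, idx) s) u) k
        = if u = u0 then (t - s) * inc n (Pi.single idx 1) k else 0 := by
      by_cases hu' : u = u0
      · subst hu'
        rw [if_pos rfl]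
        have e : slice (Function.update Z (u, idx) t) u
            = slice (Function.update Z (u, idx) s) u + (t - s) • Pi.single idx 1 := by
          funext i
          by_cases hi : i = idx
          · subst hi; simp [slice]
          · simp [slice, hi]
        rw [e, inc_add, inc_smul]
        ring
      · rw [if_neg hu']
        have e : slice (Function.update Z (u0, idx) t) u
            = slice (Function.update Z (u0, idx) s) u := by
          funext i; simp [slice, hu']
        rw [e, sub_self]
    set A := (1 + mesh n * lam) ^ k * (mesh n * ∑ j ∈ Finset.range k, |C j|) with hA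
    have hA0 : 0 ≤ A := by positivity
    have hm : |mag G θ D y u - mag G θ D y' u|
        ≤ (|t - s| * A * lam + |t - s| * |C k|) * r ^ G.dist u u0 := by
      refine (mag_lip h.tree hθ hθ1 hD hu y' y).trans ?_
      have hb : ∀ w ∈ D, θ ^ G.dist u w * |y w - y' w|
          ≤ θ ^ G.dist u w * r ^ G.dist w u0 * (|t - s| * A)
            + (if w = u0 then θ ^ G.dist u w * (|t - s| * |C k|) else 0) := by
        intro w hw
        have h1 := ih w hw
        split_ifs with hwu
        · subst hwu
          rw [if_pos rfl] at h1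
          have h2 : |y w - y' w| ≤ |t - s| * A * r ^ G.dist w w + |t - s| * |C k| := by
            rw [← abs_mul]
            calc |y w - y' w| = |(y w - y' w - (t - s) * C k) + (t - s) * C k| := by ring_nf
              _ ≤ _ := abs_add_le _ _
              _ ≤ _ := add_le_add_left h1 _
          refine (mul_le_mul_of_nonneg_left h2 (pow_nonneg hθ _)).trans (le_of_eq ?_)
          ring
        · rw [if_neg hwu, sub_zero] at h1
          refine (mul_le_mul_of_nonneg_left h1 (pow_nonneg hθ _)).trans (le_of_eq ?_)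
          ring
      refine (Finset.sum_le_sum hb).trans ?_
      rw [Finset.sum_add_distrib, ← Finset.sum_mul, Finset.sum_ite_eq' D u0, if_pos hu0, add_mul]
      refine add_le_add ?_ ?_
      · calc _ ≤ lam * r ^ G.dist u u0 * (|t - s| * A) :=
              mul_le_mul_of_nonneg_right (h.schur hθ hr hz D u u0) (mul_nonneg (abs_nonneg _) hA0)
          _ = _ := by ring
      · rw [mul_comm]
        gcongr
    have e : y u + inc n (slice (Function.update Z (u0, idx) t) u) k + mesh n * mag G θ D y u
        - (y' u + inc n (slice (Function.update Z (u0, idx) s) u) k + mesh n * mag G θ D y' u)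
        - (if u = u0 then (t - s) * C (k + 1) else 0)
      = (y u - y' u - if u = u0 then (t - s) * C k else 0)
        + mesh n * (mag G θ D y u - mag G θ D y' u) := by
      have hk1 : C (k + 1) = C k + inc n (Pi.single idx 1) k := cum_succ _ _ _
      by_cases hu' : u = u0
      · rw [if_pos hu'] at hinc ⊢
        rw [if_pos hu', hk1]
        linear_combination hinc
      · rw [if_neg hu'] at hinc ⊢
        rw [if_neg hu']
        linear_combination hinc
    rw [e]
    refine (abs_add_le _ _).trans ?_
    rw [abs_mul, abs_of_pos hh]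
    refine (add_le_add (ih u hu) (mul_le_mul_of_nonneg_left hm hh.le)).trans ?_
    have h1 : (1 : ℝ) ≤ (1 + mesh n * lam) ^ (k + 1) := one_le_pow₀ (by
      linarith [mul_nonneg hh.le hC])
    rw [Finset.sum_range_succ, mul_add (mesh n), mul_add ((1 + mesh n * lam) ^ (k + 1))]
    have h2 : mesh n * |C k| ≤ (1 + mesh n * lam) ^ (k + 1) * (mesh n * |C k|) :=
      le_mul_of_one_le_left (by positivity) h1
    have h3 : 0 ≤ |t - s| * r ^ G.dist u u0 := by positivity
    have h4 := mul_le_mul_of_nonneg_left h2 h3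
    rw [hA, pow_succ]
    rw [pow_succ] at h4
    linarith

/-- The Lipschitz constant of a coordinate, up to the spatial factor. -/
noncomputable def coordC (lam : ℝ) (T : ℕ) (idx : ℕ × ℕ) : ℝ :=
  if idx.2 < T * 2 ^ (idx.1 - 1) then
    (if idx.1 = 0 then 1 else 0) + Real.exp (lam * T) * cumBd T idx
  else 0

/-- Truncation to `[-1, 1]`. -/
noncomputable def clip (x : ℝ) : ℝ := max (-1) (min 1 x)

lemma abs_clip_le (x : ℝ) : |clip x| ≤ 1 :=
  abs_le.2 ⟨le_max_left _ _, max_le (by norm_num) (min_le_left _ _)⟩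

lemma clip_lip (x y : ℝ) : |clip x - clip y| ≤ |x - y| := by
  unfold clip
  calc _ ≤ |min 1 x - min 1 y| := by
        simpa [max_comm] using abs_max_sub_max_le_abs (min 1 x) (min 1 y) (-1 : ℝ)
    _ ≤ _ := by simpa [min_comm] using abs_min_sub_min_le_max 1 x 1 y

lemma measurable_clip : Measurable clip := by unfold clip; fun_prop

/-- The endpoint of the Euler path at `v`, clipped, moves at most `r ^ dist * coordC` per unit
change of a coefficient. -/
lemma endpoint_lip (h : Reg G d) {r : ℝ} (hθ : 0 ≤ θ) (hr : θ < r)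
    (hr' : ((d : ℝ) - 1) * r ^ 2 < 1) {D : Finset V} (hD : Conn G D) {v u0 : V} (hv : v ∈ D)
    (hu0 : u0 ∈ D) {T n : ℕ} {idx : ℕ × ℕ} (hidx : idx ∈ lvl T n) (Z : V × ℕ × ℕ → ℝ) (t s : ℝ) :
    |clip (euler G θ D n (Function.update Z (u0, idx) t) (T * 2 ^ n) v)
        - clip (euler G θ D n (Function.update Z (u0, idx) s) (T * 2 ^ n) v)|
      ≤ r ^ G.dist v u0 * coordC (schurC d θ r) T idx * |t - s| := by
  have hr0 : 0 < r := lt_of_le_of_lt hθ hr
  have hC := schurC_nonneg h hθ hr hr'
  set lam := schurC d θ r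
  refine (clip_lip _ _).trans ?_
  have key := euler_perturb h hθ hr hr' hD hu0 n idx Z t s (T * 2 ^ n) v hv
  set E := cum n (Pi.single idx (1 : ℝ)) (T * 2 ^ n) with hE
  set B := (1 + mesh n * lam) ^ (T * 2 ^ n) *
    (mesh n * ∑ j ∈ Finset.range (T * 2 ^ n), |cum n (Pi.single idx 1) j|)
  obtain ⟨h1, h2⟩ := mem_lvl.1 hidx
  have hBle : B ≤ Real.exp (lam * T) * cumBd T idx := by
    refine mul_le_mul ?_ (mesh_sum_abs_cum_single hidx)
      (mul_nonneg (mesh_pos n).le (Finset.sum_nonneg fun _ _ => abs_nonneg _)) (Real.exp_pos _).le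
    have he : (1 + mesh n * lam) ≤ Real.exp (mesh n * lam) := by
      linarith [Real.add_one_le_exp (mesh n * lam)]
    refine (pow_le_pow_left₀ (by linarith [mul_nonneg (mesh_pos n).le hC]) he _).trans (le_of_eq ?_)
    rw [← Real.exp_nat_mul]
    congr 1
    push_cast
    rw [mesh, one_div_pow]
    field_simp
  have hEle : |if v = u0 then (t - s) * E else 0|
      ≤ |t - s| * (if idx.1 = 0 then 1 else 0) * r ^ G.dist v u0 := by
    split_ifs with ha hb
    · subst ha
      obtain ⟨_, j⟩ := idx
      subst hb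
      have := cum_single_top_mem n j (T * 2 ^ n)
      simp only [dist_self, pow_zero, mul_one, abs_mul]
      exact mul_le_of_le_one_right (abs_nonneg _) (abs_le.2 ⟨by linarith [this.1], this.2⟩)
    · rw [hE, cum_single_end (Nat.one_le_iff_ne_zero.2 hb)]
      simp
    · simp only [abs_zero]; positivity
    · simp
  rw [coordC, if_pos h2]
  calc _ = |(euler G θ D n (Function.update Z (u0, idx) t) (T * 2 ^ n) v
        - euler G θ D n (Function.update Z (u0, idx) s) (T * 2 ^ n) v
        - (if v = u0 then (t - s) * E else 0)) + (if v = u0 then (t - s) * E else 0)| := by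
        rw [sub_add_cancel]
    _ ≤ _ := abs_add_le _ _
    _ ≤ |t - s| * (Real.exp (lam * T) * cumBd T idx) * r ^ G.dist v u0
        + |t - s| * (if idx.1 = 0 then 1 else 0) * r ^ G.dist v u0 :=
        add_le_add (key.trans (by gcongr)) hEle
    _ = _ := by ring

lemma coordC_nonneg (lam : ℝ) (T : ℕ) (idx : ℕ × ℕ) : 0 ≤ coordC lam T idx := by
  unfold coordC cumBd
  have := mul_nonneg (amp_pos (idx.1 - 1)).le (mesh_pos idx.1).le
  split_ifs <;> positivity

lemma summable_coordC_sq (lam : ℝ) (T : ℕ) : Summable fun idx => coordC lam T idx ^ 2 := by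
  set e := Real.exp (lam * T)
  have hb : ∀ n, ∑ idx ∈ lvl T n, coordC lam T idx ^ 2
      ≤ T * (1 + e * T) ^ 2 + e ^ 2 * T * (1 - (1 / 4 : ℝ) ^ n) / 12 := by
    intro n
    induction n with
    | zero =>
      refine le_of_eq ?_
      rw [lvl, Finset.sum_image fun a _ b _ hab => (Prod.mk.inj hab).2]
      rw [Finset.sum_congr rfl fun i hi => show coordC lam T (0, i) ^ 2 = (1 + e * T) ^ 2 by
        simp [coordC, cumBd, Finset.mem_range.1 hi, e]]
      simp
    | succ n ih =>
      have hdis : Disjoint (lvl T n) ((Finset.range (T * 2 ^ n)).image fun j => (n + 1, j)) := by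
        refine Finset.disjoint_left.2 fun p hp hp' => ?_
        simp only [Finset.mem_image] at hp'
        obtain ⟨j, -, rfl⟩ := hp'
        have := (mem_lvl.1 hp).1
        simp at this
      rw [lvl, Finset.sum_union hdis, Finset.sum_image fun a _ b _ hab => (Prod.mk.inj hab).2]
      rw [Finset.sum_congr rfl fun j hj => show coordC lam T (n + 1, j) ^ 2
          = e ^ 2 * (1 / 2 : ℝ) ^ (3 * n) / 16 by
        simp only [coordC, cumBd, Nat.add_sub_cancel, if_pos (Finset.mem_range.1 hj),
          Nat.add_one_ne_zero, if_false, zero_add, mul_pow, amp_sq, mesh]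
        rw [show e = Real.exp (lam * T) from rfl]
        ring]
      rw [Finset.sum_const, Finset.card_range, nsmul_eq_mul]
      refine (add_le_add_left ih _).trans (le_of_eq ?_)
      push_cast
      have h1 : (2 : ℝ) ^ n * (1 / 2 : ℝ) ^ (3 * n) = (1 / 4 : ℝ) ^ n := by
        rw [pow_mul, ← mul_pow]; norm_num
      rw [pow_succ (1 / 4 : ℝ) n, ← h1]
      ring
  refine summable_of_sum_le (fun _ => sq_nonneg _) (c := T * (1 + e * T) ^ 2 + e ^ 2 * T / 12)
    fun F => ?_
  set n := F.sup fun idx => idx.1
  have hzero : ∑ idx ∈ F, coordC lam T idx ^ 2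
      = ∑ idx ∈ F.filter (· ∈ lvl T n), coordC lam T idx ^ 2 := by
    refine (Finset.sum_filter_of_ne fun idx hidx hne => ?_).symm
    by_contra hh
    rw [mem_lvl] at hh
    apply hne
    have hle : idx.1 ≤ n := Finset.le_sup (f := fun idx : ℕ × ℕ => idx.1) hidx
    rw [coordC, if_neg (fun h => hh ⟨hle, h⟩)]
    simp
  rw [hzero]
  refine ((Finset.sum_le_sum_of_subset_of_nonneg (fun idx hidx => (Finset.mem_filter.1 hidx).2)
    fun _ _ _ => sq_nonneg _).trans (hb n)).trans ?_
  have : 0 ≤ e ^ 2 * T * (1 / 4 : ℝ) ^ n := by positivity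
  linarith

end Vale.Agent.P161
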