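import Vale.Agent.P161.Gibbs
import Vale.Agent.P161.Gauss
import Vale.Agent.P161.Stability

/-!
The observation process, its finite volume innovations and their basic identities.
-/

open MeasureTheory ProbabilityTheory SimpleGraph

namespace Vale.Agent.P161

universe u

variable {V : Type u} [DecidableEq V] {G : SimpleGraph V} [DecidableRel G.Adj] {θ : ℝ} {d : ℕ}

set_option linter.unusedSectionVars false

/-- Spins together with the driving noise. -/
abbrev Omega (V : Type u) : Type u := (V → Bool) × (V × ℕ × ℕ → ℝ)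

/-- The increments of the observation process at level `n`. -/
noncomputable def incY (n : ℕ) (ω : Omega V) (u : V) (k : ℕ) : ℝ :=
  mesh n * spin (ω.1 u) + inc n (slice ω.2 u) k

/-- The observation process at level `n`. -/
noncomputable def pos (n : ℕ) (ω : Omega V) (k : ℕ) (u : V) : ℝ :=
  ∑ j ∈ Finset.range k, incY n ω u j

/-- Drift of the innovations of volume `D`: signal minus posterior mean. -/
noncomputable def drift (G : SimpleGraph V) [DecidableRel G.Adj] (θ : ℝ) (D : Finset V) (n : ℕ)
    (ω : Omega V) (u : V) (k : ℕ) : ℝ :=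
  mesh n * (spin (ω.1 u) - if u ∈ D then mag G θ D (pos n ω k) u else 0)

/-- The finite volume innovation coefficients. -/
noncomputable def innX (G : SimpleGraph V) [DecidableRel G.Adj] (θ : ℝ) (D : Finset V) (n : ℕ)
    (ω : Omega V) (p : V × ℕ × ℕ) : ℝ :=
  ω.2 p + coef n p.2 (drift G θ D n ω p.1)

lemma pos_eq (n : ℕ) (ω : Omega V) (k : ℕ) (u : V) :
    pos n ω k u = k * mesh n * spin (ω.1 u) + cum n (slice ω.2 u) k := by
  simp [pos, incY, cum, Finset.sum_add_distrib, mul_assoc]

lemma pos_refine (n m : ℕ) (ω : Omega V) (k : ℕ) :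
    pos (n + m) ω (2 ^ m * k) = pos n ω k := by
  funext u
  rw [pos_eq, pos_eq, cum_refine]
  congr 2
  push_cast
  rw [mesh, mesh, pow_add]
  calc (2 : ℝ) ^ m * k * ((1 / 2) ^ n * (1 / 2) ^ m)
      = k * (1 / 2) ^ n * ((2 : ℝ) ^ m * (1 / 2) ^ m) := by ring
    _ = _ := by rw [← mul_pow]; norm_num

lemma measurable_spin_eval (u : V) : Measurable fun σ : V → Bool => spin (σ u) :=
  (measurable_of_countable spin).comp (measurable_pi_apply u)

lemma measurable_slice (u : V) : Measurable fun Z : V × ℕ × ℕ → ℝ => slice Z u :=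
  measurable_pi_lambda _ fun _ => measurable_pi_apply _

lemma measurable_incY (n : ℕ) (u : V) (k : ℕ) : Measurable fun ω : Omega V => incY n ω u k :=
  (((measurable_spin_eval u).comp measurable_fst).const_mul _).add
    ((inc_measurable n k).comp ((measurable_slice u).comp measurable_snd))

lemma measurable_pos (n : ℕ) (k : ℕ) : Measurable fun ω : Omega V => pos n ω k :=
  measurable_pi_lambda _ fun u => Finset.measurable_sum _ fun j _ => measurable_incY n u j

lemma measurable_magPos (D : Finset V) (n : ℕ) (k : ℕ) (u : V) :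
    Measurable fun ω : Omega V => mag G θ D (pos n ω k) u :=
  (measurable_mag D u).comp (measurable_pos n k)

lemma measurable_drift (D : Finset V) (n : ℕ) (u : V) (k : ℕ) :
    Measurable fun ω : Omega V => drift G θ D n ω u k := by
  unfold drift
  refine (((measurable_spin_eval u).comp measurable_fst).sub ?_).const_mul _
  split_ifs
  · exact measurable_magPos D n k u
  · exact measurable_const

lemma measurable_coef (n : ℕ) (idx : ℕ × ℕ) : Measurable fun b : ℕ → ℝ => coef n idx b := by
  induction n with
  | zero =>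
    simp only [coef]
    split_ifs
    · exact measurable_pi_apply _
    · exact measurable_const
  | succ n ih =>
    simp only [coef]
    split_ifs
    · fun_prop
    · refine ih.comp (measurable_pi_lambda _ fun j => ?_)
      simp only [agg]
      fun_prop

lemma measurable_innX (D : Finset V) (n : ℕ) (p : V × ℕ × ℕ) :
    Measurable fun ω : Omega V => innX G θ D n ω p :=
  ((measurable_pi_apply p).comp measurable_snd).add
    ((measurable_coef n p.2).comp (measurable_pi_lambda _ fun k => measurable_drift D n p.1 k))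

/-- The level `n` increments of the innovations. -/
noncomputable def incB (G : SimpleGraph V) [DecidableRel G.Adj] (θ : ℝ) (D : Finset V) (n : ℕ)
    (ω : Omega V) (u : V) (k : ℕ) : ℝ :=
  inc n (slice ω.2 u) k + drift G θ D n ω u k

lemma innX_eq_coef (D : Finset V) (n : ℕ) (ω : Omega V) (u : V) {idx : ℕ × ℕ} (h : idx.1 ≤ n) :
    innX G θ D n ω (u, idx) = coef n idx (incB G θ D n ω u) := by
  have : incB G θ D n ω u = inc n (slice ω.2 u) + drift G θ D n ω u := by
    funext k; rfl
  rw [this, coef_add, coef_inc h]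
  rfl

lemma inc_innX (D : Finset V) (n : ℕ) (ω : Omega V) (u : V) (k : ℕ) :
    inc n (slice (innX G θ D n ω) u) k = incB G θ D n ω u k := by
  unfold slice
  rw [inc_congr (T := k + 1) (Z' := fun idx => coef n idx (incB G θ D n ω u))
    (fun idx hi => innX_eq_coef D n ω u (mem_lvl.1 hi).1)
    (lt_of_lt_of_le (Nat.lt_succ_self k) (Nat.le_mul_of_pos_right _ (Nat.two_pow_pos n))),
    inc_coef]

/-- Feeding the innovations to the Euler scheme gives back the observations. -/
lemma euler_innX (D : Finset V) (n : ℕ) (ω : Omega V) :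
    ∀ k, ∀ u ∈ D, euler G θ D n (innX G θ D n ω) k u = pos n ω k u := by
  intro k
  induction k with
  | zero => intro u _; simp [euler, pos]
  | succ k ih =>
    intro u hu
    simp only [euler, if_pos hu, inc_innX, ih u hu, mag_congr ih]
    simp only [incB, drift, if_pos hu, pos, Finset.sum_range_succ, incY]
    ring

/-- Extension of a vector on `D` by zero. -/
noncomputable def extD (D : Finset V) (y : D → ℝ) : V → ℝ :=
  fun v => if h : v ∈ D then y ⟨v, h⟩ else 0

lemma measurable_extD (D : Finset V) : Measurable (extD D) := by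
  refine measurable_pi_lambda _ fun v => ?_
  unfold extD
  by_cases h : v ∈ D
  · simp only [dif_pos h]; exact measurable_pi_apply _
  · simp only [dif_neg h]; exact measurable_const

/-- The mixture of sign patterns on `D`. -/
noncomputable def isingMix (hG : G.IsTree) (hθ : |θ| < 1) (D : Finset V) (hD : Conn G D) :
    Mixture D where
  carrier := Finset V
  supp := D.powerset
  wt A := w G θ D (chi A)
  sig A u := spin (chi A u)
  wt_pos A _ := w_pos hθ D _
  wt_sum := S_w_eq_one hG hD
  sig_abs _ _ _ := abs_spin _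

lemma post_isingMix (hG : G.IsTree) (hθ : |θ| < 1) {D : Finset V} (hD : Conn G D) (y : D → ℝ)
    (u : D) : (isingMix hG hθ D hD).post y u = mag G θ D (extD D y) u := by
  have e : ∀ A, fieldSum D (extD D y) (chi A) = ∑ i : D, spin (chi A i) * y i := by
    intro A
    rw [fieldSum, ← Finset.sum_coe_sort D]
    exact Finset.sum_congr rfl fun i _ => by simp [extD, mul_comm]
  simp only [Mixture.post, Mixture.pw, isingMix, mag, M, Z, S, W, e]

/-- The data seen by volume `D` up to step `N`. -/
noncomputable def datum (D : Finset V) (n N : ℕ) (ω : Omega V) : Fin N → D → ℝ :=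
  fun k u => incY n ω u k

lemma measurable_datum (D : Finset V) (n N : ℕ) : Measurable (datum D n N) :=
  measurable_pi_lambda _ fun k => measurable_pi_lambda _ fun u => measurable_incY (V := V) n u.1 k

lemma extD_tot_datum (D : Finset V) (n N : ℕ) (ω : Omega V) {u : V} (hu : u ∈ D) :
    extD D (tot (datum D n N ω)) u = pos n ω N u := by
  simp [extD, dif_pos hu, tot, datum, pos, Finset.sum_range]

lemma mag_tot_datum (D : Finset V) (n N : ℕ) (ω : Omega V) (v : V) :
    mag G θ D (extD D (tot (datum D n N ω))) v = mag G θ D (pos n ω N) v :=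
  mag_congr (fun _ hu => extD_tot_datum D n N ω hu) v

/-- The probability space. -/
noncomputable def probM (ν : Measure (V → Bool)) : Measure (Omega V) :=
  ν.prod (gam (V × ℕ × ℕ))

instance (ν : Measure (V → Bool)) [IsProbabilityMeasure ν] : IsProbabilityMeasure (probM ν) := by
  unfold probM; infer_instance

variable {ν : Measure (V → Bool)} [IsProbabilityMeasure ν]

lemma integrable_bdd {α : Type*} [MeasurableSpace α] {μ : Measure α} [IsFiniteMeasure μ]
    {f : α → ℝ} (hf : Measurable f) {C : ℝ} (hC : ∀ x, |f x| ≤ C) : Integrable f μ :=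
  Integrable.of_bound hf.aestronglyMeasurable C (Filter.Eventually.of_forall hC)

lemma integral_datum (hν : HasMarginals G θ ν) (hθ : |θ| < 1) {D : Finset V} (hD : Conn G D)
    (n N : ℕ) {g : (V → Bool) → ℝ} (hgm : Measurable g) (hgd : DepOn D g) {Cg : ℝ}
    (hg : ∀ σ, |g σ| ≤ Cg) {F : (Fin N → D → ℝ) → ℝ} (hFm : Measurable F) {C : ℝ}
    (hF : ∀ x, |F x| ≤ C) :
    ∫ ω, g ω.1 * F (datum D n N ω) ∂probM ν =
      ∑ A ∈ D.powerset, w G θ D (chi A) * (g (chi A) *
        ∫ b, F (fun k u => b k u + (meshNN n : ℝ) * spin (chi A u)) ∂incPi D (meshNN n) N) := by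
  have hC : 0 ≤ C := le_trans (abs_nonneg _) (hF 0)
  rw [probM]
  refine (integral_prod (fun ω => g ω.1 * F (datum D n N ω))
    (integrable_bdd ((hgm.comp measurable_fst).mul
    (hFm.comp (measurable_datum D n N))) (C := Cg * C) fun ω => by
      simp only [Pi.mul_apply, Function.comp_apply, abs_mul]
      exact mul_le_mul (hg _) (hF _) (abs_nonneg _) ((abs_nonneg _).trans (hg ω.1)))).trans ?_
  simp only [integral_const_mul]
  rw [hν.integral_eq hθ hD (f := fun σ => g σ * ∫ Z, F (datum D n N (σ, Z)) ∂gam (V × ℕ × ℕ))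
    fun σ σ' he => by
      have : ∀ Z, datum D n N (σ, Z) = datum D n N (σ', Z) := fun Z => by
        funext k u; simp [datum, incY, he u u.2]
      simp only [this, hgd σ σ' he]]
  refine Finset.sum_congr rfl fun A _ => ?_
  dsimp only
  congr 2
  have hsh : Measurable fun b : Fin N → D → ℝ => fun k (u : D) =>
      b k u + (meshNN n : ℝ) * spin (chi A u) := by fun_prop
  rw [← map_incMap D n N, integral_map (f := fun b : Fin N → D → ℝ =>
      F fun k u => b k u + (meshNN n : ℝ) * spin (chi A u)) (measurable_incMap D n N).aemeasurable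
    (hFm.comp hsh).aestronglyMeasurable]
  congr 1
  funext Z
  congr 1
  funext k u
  rw [coe_meshNN, add_comm]
  rfl

lemma lik_law (hν : HasMarginals G θ ν) (hG : G.IsTree) (hθ : |θ| < 1) {D : Finset V}
    (hD : Conn G D) (n N : ℕ) {F : (Fin N → D → ℝ) → ℝ} (hFm : Measurable F) {C : ℝ}
    (hF : ∀ x, |F x| ≤ C) :
    ∫ ω, F (datum D n N ω) ∂probM ν =
      ∫ x, (isingMix hG hθ D hD).lik (meshNN n) N x * F x ∂incPi D (meshNN n) N := by
  have e := integral_datum hν hθ hD n N (g := fun _ => 1) measurable_const (fun _ _ _ => rfl)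
    (Cg := 1) (fun _ => by simp) hFm hF
  simp only [one_mul] at e
  rw [e, ← (isingMix hG hθ D hD).integral_mixture (meshNN_ne_zero n) N hFm hF]
  rfl

/-- Bayes on the probability space. -/
lemma bayes_prob (hν : HasMarginals G θ ν) (hG : G.IsTree) (hθ : |θ| < 1) {D : Finset V}
    (hD : Conn G D) (n N : ℕ) {u : V} (hu : u ∈ D) {F : (Fin N → D → ℝ) → ℝ} (hFm : Measurable F)
    {C : ℝ} (hF : ∀ x, |F x| ≤ C) :
    ∫ ω, spin (ω.1 u) * F (datum D n N ω) ∂probM ν =
      ∫ ω, mag G θ D (pos n ω N) u * F (datum D n N ω) ∂probM ν := by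
  set M := isingMix hG hθ D hD
  have e1 := integral_datum hν hθ hD n N (g := fun σ => spin (σ u)) (measurable_spin_eval u)
    (fun σ σ' he => by simp [he u hu]) (Cg := 1) (fun σ => (abs_spin _).le) hFm hF
  rw [e1]
  have e2 := M.bayes (meshNN_ne_zero n) N ⟨u, hu⟩ hFm hF
  have e3 : ∑ A ∈ D.powerset, w G θ D (chi A) * (spin (chi A u) *
        ∫ b, F (fun k v => b k v + (meshNN n : ℝ) * spin (chi A v)) ∂incPi D (meshNN n) N)
      = ∫ x, M.lik (meshNN n) N x * (F x * M.post (tot x) ⟨u, hu⟩) ∂incPi D (meshNN n) N := by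
    rw [← e2]
    refine Finset.sum_congr rfl fun A _ => ?_
    simp only [M, isingMix]
    rw [integral_mul_const]
    ring
  rw [e3]
  have hm : Measurable fun x : Fin N → D → ℝ => F x * M.post (tot x) ⟨u, hu⟩ :=
    hFm.mul ((measurable_pi_apply _).comp (M.measurable_post.comp measurable_tot))
  have hb : ∀ x, |F x * M.post (tot x) ⟨u, hu⟩| ≤ C := fun x => by
    rw [abs_mul]
    exact (mul_le_of_le_one_right (abs_nonneg _) (M.abs_post_le _ _)).trans (hF x)
  rw [← lik_law hν hG hθ hD n N hm hb]
  refine integral_congr_ae (Filter.Eventually.of_forall fun ω => ?_)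
  simp only [M, post_isingMix, mag_tot_datum]
  ring

/-- Posterior magnetisations form a martingale, jointly in volume and time. -/
lemma martingale (hν : HasMarginals G θ ν) (hG : G.IsTree) (hθ : |θ| < 1) {D D' : Finset V}
    (hD : Conn G D) (hD' : Conn G D') (hs : D ⊆ D') {u : V} (hu : u ∈ D) (n m : ℕ) {k k' : ℕ}
    (hk : 2 ^ m * k ≤ k') :
    ∫ ω, mag G θ D (pos n ω k) u * mag G θ D' (pos (n + m) ω k') u ∂probM ν
      = ∫ ω, mag G θ D (pos n ω k) u ^ 2 ∂probM ν := by
  -- both sides are the integral of `σ_u` times the coarse magnetisation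
  set F : (Fin k' → D' → ℝ) → ℝ := fun x => mag G θ D (extD D'
    (fun v => ∑ j : Fin k', if (j : ℕ) < 2 ^ m * k then x j v else 0)) u with hF
  have hFm : Measurable F := (measurable_mag D u).comp ((measurable_extD D').comp
    (measurable_pi_lambda _ fun v => Finset.measurable_sum _ fun j _ => by
      by_cases hj : (j : ℕ) < 2 ^ m * k
      · simp only [if_pos hj]; exact (measurable_pi_apply v).comp (measurable_pi_apply j)
      · simp only [if_neg hj]; exact measurable_const))
  have hFd : ∀ ω, F (datum D' (n + m) k' ω) = mag G θ D (pos n ω k) u := by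
    intro ω
    refine mag_congr (fun v hv => ?_) u
    rw [← pos_refine n m ω k, extD, dif_pos (hs hv), pos]
    simp only [datum]
    rw [← Finset.sum_range (fun j => if j < 2 ^ m * k then incY (n + m) ω v j else 0),
      ← Finset.sum_filter]
    refine Finset.sum_congr ?_ fun _ _ => rfl
    ext j
    simp only [Finset.mem_filter, Finset.mem_range]
    omega
  have hF1 : ∀ x, |F x| ≤ 1 := fun x => abs_mag_le hθ _ _ _
  have e1 := bayes_prob hν hG hθ hD' (n + m) k' (hs hu) hFm hF1
  simp only [hFd] at e1
  set F0 : (Fin k → D → ℝ) → ℝ := fun x => mag G θ D (extD D (tot x)) u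
  have hF0m : Measurable F0 :=
    (measurable_mag D u).comp ((measurable_extD D).comp measurable_tot)
  have e2 := bayes_prob hν hG hθ hD n k hu hF0m (fun x => abs_mag_le hθ _ _ _)
  simp only [F0, mag_tot_datum] at e2
  calc _ = ∫ ω, mag G θ D' (pos (n + m) ω k') u * mag G θ D (pos n ω k) u ∂probM ν := by
        simp only [mul_comm]
    _ = _ := e1.symm
    _ = _ := e2
    _ = _ := by simp only [sq]

end Vale.Agent.P161
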