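import Vale.Agent.P161.Law

/-!
The infinite volume innovations commute with graph automorphisms.
-/

open MeasureTheory ProbabilityTheory SimpleGraph Filter
open scoped Topology

namespace Vale.Agent.P161

universe u

variable {V : Type u} [DecidableEq V] {G : SimpleGraph V} [DecidableRel G.Adj] {θ : ℝ} {d : ℕ}
variable {ν : Measure (V → Bool)} [IsProbabilityMeasure ν]

set_option linter.unusedSectionVars false

/-- The image of a finite set under an automorphism. -/
noncomputable def gimg (g : G ≃g G) (D : Finset V) : Finset V := D.image g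

lemma mem_gimg {g : G ≃g G} {D : Finset V} {v : V} : v ∈ gimg g D ↔ g.symm v ∈ D := by
  simp only [gimg, Finset.mem_image]
  exact ⟨by rintro ⟨a, ha, rfl⟩; simpa using ha, fun h => ⟨g.symm v, h, by simp⟩⟩

lemma Conn.gimg (g : G ≃g G) {D : Finset V} (hD : Conn G D) : Conn G (gimg g D) := by
  refine ⟨hD.1.image _, fun a ha b hb => ?_⟩
  simp only [Vale.Agent.P161.gimg, Finset.mem_image] at ha hb
  obtain ⟨a, ha, rfl⟩ := ha
  obtain ⟨b, hb, rfl⟩ := hb
  obtain ⟨p, hp⟩ := hD.2 a ha b hb
  refine ⟨p.map g.toHom, fun x hx => ?_⟩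
  have hx' : x ∈ p.support.map g.toHom := by rw [← Walk.support_map]; exact hx
  obtain ⟨y, hy, rfl⟩ := List.mem_map.1 hx'
  exact Finset.mem_image_of_mem _ (hp y hy)

lemma edgesIn_gimg (g : G ≃g G) (D : Finset V) :
    edgesIn G (gimg g D) = (edgesIn G D).image (Sym2.map g) := by
  ext e
  induction e using Sym2.ind with
  | _ a b =>
    simp only [mk_mem_edgesIn, mem_gimg, Finset.mem_image]
    constructor
    · rintro ⟨ha, hb, hab⟩
      exact ⟨s(g.symm a, g.symm b),
        mk_mem_edgesIn.2 ⟨ha, hb, g.symm.map_adj_iff.2 hab⟩, by simp⟩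
    · rintro ⟨e', he', hee⟩
      induction e' using Sym2.ind with
      | _ a' b' =>
        obtain ⟨ha', hb', hab'⟩ := mk_mem_edgesIn.1 he'
        rw [Sym2.map_mk] at hee
        rcases Sym2.eq_iff.1 hee with ⟨rfl, rfl⟩ | ⟨rfl, rfl⟩
        · exact ⟨by simpa using ha', by simpa using hb', g.map_adj_iff.2 hab'⟩
        · exact ⟨by simpa using hb', by simpa using ha', g.map_adj_iff.2 hab'.symm⟩

lemma w_gimg (g : G ≃g G) (D : Finset V) (η : V → Bool) :
    w G θ (gimg g D) η = w G θ D (fun v => η (g v)) := by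
  unfold w
  rw [edgesIn_gimg, Finset.prod_image ((Sym2.map.injective g.injective).injOn)]
  congr 1
  refine Finset.prod_congr rfl fun e _ => ?_
  induction e using Sym2.ind with
  | _ a b => simp

lemma S_gimg (g : G ≃g G) (D : Finset V) (f : (V → Bool) → ℝ) :
    S (gimg g D) f = S D (fun η => f (fun v => η (g.symm v))) := by
  unfold S
  refine Finset.sum_nbij' (fun A => A.image g.symm) (fun A => A.image g) ?_ ?_ ?_ ?_ ?_
  · intro A hA
    rw [Finset.mem_powerset] at hA ⊢
    intro x hx
    obtain ⟨y, hy, rfl⟩ := Finset.mem_image.1 hx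
    exact mem_gimg.1 (hA hy)
  · intro A hA
    rw [Finset.mem_powerset] at hA ⊢
    exact Finset.image_subset_image hA
  · intro A _
    simp [Finset.image_image, Function.comp_def]
  · intro A _
    simp [Finset.image_image, Function.comp_def]
  · intro A _
    congr 1
    funext v
    simp [chi]

lemma W_gimg (g : G ≃g G) (D : Finset V) (y : V → ℝ) (η : V → Bool) :
    W G θ (gimg g D) y (fun v => η (g.symm v)) = W G θ D (fun v => y (g v)) η := by
  unfold W fieldSum
  rw [w_gimg, gimg, Finset.sum_image g.injective.injOn]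
  simp

lemma mag_gimg (g : G ≃g G) (D : Finset V) (y : V → ℝ) (v : V) :
    mag G θ (gimg g D) y (g v) = mag G θ D (fun x => y (g x)) v := by
  simp only [mag, M, Z, S_gimg, W_gimg]
  simp

/-- The action of an automorphism on noise. -/
def gnoise {α : Type*} (g : G ≃g G) (Z : V × ℕ × ℕ → α) : V × ℕ × ℕ → α :=
  fun p => Z (g.symm p.1, p.2)

/-- The action of an automorphism on the probability space. -/
def gact (g : G ≃g G) (ω : Omega V) : Omega V := (fun v => ω.1 (g.symm v), gnoise g ω.2)

lemma measurable_gnoise (g : G ≃g G) :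
    Measurable (gnoise g : (V × ℕ × ℕ → ℝ) → (V × ℕ × ℕ → ℝ)) :=
  measurable_pi_lambda _ fun _ => measurable_pi_apply _

lemma measurable_gspin (g : G ≃g G) : Measurable fun σ : V → Bool => fun v => σ (g.symm v) :=
  measurable_pi_lambda _ fun _ => measurable_pi_apply _

lemma map_gnoise (g : G ≃g G) : (gam (V × ℕ × ℕ)).map (gnoise g) = gam (V × ℕ × ℕ) := by
  have hm := measurable_gnoise g
  refine Measure.eq_infinitePi _ fun s t ht => ?_
  rw [Measure.map_apply hm (MeasurableSet.pi s.countable_toSet fun i _ => ht i)]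
  have : gnoise g ⁻¹' Set.pi s t
      = Set.pi (s.image fun p => (g.symm p.1, p.2)) (fun q => t (g q.1, q.2)) := by
    ext z
    simp only [Set.mem_preimage, Set.mem_pi, Finset.mem_coe, Finset.forall_mem_image, gnoise]
    exact forall₂_congr fun p _ => by simp
  rw [this, gam, Measure.infinitePi_pi _ fun i _ => ht _, Finset.prod_image fun a _ b _ hab => by
    obtain ⟨h1, h2⟩ := Prod.mk.inj hab
    exact Prod.ext (g.symm.injective h1) h2]
  refine Finset.prod_congr rfl fun p _ => ?_
  simp

lemma map_gspin (h : Reg G d) (hν : HasMarginals G θ ν) (g : G ≃g G) :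
    ν.map (fun σ v => σ (g.symm v)) = ν := by
  have := Measure.isProbabilityMeasure_map (μ := ν) (measurable_gspin g).aemeasurable
  refine HasMarginals.unique (θ := θ) h (fun D hD η => ?_) hν
  rw [Measure.map_apply (measurable_gspin g) (measurableSet_agree D η)]
  have e : (fun σ v => σ (g.symm v)) ⁻¹' agree D η = agree (gimg g.symm D) (fun v => η (g v)) := by
    ext σ
    simp only [agree, Set.mem_preimage, Set.mem_ofPred_eq, gimg, Finset.forall_mem_image]
    simp
  rw [e, hν _ (hD.gimg g.symm), w_gimg]
  simp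

lemma measurePreserving_gact (h : Reg G d) (hν : HasMarginals G θ ν) (g : G ≃g G) :
    MeasurePreserving (gact g) (probM ν) (probM ν) :=
  MeasurePreserving.prod ⟨measurable_gspin g, map_gspin h hν g⟩
    ⟨measurable_gnoise g, map_gnoise g⟩

lemma innX_gact (g : G ≃g G) (D : Finset V) (n : ℕ) (ω : Omega V) (u : V) (idx : ℕ × ℕ) :
    innX G θ (gimg g D) n (gact g ω) (g u, idx) = innX G θ D n ω (u, idx) := by
  have hslice : ∀ x, slice (gact g ω).2 (g x) = slice ω.2 x := fun x => by
    funext i; simp [slice, gact, gnoise]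
  have hinc : ∀ x k, incY n (gact g ω) (g x) k = incY n ω x k := fun x k => by
    have e : (gact g ω).1 (g x) = ω.1 x := by simp [gact]
    simp only [incY, hslice, e]
  have hpos : ∀ k, (fun x => pos n (gact g ω) k (g x)) = pos n ω k := fun k => by
    funext x; simp [pos, hinc]
  have hdrift : drift G θ (gimg g D) n (gact g ω) (g u) = drift G θ D n ω u := by
    funext k
    have hm : (g u ∈ gimg g D) = (u ∈ D) := by simp [mem_gimg]
    simp only [drift, hm, mag_gimg, hpos]
    simp [gact]
  simp only [innX, hdrift]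
  simp [gact, gnoise]

lemma innLim_gact (h : Reg G d) (hν : HasMarginals G θ ν) (hθ : |θ| < 1) (g : G ≃g G) :
    ∀ᵐ ω ∂probM ν, ∀ p, innLim G θ ν (gact g ω) p = gnoise g (innLim G θ ν ω) p := by
  have := h.countable
  rw [ae_all_iff]
  rintro ⟨v, idx⟩
  obtain ⟨u, rfl⟩ : ∃ u, v = g u := ⟨g.symm v, by simp⟩
  have hg := measurePreserving_gact h hν g
  have hi : ∀ p, Integrable (fun ω => innLim G θ ν ω p) (probM ν) :=
    fun p => (innLim_spec h hν hθ p).2.1
  have hi' : Integrable (fun ω => innLim G θ ν (gact g ω) (g u, idx)) (probM ν) :=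
    hg.integrable_comp_of_integrable (hi _)
  have key : ∫ ω, |innLim G θ ν (gact g ω) (g u, idx) - innLim G θ ν ω (u, idx)| ∂probM ν = 0 := by
    refine le_antisymm (le_of_forall_pos_le_add fun ε hε => ?_)
      (integral_nonneg fun _ => abs_nonneg _)
    rw [zero_add]
    obtain ⟨F, N, hF⟩ := (innLim_spec h hν hθ (g u, idx)).2.2 (ε / 2) (by positivity)
    obtain ⟨F', N', hF'⟩ := (innLim_spec h hν hθ (u, idx)).2.2 (ε / 2) (by positivity)
    obtain ⟨o⟩ := h.tree.connected.nonempty
    obtain ⟨R, hR⟩ := h.exists_ball_subset o (F' ∪ gimg g.symm F)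
    set D := h.ball o R
    have e1 := hF (gimg g D) (max N N') ((h.conn_ball o R).gimg g)
      (fun x hx => mem_gimg.2 (hR (Finset.mem_union_right _ (mem_gimg.2 (by simpa using hx)))))
      (le_max_left _ _)
    have e2 := hF' D (max N N') (h.conn_ball o R) (Finset.union_subset_left hR) (le_max_right _ _)
    have hiX := integrable_innX (ν := ν) (G := G) hθ D (max N N') (u, idx)
    have hiXg := integrable_innX (ν := ν) (G := G) hθ (gimg g D) (max N N') (g u, idx)
    have e3 : ∫ ω, |innX G θ D (max N N') ω (u, idx) - innLim G θ ν (gact g ω) (g u, idx)|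
        ∂probM ν ≤ ε / 2 := by
      refine le_trans (le_of_eq ?_) e1
      have e4 := integral_map (μ := probM ν) hg.measurable.aemeasurable (f := fun ω =>
        |innX G θ (gimg g D) (max N N') ω (g u, idx) - innLim G θ ν ω (g u, idx)|)
        ((hiXg.sub (hi _)).abs.aestronglyMeasurable.mono_ac
          (by rw [hg.map_eq]))
      rw [hg.map_eq] at e4
      simp only [innX_gact] at e4
      exact e4.symm
    calc _ ≤ ∫ ω, (|innX G θ D (max N N') ω (u, idx) - innLim G θ ν (gact g ω) (g u, idx)|
            + |innX G θ D (max N N') ω (u, idx) - innLim G θ ν ω (u, idx)|) ∂probM ν := by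
          refine integral_mono (hi'.sub (hi _)).abs
            ((hiX.sub hi').abs.add (hiX.sub (hi _)).abs) fun ω => ?_
          rw [abs_sub_comm (innX G θ D (max N N') ω (u, idx))
            (innLim G θ ν (gact g ω) (g u, idx))]
          exact abs_sub_le _ _ _
      _ ≤ ε := by
          rw [integral_add (f := fun ω =>
              |innX G θ D (max N N') ω (u, idx) - innLim G θ ν (gact g ω) (g u, idx)|)
            (g := fun ω => |innX G θ D (max N N') ω (u, idx) - innLim G θ ν ω (u, idx)|)
            (hiX.sub hi').abs (hiX.sub (hi _)).abs]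
          linarith
  have := (integral_eq_zero_iff_of_nonneg (fun _ => abs_nonneg _) (hi'.sub (hi _)).abs).1 key
  filter_upwards [this] with ω hω
  simp only [Pi.zero_apply, abs_eq_zero, Pi.sub_apply, sub_eq_zero] at hω
  simp [hω, gnoise]

end Vale.Agent.P161
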