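import Vale.Agent.P161.HaarLaw

/-!
An Efron-Stein bound for coordinatewise Lipschitz functions of independent normals.
-/

open MeasureTheory ProbabilityTheory

namespace Vale.Agent.P161

universe u

variable {ι : Type u} [DecidableEq ι]

/-- A function that only looks at the coordinates in `K`. -/
def CoordOn (K : Finset ι) (f : (ι → ℝ) → ℝ) : Prop :=
  ∀ z z', (∀ i ∈ K, z i = z' i) → f z = f z'

/-- `f` is `c i` Lipschitz in coordinate `i`, for every `i ∈ K`. -/
def CoordLip (K : Finset ι) (c : ι → ℝ) (f : (ι → ℝ) → ℝ) : Prop :=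
  ∀ i ∈ K, ∀ z t s, |f (Function.update z i t) - f (Function.update z i s)| ≤ c i * |t - s|

lemma map_update_gam (a : ι) :
    ((gam ι).prod (gaussianReal 0 1)).map (fun p => Function.update p.1 a p.2) = gam ι := by
  have hm : Measurable fun p : (ι → ℝ) × ℝ => Function.update p.1 a p.2 :=
    measurable_update'
  refine Measure.eq_infinitePi _ fun s t ht => ?_
  rw [Measure.map_apply hm (MeasurableSet.pi s.countable_toSet fun i _ => ht i)]
  by_cases ha : a ∈ s
  · have : (fun p : (ι → ℝ) × ℝ => Function.update p.1 a p.2) ⁻¹' Set.pi s t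
        = (Set.pi (s.erase a) t) ×ˢ t a := by
      ext ⟨z, x⟩
      simp only [Set.mem_preimage, Set.mem_pi, Finset.mem_coe, Set.mem_prod, Finset.mem_erase]
      constructor
      · intro h
        exact ⟨fun i hi => by simpa [hi.1] using h i hi.2, by simpa using h a ha⟩
      · intro h i hi
        by_cases hia : i = a
        · subst hia; simpa using h.2
        · simpa [hia] using h.1 i ⟨hia, hi⟩
    rw [this, Measure.prod_prod, gam, Measure.infinitePi_pi _ fun i _ => ht i,
      mul_comm, Finset.mul_prod_erase s (fun i => gaussianReal 0 1 (t i)) ha]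
  · have : (fun p : (ι → ℝ) × ℝ => Function.update p.1 a p.2) ⁻¹' Set.pi s t
        = (Set.pi s t) ×ˢ Set.univ := by
      ext ⟨z, x⟩
      simp only [Set.mem_preimage, Set.mem_pi, Finset.mem_coe, Set.mem_prod, Set.mem_univ, and_true]
      constructor <;> intro h i hi <;>
        simpa [show i ≠ a from fun e => ha (e ▸ hi)] using h i hi
    rw [this, Measure.prod_prod, gam, Measure.infinitePi_pi _ fun i _ => ht i, measure_univ, mul_one]

lemma integral_resample (a : ι) {f : (ι → ℝ) → ℝ} (hf : Measurable f) {C : ℝ}
    (hC : ∀ z, |f z| ≤ C) :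
    ∫ z, f z ∂gam ι = ∫ z, ∫ t, f (Function.update z a t) ∂gaussianReal 0 1 ∂gam ι := by
  conv_lhs => rw [← map_update_gam a]
  rw [integral_map measurable_update'.aemeasurable hf.aestronglyMeasurable]
  exact integral_prod _ (Integrable.of_bound
    (hf.comp measurable_update').aestronglyMeasurable C (Filter.Eventually.of_forall fun p => hC _))

lemma integral_sq_gauss : ∫ t, t ^ 2 ∂gaussianReal 0 1 = 1 := by
  have h := variance_fun_id_gaussianReal (μ := 0) (v := 1)
  rw [variance_eq_integral (X := fun x : ℝ => x) measurable_id.aemeasurable] at h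
  simpa [integral_id_gaussianReal] using h

lemma var_lip {F : ℝ → ℝ} (hF : Measurable F) (hb : ∀ t, |F t| ≤ 1) {c : ℝ}
    (hl : ∀ t s, |F t - F s| ≤ c * |t - s|) (g : ℝ) :
    ∫ t, (F t - g) ^ 2 ∂gaussianReal 0 1
      ≤ c ^ 2 + (∫ t, F t ∂gaussianReal 0 1 - g) ^ 2 := by
  set μ := gaussianReal 0 1
  set m := ∫ t, F t ∂μ
  have hFi : Integrable F μ := Integrable.of_bound hF.aestronglyMeasurable 1
    (Filter.Eventually.of_forall hb)
  have hsq : Integrable (fun t => F t ^ 2) μ :=
    Integrable.of_bound (hF.pow_const 2).aestronglyMeasurable 1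
      (Filter.Eventually.of_forall fun t => by
        rw [Real.norm_eq_abs, abs_pow]; exact pow_le_one₀ (abs_nonneg _) (hb t))
  have key : ∀ b : ℝ, ∫ t, (F t - b) ^ 2 ∂μ = (∫ t, F t ^ 2 ∂μ) - 2 * b * m + b ^ 2 := by
    intro b
    have h1 : (fun t => (F t - b) ^ 2) = fun t => F t ^ 2 - 2 * b * F t + b ^ 2 :=
      funext fun t => by ring
    rw [h1, integral_add (f := fun t => F t ^ 2 - 2 * b * F t) (g := fun _ => b ^ 2)
      (hsq.sub (hFi.const_mul _)) (integrable_const _), integral_sub hsq (hFi.const_mul _),
      integral_const_mul, integral_const, probReal_univ, one_smul]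
  have h0 : ∫ t, (F t - F 0) ^ 2 ∂μ ≤ c ^ 2 := by
    have hi : Integrable (fun t : ℝ => c ^ 2 * t ^ 2) μ :=
      ((memLp_id_gaussianReal' 2 (by simp)).integrable_sq.const_mul _)
    refine (integral_mono_of_nonneg (Filter.Eventually.of_forall fun t => sq_nonneg _) hi
      (Filter.Eventually.of_forall fun t => ?_)).trans (le_of_eq ?_)
    · have h := hl t 0
      rw [sub_zero] at h
      calc (F t - F 0) ^ 2 = |F t - F 0| ^ 2 := (sq_abs _).symm
        _ ≤ (c * |t|) ^ 2 := pow_le_pow_left₀ (abs_nonneg _) h 2
        _ = _ := by rw [mul_pow, sq_abs]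
    · rw [integral_const_mul, integral_sq_gauss, mul_one]
  rw [key g]
  rw [key] at h0
  nlinarith [sq_nonneg (m - F 0)]

/-- Efron-Stein: a bounded function of `K ∪ R`, coordinatewise Lipschitz, is within
`∑_R c²` of a function of `K` in mean square. -/
lemma efron_stein (K R : Finset ι) (hKR : Disjoint K R) (c : ι → ℝ) (f : (ι → ℝ) → ℝ)
    (hf : Measurable f) (hb : ∀ z, |f z| ≤ 1) (hdep : CoordOn (K ∪ R) f)
    (hlip : CoordLip (K ∪ R) c f) :
    ∃ g : (ι → ℝ) → ℝ, Measurable g ∧ (∀ z, |g z| ≤ 1) ∧ CoordOn K g ∧ CoordLip K c g ∧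
      ∫ z, (f z - g z) ^ 2 ∂gam ι ≤ ∑ i ∈ R, c i ^ 2 := by
  induction R using Finset.induction_on generalizing f with
  | empty =>
    exact ⟨f, hf, hb, by simpa using hdep, by simpa using hlip, by simp⟩
  | @insert a R ha ih =>
    obtain ⟨haK, hKR'⟩ := Finset.disjoint_insert_right.1 hKR
    set f1 : (ι → ℝ) → ℝ := fun z => ∫ t, f (Function.update z a t) ∂gaussianReal 0 1 with hf1
    have hm1 : Measurable f1 :=
      (StronglyMeasurable.integral_prod_right'
        (hf.comp measurable_update').stronglyMeasurable).measurable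
    have hint : ∀ z, Integrable (fun t => f (Function.update z a t)) (gaussianReal 0 1) := fun z =>
      Integrable.of_bound (hf.comp (measurable_update z)).aestronglyMeasurable 1
        (Filter.Eventually.of_forall fun t => hb _)
    have hb1 : ∀ z, |f1 z| ≤ 1 := fun z => by
      have h := norm_integral_le_of_norm_le_const (μ := gaussianReal 0 1)
        (f := fun t => f (Function.update z a t)) (C := 1)
        (Filter.Eventually.of_forall fun t => hb (Function.update z a t))
      simpa [hf1, Real.norm_eq_abs] using h
    have hdep1 : CoordOn (K ∪ R) f1 := fun z z' h => by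
      refine integral_congr_ae (Filter.Eventually.of_forall fun t => hdep _ _ fun i hi => ?_)
      by_cases hia : i = a
      · subst hia; simp
      · simp only [Function.update_of_ne hia]
        refine h i ?_
        simpa [hia] using hi
    have hlip1 : CoordLip (K ∪ R) c f1 := fun i hi z t s => by
      have hia : i ≠ a := fun e => by
        subst e
        rcases Finset.mem_union.1 hi with h | h
        · exact haK h
        · exact ha h
      simp only [hf1]
      rw [← integral_sub (hint _) (hint _)]
      have hi' : i ∈ K ∪ insert a R := by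
        rcases Finset.mem_union.1 hi with h | h
        · exact Finset.mem_union_left _ h
        · exact Finset.mem_union_right _ (Finset.mem_insert_of_mem h)
      have h := norm_integral_le_of_norm_le_const (μ := gaussianReal 0 1)
        (f := fun r => f (Function.update (Function.update z i t) a r)
          - f (Function.update (Function.update z i s) a r)) (C := c i * |t - s|)
        (Filter.Eventually.of_forall fun r => by
          rw [Function.update_comm hia, Function.update_comm hia]
          exact hlip i hi' _ t s)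
      simpa using h
    obtain ⟨g, hgm, hgb, hgd, hgl, hge⟩ := ih hKR' f1 hm1 hb1 hdep1 hlip1
    refine ⟨g, hgm, hgb, hgd, hgl, ?_⟩
    have hb4 : ∀ (p q : (ι → ℝ) → ℝ), (∀ z, |p z| ≤ 1) → (∀ z, |q z| ≤ 1) →
        ∀ z, |(p z - q z) ^ 2| ≤ 4 := fun p q hp hq z => by
      rw [abs_pow]
      exact (pow_le_pow_left₀ (abs_nonneg _)
        ((abs_sub _ _).trans (add_le_add (hp z) (hq z))) 2).trans (by norm_num)
    rw [integral_resample a (f := fun z => (f z - g z) ^ 2) (C := 4) ((hf.sub hgm).pow_const 2)
      (hb4 f g hb hgb), Finset.sum_insert ha]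
    have hpt : ∀ z, ∫ t, (f (Function.update z a t) - g (Function.update z a t)) ^ 2
        ∂gaussianReal 0 1 ≤ c a ^ 2 + (f1 z - g z) ^ 2 := by
      intro z
      have e : ∀ t, g (Function.update z a t) = g z := fun t =>
        hgd _ _ fun i hi => Function.update_of_ne (fun e : i = a => haK (e ▸ hi)) _ _
      simp only [e]
      exact var_lip (hf.comp (measurable_update z)) (fun t => hb _)
        (hlip a (Finset.mem_union_right _ (Finset.mem_insert_self _ _)) z) (g z)
    have hi2 : Integrable (fun z => (f1 z - g z) ^ 2) (gam ι) :=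
      Integrable.of_bound ((hm1.sub hgm).pow_const 2).aestronglyMeasurable 4
        (Filter.Eventually.of_forall (hb4 f1 g hb1 hgb))
    refine (integral_mono_of_nonneg
      (Filter.Eventually.of_forall fun z => integral_nonneg fun t => sq_nonneg _)
      ((integrable_const _).add hi2) (Filter.Eventually.of_forall hpt)).trans ?_
    simp only [Pi.add_apply]
    rw [integral_add (integrable_const _) hi2, integral_const, probReal_univ, one_smul]
    linarith

lemma CoordLip.abs_sub_le {K : Finset ι} {c : ι → ℝ} {f : (ι → ℝ) → ℝ} (hd : CoordOn K f)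
    (hl : CoordLip K c f) (z z' : ι → ℝ) : |f z - f z'| ≤ ∑ i ∈ K, c i * |z i - z' i| := by
  have key : ∀ F : Finset ι, F ⊆ K →
      |f (F.piecewise z z') - f z'| ≤ ∑ i ∈ F, c i * |z i - z' i| := by
    intro F
    induction F using Finset.induction_on with
    | empty => simp
    | @insert x s hx ih =>
      intro hs
      rw [Finset.piecewise_insert, Finset.sum_insert hx]
      refine (_root_.abs_sub_le _ (f (s.piecewise z z')) _).trans (add_le_add ?_
        (ih ((Finset.subset_insert _ _).trans hs)))
      have h := hl x (hs (Finset.mem_insert_self x s)) (s.piecewise z z') (z x) (z' x)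
      have e : Function.update (s.piecewise z z') x (z' x) = s.piecewise z z' :=
        Function.update_eq_self_iff.2 (Finset.piecewise_eq_of_notMem _ _ _ hx).symm
      rwa [e] at h
  refine le_trans (le_of_eq ?_) (key K subset_rfl)
  rw [hd (K.piecewise z z') z fun i hi => Finset.piecewise_eq_of_mem _ _ _ hi]

end Vale.Agent.P161
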