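import Vale.Agent.P161.Limit
import Vale.Agent.P161.EfronStein

/-!
The infinite volume innovations are independent standard normals.
-/

open MeasureTheory ProbabilityTheory SimpleGraph Filter
open scoped Topology NNReal

namespace Vale.Agent.P161

universe u

variable {V : Type u} [DecidableEq V] {G : SimpleGraph V} [DecidableRel G.Adj] {θ : ℝ} {d : ℕ}
variable {ν : Measure (V → Bool)} [IsProbabilityMeasure ν]

set_option linter.unusedSectionVars false

lemma innov_apply {ι : Type*} [Fintype ι] (h : ℝ≥0) (M : (ι → ℝ) → ι → ℝ) (N : ℕ)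
    (x : Fin N → ι → ℝ) (k : Fin N) (i : ι) :
    innov h M N x k i
      = x k i - (h : ℝ) * M (fun i => ∑ j : Fin N, if (j : ℕ) < k then x j i else 0) i := by
  induction N with
  | zero => exact k.elim0
  | succ N ih =>
    refine Fin.lastCases ?_ (fun j => ?_) k
    · simp only [innov, Fin.snoc_last]
      congr 3
      funext i
      simp [tot, Fin.sum_univ_castSucc, Fin.init]
    · simp only [innov, Fin.snoc_castSucc, ih]
      congr 3
      funext i
      simp [Fin.sum_univ_castSucc, Fin.init, not_lt.2 j.isLt.le]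

/-- A function of the coefficients read from finitely many increments. -/
noncomputable def readCoef (D : Finset V) (n N : ℕ) (b : Fin N → D → ℝ) : V × ℕ × ℕ → ℝ :=
  fun p => coef n p.2 fun k => if h : k < N ∧ p.1 ∈ D then b ⟨k, h.1⟩ ⟨p.1, h.2⟩ else 0

lemma measurable_readCoef (D : Finset V) (n N : ℕ) : Measurable (readCoef D n N) := by
  refine measurable_pi_lambda _ fun p =>
    (measurable_coef n p.2).comp (measurable_pi_lambda _ fun k => ?_)
  by_cases h : k < N ∧ p.1 ∈ D
  · simp only [dif_pos h]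
    exact (measurable_pi_apply _).comp (measurable_pi_apply _)
  · simp only [dif_neg h]
    exact measurable_const

/-- The total variation error at volume of size `c`. -/
noncomputable def chiB (c T n : ℕ) : ℝ :=
  Real.sqrt ((1 + 16 * (c : ℝ) ^ 2 * mesh n ^ 2) ^ (T * 2 ^ n) - 1)

lemma chiB_tendsto (c T : ℕ) : Tendsto (fun n => chiB c T n) atTop (𝓝 0) := by
  have hm : Tendsto mesh atTop (𝓝 0) :=
    tendsto_pow_atTop_nhds_zero_of_lt_one (by norm_num) (by norm_num)
  have hup : Tendsto (fun n => Real.sqrt (Real.exp (16 * (c : ℝ) ^ 2 * T * mesh n) - 1))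
      atTop (𝓝 0) := by
    have := ((Real.continuous_exp.tendsto _).comp
      (hm.const_mul (16 * (c : ℝ) ^ 2 * T))).sub_const 1
    simpa using this.sqrt
  refine squeeze_zero (fun n => Real.sqrt_nonneg _) (fun n => Real.sqrt_le_sqrt ?_) hup
  gcongr
  refine (pow_le_pow_left₀ (by positivity)
    (show 1 + 16 * (c : ℝ) ^ 2 * mesh n ^ 2 ≤ Real.exp (16 * (c : ℝ) ^ 2 * mesh n ^ 2) by
      linarith [Real.add_one_le_exp (16 * (c : ℝ) ^ 2 * mesh n ^ 2)]) _).trans (le_of_eq ?_)
  rw [← Real.exp_nat_mul]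
  congr 1
  push_cast
  linear_combination (16 * (c : ℝ) ^ 2 * T * mesh n) * mesh_mul_two_pow n

/-- Functions of finitely many innovation coefficients are nearly distributed as for normals. -/
lemma law_near (hν : HasMarginals G θ ν) (hG : G.IsTree) (hθ : |θ| < 1) {D : Finset V}
    (hD : Conn G D) (T n : ℕ) (hn : 4 * (D.card : ℝ) * mesh n ≤ 1)
    {f : (V × ℕ × ℕ → ℝ) → ℝ} (hfm : Measurable f) (hf1 : ∀ z, |f z| ≤ 1)
    (hfd : CoordOn (D ×ˢ lvl T n) f) :
    |∫ ω, f (innX G θ D n ω) ∂probM ν - ∫ z, f z ∂gam (V × ℕ × ℕ)| ≤ chiB D.card T n := by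
  set N := T * 2 ^ n with hN
  set M := isingMix hG hθ D hD with hM
  set F : (Fin N → D → ℝ) → ℝ := fun x => f (readCoef D n N x) with hF
  have hFm : Measurable F := hfm.comp (measurable_readCoef D n N)
  have hmi := measurable_innov (h := meshNN n) M.measurable_post N
  have e1 : ∀ ω, f (innX G θ D n ω) = F (innov (meshNN n) M.post N (datum D n N ω)) := by
    intro ω
    refine hfd _ _ fun p hp => ?_
    obtain ⟨u, idx⟩ := p
    obtain ⟨hu, hidx⟩ := Finset.mem_product.1 hp
    rw [innX_eq_coef D n ω u (mem_lvl.1 hidx).1, readCoef]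
    refine coef_congr (T := T) (mem_lvl.1 hidx).2 fun k hk => ?_
    rw [dif_pos ⟨hk, hu⟩, innov_apply, hM, post_isingMix, coe_meshNN]
    have : mag G θ D (extD D fun v => ∑ j : Fin N,
        if (j : ℕ) < k then datum D n N ω j v else 0) u = mag G θ D (pos n ω k) u := by
      refine mag_congr (fun v hv => ?_) u
      simp only [extD, dif_pos hv, datum, pos]
      rw [← Finset.sum_range (fun j => if j < k then incY n ω v j else 0), ← Finset.sum_filter]
      refine Finset.sum_congr ?_ fun _ _ => rfl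
      ext j
      simp only [Finset.mem_filter, Finset.mem_range, hN]
      omega
    rw [this]
    simp only [incB, drift, if_pos hu, datum, incY]
    ring
  simp only [e1]
  rw [lik_law hν hG hθ hD n N (F := fun x => F (innov (meshNN n) M.post N x)) (C := 1)
    (hFm.comp hmi) (fun x => hf1 _)]
  have e2 : ∫ b, F b ∂incPi D (meshNN n) N = ∫ z, f z ∂gam (V × ℕ × ℕ) := by
    rw [← map_incMap D n N, integral_map (measurable_incMap D n N).aemeasurable
      hFm.aestronglyMeasurable]
    refine integral_congr_ae (Eventually.of_forall fun z => hfd _ _ fun p hp => ?_)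
    obtain ⟨u, idx⟩ := p
    obtain ⟨hu, hidx⟩ := Finset.mem_product.1 hp
    conv_rhs => rw [show z (u, idx) = slice z u idx from rfl,
      ← coef_inc (mem_lvl.1 hidx).1 (slice z u)]
    rw [readCoef]
    refine coef_congr (T := T) (mem_lvl.1 hidx).2 fun k hk => ?_
    rw [dif_pos ⟨hk, hu⟩]
    rfl
  rw [← e2]
  have := M.innov_near (meshNN_ne_zero n) (by simpa [coe_meshNN] using hn) N hFm (fun x => hf1 _)
  simpa [chiB, coe_meshNN, hM, hN] using this

variable (G θ ν) in
/-- The infinite volume innovations (an arbitrary measurable limit in each coordinate). -/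
noncomputable def innLim (ω : Omega V) (p : V × ℕ × ℕ) : ℝ :=
  open Classical in
  if hh : ∃ Y : Omega V → ℝ, Measurable Y ∧ IsInnLimit G θ ν p Y then hh.choose ω else 0

lemma innLim_spec (h : Reg G d) (hν : HasMarginals G θ ν) (hθ : |θ| < 1) (p : V × ℕ × ℕ) :
    Measurable (fun ω => innLim G θ ν ω p) ∧ IsInnLimit G θ ν p (fun ω => innLim G θ ν ω p) := by
  have hh := exists_limit h hν hθ p
  simp only [innLim, dif_pos hh]
  exact hh.choose_spec

lemma measurable_innLim (h : Reg G d) (hν : HasMarginals G θ ν) (hθ : |θ| < 1) :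
    Measurable (innLim G θ ν) :=
  measurable_pi_lambda _ fun p => (innLim_spec h hν hθ p).1

/-- Eventual property along growing volumes and levels. -/
def Ev (G : SimpleGraph V) (P : Finset V → ℕ → Prop) : Prop :=
  ∃ F : Finset V, ∃ N : ℕ, ∀ D n, Conn G D → F ⊆ D → N ≤ n → P D n

lemma Ev.and {P Q : Finset V → ℕ → Prop} (hP : Ev G P) (hQ : Ev G Q) :
    Ev G fun D n => P D n ∧ Q D n := by
  obtain ⟨F, N, hP⟩ := hP
  obtain ⟨F', N', hQ⟩ := hQ
  exact ⟨F ∪ F', max N N', fun D n hD hs hn =>
    ⟨hP D n hD (Finset.union_subset_left hs) (le_of_max_le_left hn),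
      hQ D n hD (Finset.union_subset_right hs) (le_of_max_le_right hn)⟩⟩

lemma Ev.all_finset {α : Type*} (s : Finset α) {P : α → Finset V → ℕ → Prop}
    (h : ∀ a ∈ s, Ev G (P a)) : Ev G fun D n => ∀ a ∈ s, P a D n := by
  classical
  induction s using Finset.induction_on with
  | empty => exact ⟨∅, 0, fun _ _ _ _ _ a ha => absurd ha (Finset.notMem_empty a)⟩
  | @insert a s _ ih =>
    obtain ⟨F, N, hh⟩ :=
      (h a (Finset.mem_insert_self a s)).and (ih fun b hb => h b (Finset.mem_insert_of_mem hb))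
    refine ⟨F, N, fun D n hD hs hn b hb => ?_⟩
    rcases Finset.mem_insert.1 hb with rfl | hb
    · exact (hh D n hD hs hn).1
    · exact (hh D n hD hs hn).2 b hb

lemma innLim_near (h : Reg G d) (hν : HasMarginals G θ ν) (hθ : |θ| < 1) (J : Finset (V × ℕ × ℕ))
    {c : V × ℕ × ℕ → ℝ} (hc : ∀ p ∈ J, 0 ≤ c p) {ε : ℝ} (hε : 0 < ε) :
    Ev G fun D n => J.sum (fun p => c p * ∫ ω, |innX G θ D n ω p - innLim G θ ν ω p| ∂probM ν)
      ≤ ε := by
  set C := ∑ p ∈ J, c p with hC
  have hC0 : 0 ≤ C := Finset.sum_nonneg hc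
  obtain ⟨F, N, hh⟩ := Ev.all_finset J
    (P := fun p D n => ∫ ω, |innX G θ D n ω p - innLim G θ ν ω p| ∂probM ν ≤ ε / (C + 1))
    (fun p _ => (innLim_spec h hν hθ p).2.2 _ (by positivity))
  refine ⟨F, N, fun D n hD hs hn => ?_⟩
  calc _ ≤ ∑ p ∈ J, c p * (ε / (C + 1)) := Finset.sum_le_sum fun p hp =>
        mul_le_mul_of_nonneg_left (hh D n hD hs hn p hp) (hc p hp)
    _ = C * (ε / (C + 1)) := by rw [hC, Finset.sum_mul]
    _ ≤ (C + 1) * (ε / (C + 1)) := by gcongr; linarith
    _ = ε := by field_simp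

lemma integral_abs_sub_le (h : Reg G d) (hν : HasMarginals G θ ν) (hθ : |θ| < 1)
    {J : Finset (V × ℕ × ℕ)} {c : V × ℕ × ℕ → ℝ} {f : (V × ℕ × ℕ → ℝ) → ℝ} (_hfm : Measurable f)
    (hfd : CoordOn J f) (hfl : CoordLip J c f) (D : Finset V) (n : ℕ) :
    ∫ ω, |f (innX G θ D n ω) - f (innLim G θ ν ω)| ∂probM ν
      ≤ ∑ p ∈ J, c p * ∫ ω, |innX G θ D n ω p - innLim G θ ν ω p| ∂probM ν := by
  have hi : ∀ p, Integrable (fun ω => c p * |innX G θ D n ω p - innLim G θ ν ω p|) (probM ν) :=
    fun p => ((integrable_innX hθ D n p).sub (innLim_spec h hν hθ p).2.1).abs.const_mul _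
  refine (integral_mono_of_nonneg (Eventually.of_forall fun _ => abs_nonneg _)
    (integrable_finsetSum J fun p _ => hi p)
    (Eventually.of_forall fun ω => hfl.abs_sub_le hfd _ _)).trans ?_
  rw [integral_finsetSum _ fun p _ => hi p]
  simp only [integral_const_mul]
  exact le_rfl

lemma law_test (h : Reg G d) (hν : HasMarginals G θ ν) (hθ : |θ| < 1) (J : Finset (V × ℕ × ℕ))
    {c : V × ℕ × ℕ → ℝ} (hc : ∀ p ∈ J, 0 ≤ c p) {f : (V × ℕ × ℕ → ℝ) → ℝ} (hfm : Measurable f)
    (hf1 : ∀ z, |f z| ≤ 1) (hfd : CoordOn J f) (hfl : CoordLip J c f) :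
    ∫ ω, f (innLim G θ ν ω) ∂probM ν = ∫ z, f z ∂gam (V × ℕ × ℕ) := by
  refine eq_of_forall_dist_le fun ε hε => ?_
  set T := (J.sup fun p => p.2.2) + 1
  obtain ⟨F, N, hev⟩ := innLim_near h hν hθ J hc (half_pos hε)
  obtain ⟨o⟩ := h.tree.connected.nonempty
  obtain ⟨R, hR⟩ := h.exists_ball_subset o (F ∪ J.image fun p => p.1)
  set D := h.ball o R
  have hD : Conn G D := h.conn_ball o R
  have hm : Tendsto mesh atTop (𝓝 0) :=
    tendsto_pow_atTop_nhds_zero_of_lt_one (by norm_num) (by norm_num)
  have hm' := hm.const_mul (4 * (D.card : ℝ))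
  rw [mul_zero] at hm'
  obtain ⟨n, hn1, hn2, hn3, hn4⟩ := (((chiB_tendsto D.card T).eventually
    (eventually_le_nhds (half_pos hε))).and ((hm'.eventually (eventually_le_nhds one_pos)).and
      ((eventually_ge_atTop N).and (eventually_ge_atTop (J.sup fun p => p.2.1))))).exists
  have hsub : J ⊆ D ×ˢ lvl T n := by
    intro p hp
    refine Finset.mem_product.2
      ⟨hR (Finset.mem_union_right _ (Finset.mem_image_of_mem _ hp)), mem_lvl.2 ⟨?_, ?_⟩⟩
    · exact (Finset.le_sup (f := fun p : V × ℕ × ℕ => p.2.1) hp).trans hn4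
    · exact lt_of_lt_of_le (Nat.lt_succ_of_le (Finset.le_sup (f := fun p : V × ℕ × ℕ => p.2.2) hp))
        (Nat.le_mul_of_pos_right _ (Nat.two_pow_pos _))
  have e1 := law_near hν h.tree hθ hD T n hn2 hfm hf1
    (fun z z' he => hfd z z' fun p hp => he p (hsub hp))
  have e2 := (integral_abs_sub_le (ν := ν) h hν hθ hfm hfd hfl D n).trans
    (hev D n hD (Finset.union_subset_left hR) hn3)
  have hiA : Integrable (fun ω => f (innX G θ D n ω)) (probM ν) :=
    integrable_bdd (hfm.comp (measurable_pi_lambda _ (measurable_innX D n))) (fun ω => hf1 _)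
  have hiB : Integrable (fun ω => f (innLim G θ ν ω)) (probM ν) :=
    integrable_bdd (hfm.comp (measurable_innLim h hν hθ)) (fun ω => hf1 _)
  have e3 : |∫ ω, f (innX G θ D n ω) ∂probM ν - ∫ ω, f (innLim G θ ν ω) ∂probM ν| ≤ ε / 2 := by
    rw [← integral_sub hiA hiB]
    exact abs_integral_le_integral_abs.trans e2
  rw [Real.dist_eq]
  have := abs_le.1 e1
  have := abs_le.1 e3
  exact abs_le.2 ⟨by linarith, by linarith⟩

lemma map_innLim (h : Reg G d) (hν : HasMarginals G θ ν) (hθ : |θ| < 1) :
    (probM ν).map (innLim G θ ν) = gam (V × ℕ × ℕ) := by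
  have hX := measurable_innLim h hν hθ
  have hp := Measure.isProbabilityMeasure_map (μ := probM ν) hX.aemeasurable
  refine IsProjectiveLimit.unique (P := fun J : Finset (V × ℕ × ℕ) => (gam _).map J.restrict)
    (fun J => ?_) (fun J => rfl)
  have hJm := Finset.measurable_restrict (X := fun _ : V × ℕ × ℕ => ℝ) J
  show ((probM ν).map (innLim G θ ν)).map J.restrict = (gam _).map J.restrict
  rw [Measure.map_map hJm hX]
  have := Measure.isProbabilityMeasure_map (μ := probM ν) (hJm.comp hX).aemeasurable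
  have := Measure.isProbabilityMeasure_map (μ := gam (V × ℕ × ℕ)) hJm.aemeasurable
  refine Measure.ext_of_charFunDual (funext fun L => ?_)
  rw [charFunDual_apply, charFunDual_apply, integral_map (hJm.comp hX).aemeasurable (by fun_prop),
    integral_map hJm.aemeasurable (by fun_prop)]
  simp only [Function.comp_apply]
  set s : (V × ℕ × ℕ → ℝ) → ℝ := fun z => L (J.restrict z) with hs
  have hsm : Measurable s := L.continuous.measurable.comp hJm
  classical
  set c : V × ℕ × ℕ → ℝ := fun p => if hp : p ∈ J then |L (Pi.single ⟨p, hp⟩ 1)| else 0 with hc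
  have hc0 : ∀ p ∈ J, 0 ≤ c p := fun p hp => by simp [hc, hp]
  have hdep : ∀ φ : ℝ → ℝ, CoordOn J (fun z => φ (s z)) := fun φ z z' he => by
    have : J.restrict z = J.restrict z' := funext fun p => he p p.2
    simp only [hs, this]
  have hlip : ∀ φ : ℝ → ℝ, (∀ x y, |φ x - φ y| ≤ |x - y|) → CoordLip J c (fun z => φ (s z)) := by
    intro φ hφ p hp z t t'
    refine (hφ _ _).trans (le_of_eq ?_)
    have e : J.restrict (Function.update z p t)
        = J.restrict (Function.update z p t') + (t - t') • Pi.single ⟨p, hp⟩ 1 := by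
      funext q
      by_cases hq : (q : V × ℕ × ℕ) = p
      · obtain rfl : q = ⟨p, hp⟩ := Subtype.ext hq
        simp [Finset.restrict]
      · simp [Finset.restrict, hq, Subtype.ext_iff]
    simp only [hs, e, map_add, map_smul, smul_eq_mul, add_sub_cancel_left, abs_mul, hc, dif_pos hp]
    ring
  have hcos := law_test h hν hθ J hc0 (f := fun z => Real.cos (s z))
    (Real.measurable_cos.comp hsm) (fun z => Real.abs_cos_le_one _) (hdep _)
    (hlip _ fun x y => by
      have := Real.lipschitzWith_cos.dist_le_mul x y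
      simpa [Real.dist_eq] using this)
  have hsin := law_test h hν hθ J hc0 (f := fun z => Real.sin (s z))
    (Real.measurable_sin.comp hsm) (fun z => Real.abs_sin_le_one _) (hdep _)
    (hlip _ fun x y => by
      have := Real.lipschitzWith_sin.dist_le_mul x y
      simpa [Real.dist_eq] using this)
  have hint : ∀ {α : Type u} [MeasurableSpace α] (μ : Measure α) [IsFiniteMeasure μ] (g : α → ℝ),
      Measurable g → Integrable (fun x => Complex.exp ((g x : ℂ) * Complex.I)) μ := by
    intro α _ μ _ g hg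
    refine Integrable.of_bound (Complex.measurable_exp.comp
      ((Complex.measurable_ofReal.comp hg).mul_const _)).aestronglyMeasurable 1
      (Eventually.of_forall fun x => ?_)
    rw [Complex.norm_exp_ofReal_mul_I]
  refine Complex.ext ?_ ?_
  · have a1 := integral_re (hint (probM ν) (fun ω => s (innLim G θ ν ω)) (hsm.comp hX))
    have a2 := integral_re (hint (gam (V × ℕ × ℕ)) s hsm)
    simp only [RCLike.re_to_complex, Complex.exp_ofReal_mul_I_re] at a1 a2
    exact a1.symm.trans (hcos.trans a2)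
  · have a1 := integral_im (hint (probM ν) (fun ω => s (innLim G θ ν ω)) (hsm.comp hX))
    have a2 := integral_im (hint (gam (V × ℕ × ℕ)) s hsm)
    simp only [RCLike.im_to_complex, Complex.exp_ofReal_mul_I_im] at a1 a2
    exact a1.symm.trans (hsin.trans a2)

end Vale.Agent.P161
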