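import Vale.Agent.P161.Equivariant

/-!
The spins are a function of the infinite volume innovations; hence a factor of IID.
-/

open MeasureTheory ProbabilityTheory SimpleGraph Filter
open scoped Topology ENNReal

namespace Vale.Agent.P161

universe u

variable {V : Type u} [DecidableEq V] {G : SimpleGraph V} [DecidableRel G.Adj] {θ : ℝ} {d : ℕ}
variable {ν : Measure (V → Bool)} [IsProbabilityMeasure ν]

set_option linter.unusedSectionVars false

/-- The Brownian motion at `v` at time `T`. -/
noncomputable def endNoise (v : V) (T : ℕ) (Z : V × ℕ × ℕ → ℝ) : ℝ :=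
  ∑ i ∈ Finset.range T, Z (v, 0, i)

lemma map_endNoise (v : V) (T : ℕ) :
    (gam (V × ℕ × ℕ)).map (endNoise v T) = gaussianReal 0 T := by
  have hm : Measurable (endNoise v T) :=
    Finset.measurable_sum _ fun i _ => measurable_pi_apply _
  have := Measure.isProbabilityMeasure_map (μ := gam (V × ℕ × ℕ)) hm.aemeasurable
  refine Measure.ext_of_charFun (funext fun t => ?_)
  rw [charFun_apply_real, charFun_gaussianReal, integral_map hm.aemeasurable (by fun_prop)]
  have hinj : Set.InjOn (fun i : ℕ => (v, 0, i)) ↑(Finset.range T) :=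
    fun a _ b _ hab => (Prod.mk.inj (Prod.mk.inj hab).2).2
  have e := integral_cexp_sum ((Finset.range T).image fun i => (v, 0, i)) (fun _ => t)
  simp only [Finset.sum_image hinj, ← Finset.mul_sum, Finset.sum_const, Finset.card_range,
    nsmul_eq_mul] at e
  simp only [endNoise]
  push_cast at e ⊢
  rw [e]
  congr 1
  ring

lemma integral_abs_endNoise (v : V) (T : ℕ) :
    Integrable (endNoise v T) (gam (V × ℕ × ℕ)) ∧
      ∫ Z, |endNoise v T Z| ∂gam (V × ℕ × ℕ) ≤ Real.sqrt T := by
  have hm : Measurable (endNoise v T) :=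
    Finset.measurable_sum _ fun i _ => measurable_pi_apply _
  have hmp : MeasurePreserving (endNoise v T) (gam _) (gaussianReal 0 T) := ⟨hm, map_endNoise v T⟩
  refine ⟨hmp.integrable_comp_of_integrable
    ((memLp_id_gaussianReal' 1 (by simp)).integrable le_rfl), ?_⟩
  have hcomp : ∫ Z, |endNoise v T Z| ∂gam (V × ℕ × ℕ) = ∫ x, |x| ∂gaussianReal 0 T := by
    rw [← hmp.map_eq, integral_map (f := fun x : ℝ => |x|) hm.aemeasurable (by fun_prop)]
  rw [hcomp]
  have hsq : Integrable (fun x : ℝ => x ^ 2) (gaussianReal 0 T) :=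
    (memLp_id_gaussianReal' 2 (by simp)).integrable_sq
  have h2 : ∫ x, x ^ 2 ∂gaussianReal 0 T = (T : ℝ) := by
    have h := variance_fun_id_gaussianReal (μ := 0) (v := (T : NNReal))
    rw [variance_eq_integral (X := fun x : ℝ => x) measurable_id.aemeasurable] at h
    simpa [integral_id_gaussianReal] using h
  refine (le_sqrt_of_forall (a := 1) zero_le_one (Nat.cast_nonneg T) fun s hs => ?_).trans
    (by rw [one_mul])
  refine (integral_mono ((memLp_id_gaussianReal' 1 (by simp)).integrable le_rfl).abs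
    ((integrable_const (s / 2)).add (hsq.div_const (2 * s))) fun x => ?_).trans ?_
  · simp only [id, Pi.add_apply]
    have e : s / 2 + x ^ 2 / (2 * s) - |x| = (|x| - s) ^ 2 / (2 * s) := by
      rw [← sq_abs x]; field_simp; ring
    have h0 : 0 ≤ (|x| - s) ^ 2 / (2 * s) := by positivity
    linarith
  · simp only [Pi.add_apply]
    rw [integral_add (integrable_const _) (hsq.div_const _), integral_const, probReal_univ,
      one_smul, integral_div, h2, one_mul]

lemma abs_clip_signal {s W : ℝ} (hs : |s| = 1) {T : ℝ} (hT : 2 ≤ T) :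
    |clip (T * s + W) - s| ≤ 2 / (T - 1) * |W| := by
  rcases le_or_gt |W| (T - 1) with hW | hW
  · have hW' := abs_le.1 hW
    have : clip (T * s + W) = s := by
      rcases eq_or_eq_neg_of_abs_eq hs with rfl | rfl
      · rw [clip, min_eq_left (by linarith), max_eq_right (by norm_num)]
      · rw [clip, min_eq_right (by linarith), max_eq_left (by linarith)]
    rw [this, sub_self, abs_zero]
    exact mul_nonneg (div_nonneg two_pos.le (by linarith)) (abs_nonneg _)
  · calc _ ≤ |clip (T * s + W)| + |s| := abs_sub _ _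
      _ ≤ 2 := by linarith [abs_clip_le (T * s + W)]
      _ ≤ _ := by
          rw [div_mul_eq_mul_div, le_div_iff₀ (by linarith)]
          nlinarith

lemma exists_radius (h : Reg G d) (hθ : 0 ≤ θ) (hθ' : ((d : ℝ) - 1) * θ ^ 2 < 1) :
    ∃ r, θ < r ∧ ((d : ℝ) - 1) * r ^ 2 < 1 := by
  have hd : (2 : ℝ) ≤ d := by exact_mod_cast h.two_le
  have hd1 : 0 < (d : ℝ) - 1 := by linarith
  have hlt : θ ^ 2 < 1 / ((d : ℝ) - 1) := by rw [lt_div_iff₀ hd1]; linarith
  refine ⟨Real.sqrt ((θ ^ 2 + 1 / ((d : ℝ) - 1)) / 2), (Real.lt_sqrt hθ).2 (by linarith), ?_⟩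
  rw [Real.sq_sqrt (by positivity)]
  calc ((d : ℝ) - 1) * ((θ ^ 2 + 1 / ((d : ℝ) - 1)) / 2)
      < ((d : ℝ) - 1) * ((1 / ((d : ℝ) - 1) + 1 / ((d : ℝ) - 1)) / 2) := by gcongr
    _ = 1 := by field_simp; ring

lemma approx_spin (h : Reg G d) (hν : HasMarginals G θ ν) (hθ : 0 ≤ θ)
    (hθ' : ((d : ℝ) - 1) * θ ^ 2 < 1) (v : V) {ε : ℝ} (hε : 0 < ε) :
    ∃ g : (V × ℕ × ℕ → ℝ) → ℝ, Measurable g ∧ (∀ z, |g z| ≤ 1) ∧
      ∫ ω, |spin (ω.1 v) - g (innLim G θ ν ω)| ∂probM ν ≤ ε := by
  obtain ⟨r, hr, hr'⟩ := exists_radius h hθ hθ'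
  have hr0 : 0 < r := lt_of_le_of_lt hθ hr
  have hθa : |θ| < 1 := by rw [abs_of_nonneg hθ]; exact (h.abs_lt_one hθ hr hr').1
  -- the horizon
  obtain ⟨T, hT2, hT⟩ : ∃ T : ℕ, 2 ≤ T ∧ 2 / ((T : ℝ) - 1) * Real.sqrt T ≤ ε / 4 := by
    have h1 : Tendsto (fun T : ℕ => Real.sqrt T) atTop atTop :=
      Real.tendsto_sqrt_atTop.comp tendsto_natCast_atTop_atTop
    obtain ⟨T, hT, hT2⟩ :=
      ((h1.eventually_ge_atTop (16 / ε)).and (eventually_ge_atTop 2)).exists
    refine ⟨T, hT2, ?_⟩
    have hTr : (2 : ℝ) ≤ T := by exact_mod_cast hT2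
    rw [div_mul_eq_mul_div, div_le_iff₀ (by linarith)]
    have hs := Real.sq_sqrt (show (0 : ℝ) ≤ T by linarith)
    have h16 : 16 ≤ ε * Real.sqrt T := by
      rw [div_le_iff₀ hε] at hT
      linarith
    nlinarith [Real.sqrt_nonneg (T : ℝ)]
  -- the finite set of important coordinates
  set c : V × ℕ × ℕ → ℝ := fun p => r ^ G.dist v p.1 * coordC (schurC d θ r) T p.2 with hc
  have hc0 : ∀ p, 0 ≤ c p := fun p => mul_nonneg (pow_nonneg hr0.le _) (coordC_nonneg _ _ _)
  have hcs : Summable fun p => c p ^ 2 := by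
    have h1 := h.summable_pow_dist (sq_nonneg r) hr' v
    have h2 := Summable.mul_of_nonneg h1 (summable_coordC_sq (schurC d θ r) T)
      (fun _ => pow_nonneg (sq_nonneg r) _) (fun _ => sq_nonneg _)
    refine h2.congr fun p => ?_
    simp only [hc, mul_pow, ← pow_mul, mul_comm 2]
  set η := (ε / 4) ^ 2 / 5 with hη
  have hη0 : 0 < η := by positivity
  obtain ⟨L, hL⟩ := summable_iff_vanishing.1 hcs (Metric.ball 0 η) (Metric.ball_mem_nhds _ hη0)
  -- a large volume and a fine level
  obtain ⟨F, N0, hev⟩ := innLim_near h hν hθa L (c := c) (fun p _ => hc0 p)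
    (show 0 < ε / 4 by positivity)
  obtain ⟨R, hR⟩ := h.exists_ball_subset v F
  set D := h.ball v R
  have hD : Conn G D := h.conn_ball v R
  have hvD : v ∈ D := h.mem_ball.2 (by simp)
  have hm : Tendsto mesh atTop (𝓝 0) :=
    tendsto_pow_atTop_nhds_zero_of_lt_one (by norm_num) (by norm_num)
  have hm' := hm.const_mul (4 * (D.card : ℝ))
  rw [mul_zero] at hm'
  obtain ⟨n, hn1, hn2, hn3⟩ := (((chiB_tendsto D.card T).eventually
    (eventually_le_nhds hη0)).and ((hm'.eventually (eventually_le_nhds one_pos)).and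
      (eventually_ge_atTop N0))).exists
  set J := D ×ˢ lvl T n with hJ
  set f : (V × ℕ × ℕ → ℝ) → ℝ := fun z => clip (euler G θ D n z (T * 2 ^ n) v) with hf
  have hfm : Measurable f := measurable_clip.comp (measurable_euler D n _ v)
  have hfd : CoordOn (J ∩ L ∪ J \ L) f := fun z z' he => by
    rw [Finset.union_comm, Finset.sdiff_union_inter] at he
    simp only [hf]
    rw [euler_congr (fun u hu idx hi => he (u, idx) (Finset.mem_product.2 ⟨hu, hi⟩)) _ le_rfl]
  have hfl : CoordLip (J ∩ L ∪ J \ L) c f := fun p hp z t s => by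
    rw [Finset.union_comm, Finset.sdiff_union_inter] at hp
    obtain ⟨hpD, hpl⟩ := Finset.mem_product.1 hp
    simp only [hf, hc]
    exact endpoint_lip h hθ hr hr' hD hvD hpD hpl z t s
  obtain ⟨g, hgm, hgb, hgd, hgl, hge⟩ := efron_stein (J ∩ L) (J \ L)
    (disjoint_sdiff_self_right.mono_left Finset.inter_subset_right) c f hfm
    (fun z => abs_clip_le _) hfd hfl
  refine ⟨g, hgm, hgb, ?_⟩
  have htail : ∑ p ∈ J \ L, c p ^ 2 ≤ η := by
    have := hL (J \ L) Finset.sdiff_disjoint
    rw [Metric.mem_ball, Real.dist_eq, sub_zero,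
      abs_of_nonneg (Finset.sum_nonneg fun p _ => sq_nonneg _)] at this
    exact this.le
  set H : (V × ℕ × ℕ → ℝ) → ℝ := fun z => (f z - g z) ^ 2 / 4 with hH
  have hHb : ∀ z, |H z| ≤ 1 := fun z => by
    simp only [hH]
    rw [abs_div, abs_of_pos (show (0 : ℝ) < 4 by norm_num), div_le_one (by norm_num), abs_pow]
    exact (pow_le_pow_left₀ (abs_nonneg _)
      ((abs_sub _ _).trans (add_le_add (abs_clip_le _) (hgb z))) 2).trans (by norm_num)
  have hHd : CoordOn (D ×ˢ lvl T n) H := fun z z' he => by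
    have h1 : f z = f z' := hfd z z' fun p hp => by
      rw [Finset.union_comm, Finset.sdiff_union_inter] at hp
      exact he p hp
    have h2 : g z = g z' := hgd z z' fun p hp => he p (Finset.mem_inter.1 hp).1
    simp only [hH, h1, h2]
  have hHm : Measurable H := ((hfm.sub hgm).pow_const 2).div_const 4
  have hlaw := (abs_le.1 (law_near hν h.tree hθa hD T n hn2 (f := H) hHm hHb hHd)).2
  simp only [hH] at hlaw
  rw [integral_div, integral_div] at hlaw
  have hsq : ∫ ω, (f (innX G θ D n ω) - g (innX G θ D n ω)) ^ 2 ∂probM ν ≤ (ε / 4) ^ 2 := by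
    simp only [hη] at *
    linarith
  have hmX : Measurable (innX G θ D n) := measurable_pi_lambda _ (measurable_innX D n)
  have hA : ∫ ω, |f (innX G θ D n ω) - g (innX G θ D n ω)| ∂probM ν ≤ ε / 4 := by
    have hi : Integrable (fun ω => (f (innX G θ D n ω) - g (innX G θ D n ω)) ^ 2) (probM ν) :=
      integrable_bdd (((hfm.sub hgm).comp hmX).pow_const 2) (C := 4) fun ω => by
        rw [abs_pow]
        exact (pow_le_pow_left₀ (abs_nonneg _)
          ((abs_sub _ _).trans (add_le_add (abs_clip_le _) (hgb _))) 2).trans (by norm_num)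
    refine (le_sqrt_of_forall (a := 1) zero_le_one (sq_nonneg (ε / 4)) fun s hs => ?_).trans
      (le_of_eq (by rw [one_mul, Real.sqrt_sq (by positivity)]))
    refine (integral_mono_of_nonneg (Eventually.of_forall fun _ => abs_nonneg _)
      ((integrable_const (s / 2)).add (hi.div_const (2 * s))) (Eventually.of_forall fun ω => ?_)).trans ?_
    · set x := f (innX G θ D n ω) - g (innX G θ D n ω) with hx
      simp only [Pi.add_apply]
      rw [← hx]
      have e : s / 2 + x ^ 2 / (2 * s) - |x| = (|x| - s) ^ 2 / (2 * s) := by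
        rw [← sq_abs x]; field_simp; ring
      have h0 : 0 ≤ (|x| - s) ^ 2 / (2 * s) := by positivity
      linarith
    · simp only [Pi.add_apply]
      rw [integral_add (integrable_const _) (hi.div_const _), integral_const, probReal_univ,
        one_smul, integral_div, one_mul]
      gcongr
  have hB : ∫ ω, |g (innX G θ D n ω) - g (innLim G θ ν ω)| ∂probM ν ≤ ε / 4 := by
    refine (integral_abs_sub_le h hν hθa hgm hgd hgl D n).trans (le_trans ?_ (hev D n hD hR hn3))
    exact Finset.sum_le_sum_of_subset_of_nonneg Finset.inter_subset_right fun p _ _ =>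
      mul_nonneg (hc0 p) (integral_nonneg fun _ => abs_nonneg _)
  obtain ⟨hWi, hW⟩ := integral_abs_endNoise v T
  have hC : ∫ ω, |spin (ω.1 v) - f (innX G θ D n ω)| ∂probM ν ≤ ε / 4 := by
    have hWi' : Integrable (fun ω : Omega V => |endNoise v T ω.2|) (probM ν) :=
      Integrable.comp_snd (f := fun Z => |endNoise v T Z|) hWi.abs ν
    refine (integral_mono_of_nonneg (Eventually.of_forall fun _ => abs_nonneg _)
      (hWi'.const_mul (2 / ((T : ℝ) - 1))) (Eventually.of_forall fun ω => ?_)).trans ?_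
    · simp only [hf]
      rw [euler_innX D n ω _ v hvD, pos_eq, abs_sub_comm]
      have e1 : cum n (slice ω.2 v) (T * 2 ^ n) = endNoise v T ω.2 := by
        have := cum_refine 0 n (slice ω.2 v) T
        rw [zero_add, mul_comm] at this
        rw [this]
        rfl
      have e2 : ((T * 2 ^ n : ℕ) : ℝ) * mesh n = T := by
        push_cast
        linear_combination (T : ℝ) * mesh_mul_two_pow n
      rw [e1, e2]
      exact abs_clip_signal (abs_spin _) (by exact_mod_cast hT2)
    · rw [integral_const_mul, probM, integral_fun_snd (μ := ν) (fun Z => |endNoise v T Z|),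
        probReal_univ, one_smul]
      refine le_trans (mul_le_mul_of_nonneg_left hW ?_) hT
      have : (2 : ℝ) ≤ T := by exact_mod_cast hT2
      exact div_nonneg two_pos.le (by linarith)
  have hi1 : Integrable (fun ω : Omega V => |spin (ω.1 v) - f (innX G θ D n ω)|) (probM ν) :=
    (integrable_bdd (((measurable_spin_eval v).comp measurable_fst).sub (hfm.comp hmX)) (C := 2)
      fun ω => (abs_sub _ _).trans
        ((add_le_add (abs_spin (ω.1 v)).le (abs_clip_le _)).trans (by norm_num))).abs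
  have hi2 : Integrable (fun ω : Omega V => |f (innX G θ D n ω) - g (innX G θ D n ω)|) (probM ν) :=
    (integrable_bdd ((hfm.sub hgm).comp hmX) (C := 2)
      fun ω => (abs_sub _ _).trans (add_le_add (abs_clip_le _) (hgb _) |>.trans (by norm_num))).abs
  have hi3 : Integrable (fun ω : Omega V => |g (innX G θ D n ω) - g (innLim G θ ν ω)|) (probM ν) :=
    (integrable_bdd ((hgm.comp hmX).sub (hgm.comp (measurable_innLim h hν hθa))) (C := 2)
      fun ω => (abs_sub _ _).trans (add_le_add (hgb _) (hgb _) |>.trans (by norm_num))).abs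
  calc _ ≤ ∫ ω, (|spin (ω.1 v) - f (innX G θ D n ω)|
        + |f (innX G θ D n ω) - g (innX G θ D n ω)|
        + |g (innX G θ D n ω) - g (innLim G θ ν ω)|) ∂probM ν :=
        integral_mono_of_nonneg (Eventually.of_forall fun _ => abs_nonneg _)
          ((hi1.add hi2).add hi3) (Eventually.of_forall fun ω =>
            (abs_sub_le _ (g (innX G θ D n ω)) _).trans
              (add_le_add_left (abs_sub_le _ _ _) _))
    _ ≤ ε := by
        rw [integral_add (f := fun ω => |spin (ω.1 v) - f (innX G θ D n ω)|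
            + |f (innX G θ D n ω) - g (innX G θ D n ω)|)
          (g := fun ω => |g (innX G θ D n ω) - g (innLim G θ ν ω)|) (hi1.add hi2) hi3,
          integral_add hi1 hi2]
        linarith

lemma spin_factor (h : Reg G d) (hν : HasMarginals G θ ν) (hθ : 0 ≤ θ)
    (hθ' : ((d : ℝ) - 1) * θ ^ 2 < 1) :
    ∃ Φ : (V × ℕ × ℕ → ℝ) → V → Bool, Measurable Φ ∧
      ∀ᵐ ω ∂probM ν, Φ (innLim G θ ν ω) = ω.1 := by
  obtain ⟨r, hr, hr'⟩ := exists_radius h hθ hθ'
  have hθa : |θ| < 1 := by rw [abs_of_nonneg hθ]; exact (h.abs_lt_one hθ hr hr').1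
  have := h.countable
  choose g hgm hgb hge using fun (v : V) (j : ℕ) =>
    approx_spin h hν hθ hθ' v (ε := (1 / 2 : ℝ) ^ j) (by positivity)
  classical
  refine ⟨fun z v => decide (∃ N, ∀ j ≥ N, 0 < g v j z), ?_, ?_⟩
  · refine measurable_pi_lambda _ fun v => measurable_to_bool ?_
    have : (fun z => decide (∃ N, ∀ j ≥ N, 0 < g v j z)) ⁻¹' {true}
        = ⋃ N, ⋂ j, ⋂ (_ : N ≤ j), g v j ⁻¹' Set.Ioi 0 := by
      ext z; simp
    rw [this]
    exact MeasurableSet.iUnion fun N => MeasurableSet.iInter fun j =>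
      MeasurableSet.iInter fun _ => hgm v j measurableSet_Ioi
  rw [show (∀ᵐ ω ∂probM ν, (fun v => decide (∃ N, ∀ j ≥ N, 0 < g v j (innLim G θ ν ω))) = ω.1)
    ↔ ∀ᵐ ω ∂probM ν, ∀ v, decide (∃ N, ∀ j ≥ N, 0 < g v j (innLim G θ ν ω)) = ω.1 v from
      eventually_congr (Eventually.of_forall fun ω => funext_iff), ae_all_iff]
  intro v
  set e : ℕ → Omega V → ℝ := fun j ω => |spin (ω.1 v) - g v j (innLim G θ ν ω)| with he
  have hem : ∀ j, Measurable (e j) := fun j =>
    (((measurable_spin_eval v).comp measurable_fst).sub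
      ((hgm v j).comp (measurable_innLim h hν hθa))).abs
  have hsum : ∫⁻ ω, ∑' j, ENNReal.ofReal (e j ω) ∂probM ν ≠ ∞ := by
    rw [lintegral_tsum fun j => (hem j).ennreal_ofReal.aemeasurable]
    refine ne_top_of_le_ne_top
      (ENNReal.ofReal_ne_top (r := ∑' j : ℕ, (1 / 2 : ℝ) ^ j)) ?_
    rw [ENNReal.ofReal_tsum_of_nonneg (fun j => by positivity)
      (summable_geometric_of_lt_one (by norm_num) (by norm_num))]
    refine ENNReal.tsum_le_tsum fun j => ?_
    rw [← ofReal_integral_eq_lintegral_ofReal (integrable_bdd (hem j) (C := 2) fun ω => ?_)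
      (Eventually.of_forall fun ω => abs_nonneg _)]
    · exact ENNReal.ofReal_le_ofReal (hge v j)
    · simp only [he, abs_abs]
      refine (abs_sub _ _).trans ?_
      linarith [abs_spin (ω.1 v), hgb v j (innLim G θ ν ω)]
  filter_upwards [ae_lt_top (Measurable.tsum fun j => (hem j).ennreal_ofReal) hsum] with ω hω
  have h0 := ENNReal.tendsto_atTop_zero_of_tsum_ne_top hω.ne
  have h1 : ∀ᶠ j in atTop, e j ω < 1 := by
    filter_upwards [h0.eventually (eventually_lt_nhds one_pos)] with j hj
    rwa [← ENNReal.ofReal_one, ENNReal.ofReal_lt_ofReal_iff one_pos] at hj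
  obtain ⟨N, hN⟩ := eventually_atTop.1 h1
  cases hb : ω.1 v
  · simp only [decide_eq_false_iff_not, not_exists]
    intro M hM
    have h2 := hM (max M N) (le_max_left _ _)
    have h3 := (abs_lt.1 (hN (max M N) (le_max_right _ _))).1
    simp [spin, hb] at h3
    linarith
  · simp only [decide_eq_true_eq]
    refine ⟨N, fun j hj => ?_⟩
    have h3 := (abs_lt.1 (hN j hj)).2
    simp [spin, hb] at h3
    linarith

/-- Below the reconstruction threshold the free Ising measure is a factor of IID. -/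
lemma factor_of_hasMarginals (h : Reg G d) (hν : HasMarginals G θ ν) (hθ : 0 ≤ θ)
    (hθ' : ((d : ℝ) - 1) * θ ^ 2 < 1) : IsFactorOfIID G ν := by
  obtain ⟨r, hr, hr'⟩ := exists_radius h hθ hθ'
  have hθa : |θ| < 1 := by rw [abs_of_nonneg hθ]; exact (h.abs_lt_one hθ hr hr').1
  have := h.countable
  obtain ⟨Φ, hΦm, hΦ⟩ := spin_factor h hν hθ hθ'
  obtain ⟨φ, hφm, hφ⟩ := Measure.exists_measurable_map_eq
    (Measure.infinitePi fun _ : ℕ × ℕ => gaussianReal 0 1)
  set U := Measure.infinitePi fun _ : V => (volume : Measure unitInterval)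
  set lift : (V → unitInterval) → (V × ℕ × ℕ → ℝ) := fun x p => φ (x p.1) p.2 with hlift
  have hliftm : Measurable lift := measurable_pi_lambda _ fun p =>
    ((measurable_pi_apply p.2).comp hφm).comp (measurable_pi_apply p.1)
  have hmap : U.map lift = gam (V × ℕ × ℕ) := by
    have e1 : U.map (fun x v => φ (x v))
        = Measure.infinitePi fun _ : V => Measure.infinitePi fun _ : ℕ × ℕ => gaussianReal 0 1 := by
      rw [Measure.infinitePi_map_pi (μ := fun _ : V => (volume : Measure unitInterval))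
        (f := fun _ => φ) fun _ => hφm]
      simp only [hφ]
    rw [show lift = (MeasurableEquiv.curry V (ℕ × ℕ) ℝ).symm ∘ fun x v => φ (x v) from
        funext fun x => rfl]
    have hm : Measurable fun (x : V → unitInterval) (v : V) => φ (x v) :=
      measurable_pi_lambda _ fun v => hφm.comp (measurable_pi_apply v)
    refine (Measure.map_map (μ := U) (MeasurableEquiv.measurable _) hm).symm.trans ?_
    rw [e1]
    exact Measure.infinitePi_map_curry_symm (fun (_ : V) (_ : ℕ × ℕ) => gaussianReal 0 1)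
  have hX := measurable_innLim h hν hθa
  have hlaw := map_innLim h hν hθa
  refine ⟨fun x => Φ (lift x), hΦm.comp hliftm, fun g => ?_, ?_⟩
  · have h1 := innLim_gact h hν hθa g
    have h2 := (measurePreserving_gact h hν g).quasiMeasurePreserving.ae hΦ
    have h3 : ∀ᵐ ω ∂probM ν, Φ (gnoise g (innLim G θ ν ω))
        = fun v => Φ (innLim G θ ν ω) (g.symm v) := by
      filter_upwards [h1, h2, hΦ] with ω e1 e2 e3
      rw [← funext e1, e2, e3]
      rfl
    have hms : MeasurableSet {z : V × ℕ × ℕ → ℝ | Φ (gnoise g z) = fun v => Φ z (g.symm v)} :=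
      measurableSet_eq_fun (hΦm.comp (measurable_gnoise g))
        (measurable_pi_lambda _ fun v => (measurable_pi_apply _).comp hΦm)
    have h4 : ∀ᵐ z ∂(gam (V × ℕ × ℕ)), Φ (gnoise g z) = fun v => Φ z (g.symm v) := by
      rw [← hlaw]
      exact (ae_map_iff hX.aemeasurable hms).2 h3
    rw [← hmap] at h4
    exact ae_of_ae_map hliftm.aemeasurable h4
  · calc ν = (probM ν).map Prod.fst := by rw [probM, Measure.map_fst_prod, measure_univ, one_smul]
      _ = (probM ν).map (fun ω => Φ (innLim G θ ν ω)) :=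
          Measure.map_congr (hΦ.mono fun ω e => e.symm)
      _ = ((probM ν).map (innLim G θ ν)).map Φ := (Measure.map_map hΦm hX).symm
      _ = _ := by rw [hlaw, ← hmap, Measure.map_map hΦm hliftm]; rfl

end Vale.Agent.P161
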