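import Mathlib

/-!
Definitions for the free Ising state on a tree and for factors of IID.
-/

open MeasureTheory

namespace Vale.Agent.P161

universe u

variable {V : Type u}

/-- The spin `±1` encoded by a Boolean. -/
def spin (b : Bool) : ℝ := if b then 1 else -1

/-- The weight `(1 + θ η_u η_v)/2` of the unordered pair `{u, v}`. -/
noncomputable def edgeW (θ : ℝ) (η : V → Bool) : Sym2 V → ℝ :=
  Sym2.lift ⟨fun a b => (1 + θ * spin (η a) * spin (η b)) / 2, fun a b => by ring⟩

open Classical in
/-- `ν` is the free zero-field Ising measure with edge parameter `θ`: for every finite vertex set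
`D` spanning a connected subgraph and every configuration `η`, the probability that the spins
agree with `η` on `D` is one half times the product of `(1 + θ η_u η_v)/2` over the edges
inside `D`. -/
def IsFreeIsing (G : SimpleGraph V) (θ : ℝ) (ν : Measure (V → Bool)) : Prop :=
  ∀ D : Finset V, (G.induce (D : Set V)).Connected → ∀ η : V → Bool,
    ν {σ | ∀ v ∈ D, σ v = η v} =
      ENNReal.ofReal (1 / 2 * ∏ e ∈ D.sym2.filter (fun e => e ∈ G.edgeSet), edgeW θ η e)

/-- `ν` is a factor of IID: it is the law of `Φ U` for independent uniform `[0,1]` variables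
`U`, with `Φ` measurable and commuting almost surely with every fixed automorphism of `G`,
automorphisms acting by `(g x) v = x (g⁻¹ v)`. -/
def IsFactorOfIID (G : SimpleGraph V) (ν : Measure (V → Bool)) : Prop :=
  ∃ Φ : (V → unitInterval) → (V → Bool), Measurable Φ ∧
    (∀ g : G ≃g G,
      ∀ᵐ U ∂(Measure.infinitePi fun _ : V => (volume : Measure unitInterval)),
        Φ (fun v => U (g.symm v)) = fun v => Φ U (g.symm v)) ∧
    ν = Measure.map Φ (Measure.infinitePi fun _ : V => (volume : Measure unitInterval))

end Vale.Agent.P161
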