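import Vale.Agent.P161.Weight

/-!
The free Ising measure on an infinite regular tree: construction, finite marginals, uniqueness.
-/

open MeasureTheory SimpleGraph
open scoped ENNReal

namespace Vale.Agent.P161

universe u

variable {V : Type u} [DecidableEq V] {G : SimpleGraph V} [DecidableRel G.Adj] {θ : ℝ} {d : ℕ}

set_option linter.unusedSectionVars false

/-- The event that the spins agree with `η` on `D`. -/
def agree (D : Finset V) (η : V → Bool) : Set (V → Bool) := {σ | ∀ v ∈ D, σ v = η v}

lemma measurableSet_agree (D : Finset V) (η : V → Bool) : MeasurableSet (agree D η) := by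
  have : agree D η = ⋂ v ∈ D, (fun σ : V → Bool => σ v) ⁻¹' {η v} := by
    ext σ; simp [agree]
  rw [this]
  exact MeasurableSet.biInter D.countable_toSet fun v _ =>
    measurable_pi_apply v (measurableSet_singleton _)

/-- The measure has the prescribed marginals on connected finite sets. -/
def HasMarginals (G : SimpleGraph V) [DecidableRel G.Adj] (θ : ℝ) (ν : Measure (V → Bool)) : Prop :=
  ∀ D, Conn G D → ∀ η, ν (agree D η) = ENNReal.ofReal (w G θ D η)

/-- The probability of the bit `b` at vertex `v` in the construction rooted at `o`. -/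
noncomputable def bitP (o : V) (θ : ℝ) (v : V) (b : Bool) : ℝ :=
  if v = o then 1 / 2 else if b then (1 - θ) / 2 else (1 + θ) / 2

lemma bitP_nonneg (hθ : |θ| ≤ 1) (o v : V) (b : Bool) : 0 ≤ bitP o θ v b := by
  have := abs_le.1 hθ
  unfold bitP
  split_ifs <;> linarith

/-- The law of the bit at `v`: the root spin, or a flip along the edge to the parent. -/
noncomputable def bitMeasure (o : V) (θ : ℝ) (v : V) : Measure Bool :=
  ENNReal.ofReal (bitP o θ v true) • Measure.dirac true
    + ENNReal.ofReal (bitP o θ v false) • Measure.dirac false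

lemma bitMeasure_singleton (o : V) (θ : ℝ) (v : V) (b : Bool) :
    bitMeasure o θ v {b} = ENNReal.ofReal (bitP o θ v b) := by
  cases b <;> simp [bitMeasure]

lemma isProbability_bitMeasure (hθ : |θ| ≤ 1) (o : V) (v : V) :
    IsProbabilityMeasure (bitMeasure o θ v) := by
  refine ⟨?_⟩
  simp only [bitMeasure, Measure.add_apply, Measure.smul_apply, smul_eq_mul, measure_univ, mul_one]
  rw [← ENNReal.ofReal_add (bitP_nonneg hθ o v _) (bitP_nonneg hθ o v _)]
  unfold bitP
  split_ifs <;> simp_all <;> norm_num <;> ring_nf

/-- The parent of a vertex, in the tree rooted at `o`. -/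
noncomputable def parent (hG : G.IsTree) (o v : V) : V :=
  if h : 0 < G.dist v o then
    (exists_adj_closer hG (k := G.dist v o - 1) (Nat.succ_pred_eq_of_pos h).symm).choose
  else v

lemma parent_spec (hG : G.IsTree) {o v : V} (h : v ≠ o) :
    G.Adj v (parent hG o v) ∧ G.dist (parent hG o v) o + 1 = G.dist v o := by
  have h' : 0 < G.dist v o := hG.connected.pos_dist_of_ne h
  rw [parent, dif_pos h']
  obtain ⟨h1, h2⟩ := (exists_adj_closer hG (k := G.dist v o - 1)
    (Nat.succ_pred_eq_of_pos h').symm).choose_spec
  exact ⟨h1, by omega⟩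

lemma parent_mem (hG : G.IsTree) {D : Finset V} (hD : Conn G D) {o v : V} (ho : o ∈ D)
    (hv : v ∈ D) (h : v ≠ o) : parent hG o v ∈ D := by
  obtain ⟨h1, h2⟩ := parent_spec hG h
  refine hD.next_mem hG ho hv h1 ?_
  rw [G.dist_comm, G.dist_comm (u := o) (v := parent hG o v)]
  omega

/-- Spins from bits: the root keeps its bit, the others flip the parent's spin. -/
noncomputable def spinsAux (hG : G.IsTree) (o : V) (b : V → Bool) : ℕ → V → Bool
  | 0 => fun v => b v
  | k + 1 => fun v => xor (b v) (spinsAux hG o b k (parent hG o v))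

/-- The configuration obtained from the bits. -/
noncomputable def spins (hG : G.IsTree) (o : V) (b : V → Bool) : V → Bool :=
  fun v => spinsAux hG o b (G.dist v o) v

lemma measurable_spins (hG : G.IsTree) (o : V) : Measurable (spins hG o) := by
  have : ∀ k v, Measurable fun b => spinsAux hG o b k v := by
    intro k
    induction k with
    | zero => exact fun v => measurable_pi_apply v
    | succ k ih =>
      intro v
      exact (measurable_of_countable fun p : Bool × Bool => xor p.1 p.2).comp
        ((measurable_pi_apply v).prodMk (ih _))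
  exact measurable_pi_lambda _ fun v => this _ v

lemma spins_root (hG : G.IsTree) (o : V) (b : V → Bool) : spins hG o b o = b o := by
  simp [spins, spinsAux]

lemma spins_of_ne (hG : G.IsTree) {o v : V} (h : v ≠ o) (b : V → Bool) :
    spins hG o b v = xor (b v) (spins hG o b (parent hG o v)) := by
  obtain ⟨-, h2⟩ := parent_spec hG h
  simp only [spins, ← h2, spinsAux]

/-- The bits that produce a given configuration. -/
noncomputable def bitsOf (hG : G.IsTree) (o : V) (η : V → Bool) : V → Bool :=
  fun v => if v = o then η o else xor (η v) (η (parent hG o v))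

lemma spins_agree_iff (hG : G.IsTree) {D : Finset V} (hD : Conn G D) {o : V} (ho : o ∈ D)
    (b η : V → Bool) :
    (∀ v ∈ D, spins hG o b v = η v) ↔ ∀ v ∈ D, b v = bitsOf hG o η v := by
  constructor
  · intro h v hv
    unfold bitsOf
    by_cases hvo : v = o
    · subst hvo; rw [if_pos rfl, ← h v hv, spins_root]
    · rw [if_neg hvo, ← h v hv, ← h _ (parent_mem hG hD ho hv hvo), spins_of_ne hG hvo]
      simp
  · intro h v
    generalize hk : G.dist v o = k
    induction k using Nat.strong_induction_on generalizing v with
    | _ k ih =>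
      intro hv
      by_cases hvo : v = o
      · subst hvo; rw [spins_root, h v hv, bitsOf, if_pos rfl]
      · have := parent_spec hG hvo
        rw [spins_of_ne hG hvo, h v hv, ih _ (by omega) _ rfl (parent_mem hG hD ho hv hvo),
          bitsOf, if_neg hvo]
        simp

lemma prod_bitP (hG : G.IsTree) {D : Finset V} (hD : Conn G D) {o : V} (ho : o ∈ D)
    (η : V → Bool) :
    ∏ v ∈ D, bitP o θ v (bitsOf hG o η v) = w G θ D η := by
  refine Conn.induction_up (conn_singleton o) hD (by simpa using ho)
    (P := fun E => ∏ v ∈ E, bitP o θ v (bitsOf hG o η v) = w G θ E η) ?_ ?_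
  · simp [bitP, w, edgesIn_singleton]
  intro E v p hE hDE _ _ hv hp hvp ih
  have hoE : o ∈ E := hDE (Finset.mem_singleton_self o)
  have hvo : v ≠ o := fun e => hv (e ▸ hoE)
  have hpar : parent hG o v = p := by
    have h1 := parent_mem hG (hE.insert hp hvp) (Finset.mem_insert_of_mem hoE)
      (Finset.mem_insert_self v E) hvo
    rcases Finset.mem_insert.1 h1 with h2 | h2
    · exact absurd h2 (parent_spec hG hvo).1.ne'
    · exact hE.unique_adj hG hv h2 hp (parent_spec hG hvo).1 hvp
  rw [Finset.prod_insert hv, ih, w_insert hG hE hv hp hvp, mul_comm]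
  congr 1
  simp only [bitP, bitsOf, if_neg hvo, hpar, edgeW_mk]
  cases η v <;> cases η p <;> simp [spin] <;> ring

/-- The free Ising measure built from the root `o`. -/
noncomputable def muO (hG : G.IsTree) (o : V) (θ : ℝ) : Measure (V → Bool) :=
  Measure.map (spins hG o) (Measure.infinitePi (bitMeasure o θ))

lemma isProbability_muO (hG : G.IsTree) (hθ : |θ| ≤ 1) (o : V) :
    IsProbabilityMeasure (muO hG o θ) := by
  have := isProbability_bitMeasure hθ o
  exact Measure.isProbabilityMeasure_map (measurable_spins hG o).aemeasurable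

lemma muO_agree_of_mem (hG : G.IsTree) (hθ : |θ| ≤ 1) {D : Finset V} (hD : Conn G D) {o : V}
    (ho : o ∈ D) (η : V → Bool) :
    muO hG o θ (agree D η) = ENNReal.ofReal (w G θ D η) := by
  have := isProbability_bitMeasure hθ o
  rw [muO, Measure.map_apply (measurable_spins hG o) (measurableSet_agree D η)]
  have : spins hG o ⁻¹' agree D η = Set.pi D fun v => {bitsOf hG o η v} := by
    ext b
    simp [agree, spins_agree_iff hG hD ho]
  rw [this, Measure.infinitePi_pi _ fun v _ => measurableSet_singleton _]
  simp_rw [bitMeasure_singleton]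
  rw [← ENNReal.ofReal_prod_of_nonneg fun v _ => bitP_nonneg hθ o v _, prod_bitP hG hD ho]

lemma agree_eq_union {D D' : Finset V} (hs : D ⊆ D') (η : V → Bool) :
    agree D η = ⋃ A ∈ D'.powerset.filter (fun A => ∀ v ∈ D, chi A v = η v), agree D' (chi A) := by
  ext σ
  simp only [agree, Set.mem_ofPred_eq, Set.mem_iUnion, Finset.mem_filter, Finset.mem_powerset,
    exists_prop]
  constructor
  · intro h
    exact ⟨D'.filter (fun v => σ v = true), ⟨Finset.filter_subset _ _, fun v hv => by
      simp [chi, hs hv, h v hv]⟩, fun v hv => by simp [chi, hv]⟩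
  · rintro ⟨A, ⟨-, hA⟩, h⟩ v hv
    rw [h v (hs hv), hA v hv]

lemma pairwiseDisjoint_agree (D : Finset V) :
    ((D.powerset : Finset (Finset V)) : Set (Finset V)).PairwiseDisjoint
      fun A => agree D (chi A) := by
  intro A hA B hB hne
  refine Set.disjoint_left.2 fun σ h1 h2 => hne (Finset.ext fun v => ?_)
  rw [Finset.mem_coe, Finset.mem_powerset] at hA hB
  by_cases hv : v ∈ D
  · have := (h1 v hv).symm.trans (h2 v hv)
    simpa [chi] using this
  · exact ⟨fun h => absurd (hA h) hv, fun h => absurd (hB h) hv⟩

lemma hasMarginals_of_large (hG : G.IsTree) (hθ : |θ| < 1) {ν : Measure (V → Bool)}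
    (o : V) (h : Reg G d)
    (hν : ∀ D, Conn G D → o ∈ D → ∀ η, ν (agree D η) = ENNReal.ofReal (w G θ D η)) :
    HasMarginals G θ ν := by
  intro D hD η
  obtain ⟨R, hR⟩ := h.exists_ball_subset o D
  set D' := h.ball o R
  have hD' : Conn G D' := h.conn_ball o R
  have ho : o ∈ D' := h.mem_ball.2 (by simp)
  rw [agree_eq_union hR η, measure_biUnion_finset
    ((pairwiseDisjoint_agree D').subset (Finset.coe_subset.2 (Finset.filter_subset _ _))) fun A _ => measurableSet_agree _ _]
  simp_rw [hν D' hD' ho]
  rw [← ENNReal.ofReal_sum_of_nonneg fun A _ => (w_pos hθ _ _).le]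
  congr 1
  have := S_w_mono (θ := θ) hG hD hD' hR
    (f := fun σ => if ∀ v ∈ D, σ v = η v then (1 : ℝ) else 0) fun σ σ' he => by
      refine if_congr ⟨fun h v hv => ?_, fun h v hv => ?_⟩ rfl rfl
      · rw [← he v hv, h v hv]
      · rw [he v hv, h v hv]
  simp only [S, mul_ite, mul_one, mul_zero, ← Finset.sum_filter] at this
  rw [this]
  rw [Finset.sum_eq_single (D.filter fun v => η v = true)]
  · exact depOn_w G θ D _ _ fun v hv => by simp [chi, hv]
  · intro A hA hne
    refine absurd (Finset.ext fun v => ?_) hne
    simp only [Finset.mem_filter, Finset.mem_powerset] at hA ⊢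
    by_cases hv : v ∈ D
    · have := hA.2 v hv
      simp only [chi] at this
      simp [hv, ← this]
    · exact ⟨fun h => absurd (hA.1 h) hv, fun h => absurd h.1 hv⟩
  · intro hh
    refine absurd ?_ hh
    simp only [Finset.mem_filter, Finset.mem_powerset]
    exact ⟨Finset.filter_subset _ _, fun v hv => by simp [chi, hv]⟩

lemma exists_hasMarginals (h : Reg G d) (hθ : |θ| < 1) :
    ∃ ν : Measure (V → Bool), IsProbabilityMeasure ν ∧ HasMarginals G θ ν := by
  obtain ⟨o⟩ := h.tree.connected.nonempty
  exact ⟨muO h.tree o θ, isProbability_muO h.tree hθ.le o,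
    hasMarginals_of_large h.tree hθ o h fun D hD ho η =>
      muO_agree_of_mem h.tree hθ.le hD ho η⟩

/-- Integrals of finitely determined functions are finite sums. -/
lemma HasMarginals.integral_eq {ν : Measure (V → Bool)} [IsProbabilityMeasure ν]
    (hν : HasMarginals G θ ν) (hθ : |θ| < 1) {D : Finset V} (hD : Conn G D)
    {f : (V → Bool) → ℝ} (hf : DepOn D f) :
    ∫ σ, f σ ∂ν = S D fun η => w G θ D η * f η := by
  have key : f = fun σ => ∑ A ∈ D.powerset, (agree D (chi A)).indicator (fun _ => f (chi A)) σ := by
    funext σ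
    rw [Finset.sum_eq_single (D.filter fun v => σ v = true)]
    · rw [Set.indicator_of_mem]
      · exact hf _ _ fun v hv => by simp [chi, hv]
      · intro v hv; simp [chi, hv]
    · intro A hA hne
      refine Set.indicator_of_notMem (fun hm => hne (Finset.ext fun v => ?_)) _
      rw [Finset.mem_powerset] at hA
      rw [Finset.mem_filter]
      by_cases hv : v ∈ D
      · simp [hv, hm v hv, chi]
      · exact ⟨fun h => absurd (hA h) hv, fun h => absurd h.1 hv⟩
    · simp
  conv_lhs => rw [key]
  rw [integral_finsetSum _ fun A _ =>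
    (integrable_const _).indicator (measurableSet_agree _ _)]
  refine Finset.sum_congr rfl fun A _ => ?_
  rw [integral_indicator (measurableSet_agree _ _), setIntegral_const, measureReal_def,
    hν D hD, ENNReal.toReal_ofReal (w_pos hθ _ _).le, smul_eq_mul]

lemma HasMarginals.unique (h : Reg G d) {ν ν' : Measure (V → Bool)} [IsProbabilityMeasure ν]
    [IsProbabilityMeasure ν'] (hν : HasMarginals G θ ν) (hν' : HasMarginals G θ ν') : ν = ν' := by
  obtain ⟨o⟩ := h.tree.connected.nonempty
  have hproj : ∀ J : Finset V, ν.map J.restrict = ν'.map J.restrict := by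
    intro J
    obtain ⟨R, hR⟩ := h.exists_ball_subset o J
    set D := h.ball o R
    have hball : ν.map D.restrict = ν'.map D.restrict := by
      refine Measure.ext_of_singleton fun a => ?_
      classical
      let η : V → Bool := fun v => if hv : v ∈ D then a ⟨v, hv⟩ else false
      have hpre : (D.restrict : (V → Bool) → (D → Bool)) ⁻¹' {a} = agree D η := by
        ext σ
        simp only [Set.mem_preimage, Set.mem_singleton_iff, funext_iff, Subtype.forall, agree,
          Set.mem_ofPred_eq, Finset.restrict, η]
        exact forall₂_congr fun v hv => by simp [hv]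
      rw [Measure.map_apply (Finset.measurable_restrict D) (measurableSet_singleton a),
        Measure.map_apply (Finset.measurable_restrict D) (measurableSet_singleton a), hpre,
        hν D (h.conn_ball o R), hν' D (h.conn_ball o R)]
    rw [← Finset.restrict₂_comp_restrict hR,
      ← Measure.map_map (Finset.measurable_restrict₂ hR) (Finset.measurable_restrict D),
      ← Measure.map_map (Finset.measurable_restrict₂ hR) (Finset.measurable_restrict D), hball]
  exact IsProjectiveLimit.unique (P := fun J => ν'.map J.restrict) (fun J => hproj J)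
    (fun J => rfl)

end Vale.Agent.P161
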