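import Vale.Agent.P161.Haar

/-!
The dyadic increments of independent standard normal coefficients are independent normals.
-/

open MeasureTheory ProbabilityTheory Complex

open scoped ENNReal NNReal

namespace Vale.Agent.P161

universe u

set_option linter.unusedSectionVars false

variable {V : Type u} [DecidableEq V]

/-- Independent standard normals indexed by `ι`. -/
noncomputable def gam (ι : Type*) : Measure (ι → ℝ) :=
  Measure.infinitePi fun _ : ι => gaussianReal 0 1

instance (ι : Type*) : IsProbabilityMeasure (gam ι) := by unfold gam; infer_instance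

/-- The mesh as a nonnegative real. -/
noncomputable def meshNN (n : ℕ) : ℝ≥0 := ⟨mesh n, (mesh_pos n).le⟩

lemma coe_meshNN (n : ℕ) : (meshNN n : ℝ) = mesh n := rfl

lemma meshNN_ne_zero (n : ℕ) : meshNN n ≠ 0 := fun h =>
  (mesh_pos n).ne' (by rw [← coe_meshNN, h]; rfl)

/-- Independent centred normal increments with variance `h`: `N` steps, sites in `ι`. -/
noncomputable def incPi (ι : Type*) [Fintype ι] (h : ℝ≥0) (N : ℕ) :
    Measure (Fin N → ι → ℝ) :=
  Measure.pi fun _ : Fin N => Measure.pi fun _ : ι => gaussianReal 0 h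

instance (ι : Type*) [Fintype ι] (h : ℝ≥0) (N : ℕ) : IsProbabilityMeasure (incPi ι h N) := by
  unfold incPi; infer_instance

/-- The increments of the coefficient process at the sites of `D`. -/
noncomputable def incMap (D : Finset V) (n N : ℕ) (Z : V × ℕ × ℕ → ℝ) :
    Fin N → D → ℝ :=
  fun k u => inc n (fun idx => Z (u.1, idx)) k

lemma measurable_incMap (D : Finset V) (n N : ℕ) : Measurable (incMap D n N) := by
  refine measurable_pi_lambda _ fun k => measurable_pi_lambda _ fun u => ?_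
  exact (inc_measurable n k).comp (measurable_pi_lambda _ fun idx => measurable_pi_apply _)

lemma integral_cexp_sum (J : Finset (V × ℕ × ℕ)) (c : V × ℕ × ℕ → ℝ) :
    ∫ Z, cexp (((∑ p ∈ J, c p * Z p : ℝ) : ℂ) * I) ∂gam (V × ℕ × ℕ)
      = cexp (-(((∑ p ∈ J, c p ^ 2 : ℝ) : ℂ)) / 2) := by
  have h1 : ∀ Z : V × ℕ × ℕ → ℝ, cexp (((∑ p ∈ J, c p * Z p : ℝ) : ℂ) * I)
      = ∏ p : J, cexp ((c p : ℂ) * (J.restrict Z p : ℂ) * I) := by
    intro Z
    rw [← Complex.exp_sum]
    congr 1
    push_cast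
    rw [Finset.sum_mul, ← Finset.sum_coe_sort J (fun p => (c p : ℂ) * (Z p : ℂ) * I)]
    rfl
  simp_rw [h1]
  have hm : Measurable fun x : J → ℝ => ∏ p : J, cexp ((c p : ℂ) * (x p : ℂ) * I) := by
    fun_prop
  have e0 := integral_map (μ := gam (V × ℕ × ℕ)) (φ := J.restrict)
    (Finset.measurable_restrict J).aemeasurable hm.aestronglyMeasurable
  rw [gam, Measure.infinitePi_map_restrict] at e0
  rw [gam, ← e0,
    integral_fintype_prod_eq_prod (f := fun (p : J) (x : ℝ) => cexp ((c p : ℂ) * (x : ℂ) * I))]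
  have h2 : ∀ p : J, ∫ x, cexp ((c p : ℂ) * (x : ℂ) * I) ∂gaussianReal 0 1
      = cexp (-((c p : ℂ)) ^ 2 / 2) := by
    intro p
    have := charFun_gaussianReal (μ := 0) (v := 1) (c p)
    rw [charFun_apply_real] at this
    rw [this]
    congr 1
    push_cast
    ring
  simp only [h2]
  rw [← Complex.exp_sum]
  congr 1
  push_cast
  rw [neg_div, Finset.sum_div, ← Finset.sum_neg_distrib,
    ← Finset.sum_coe_sort J (fun p => -((c p : ℂ) ^ 2 / 2))]
  exact Finset.sum_congr rfl fun p _ => by ring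

lemma integral_cexp_inc (D : Finset V) (T n : ℕ) (t : V → ℕ → ℝ) (J : Finset (V × ℕ × ℕ))
    (hJ : ∀ p ∈ J, n < p.2.1) (c : V × ℕ × ℕ → ℝ) :
    ∫ Z, cexp (((∑ u ∈ D, ∑ k ∈ Finset.range (T * 2 ^ n), t u k * inc n (fun idx => Z (u, idx)) k
        + ∑ p ∈ J, c p * Z p : ℝ) : ℂ) * I) ∂gam (V × ℕ × ℕ)
      = cexp (-(((mesh n * ∑ u ∈ D, ∑ k ∈ Finset.range (T * 2 ^ n), t u k ^ 2
          + ∑ p ∈ J, c p ^ 2 : ℝ) : ℂ)) / 2) := by
  induction n generalizing t J c with
  | zero =>
    set J0 : Finset (V × ℕ × ℕ) := (D ×ˢ Finset.range T).image fun q => (q.1, 0, q.2) with hJ0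
    have hdis : Disjoint J0 J := by
      refine Finset.disjoint_left.2 fun p hp hp' => ?_
      simp only [hJ0, Finset.mem_image] at hp
      obtain ⟨q, -, rfl⟩ := hp
      simpa using hJ _ hp'
    set c' : V × ℕ × ℕ → ℝ := fun p => if p.2.1 = 0 then t p.1 p.2.2 else c p with hc'
    have hinj : Set.InjOn (fun q : V × ℕ => (q.1, 0, q.2)) ↑(D ×ˢ Finset.range T) := by
      intro a _ b _ h; simp only [Prod.mk.injEq] at h; exact Prod.ext h.1 h.2.2
    have hJc : ∀ p ∈ J, c' p = c p := fun p hp => by simp [hc', (hJ p hp).ne']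
    have e := integral_cexp_sum (J0 ∪ J) c'
    simp only [Finset.sum_union hdis] at e
    simp only [hJ0, Finset.sum_image hinj, Finset.sum_product, hc', if_true] at e
    rw [show T * 2 ^ 0 = T by simp, show mesh 0 = 1 by simp [mesh], one_mul]
    have hJ2 : ∀ F : ℝ → V × ℕ × ℕ → ℝ, ∑ p ∈ J, F (c p) p
        = ∑ p ∈ J, F (if p.2.1 = 0 then t p.1 p.2.2 else c p) p := fun F =>
      Finset.sum_congr rfl fun p hp => by rw [if_neg (hJ p hp).ne']
    simp only [inc]
    simp only [hJ2 (fun a p => a ^ 2)]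
    have hJ3 : ∀ Z : V × ℕ × ℕ → ℝ, ∑ p ∈ J, c p * Z p
        = ∑ p ∈ J, (if p.2.1 = 0 then t p.1 p.2.2 else c p) * Z p := fun Z =>
      hJ2 (fun a p => a * Z p)
    simp only [hJ3]
    exact e
  | succ n ih =>
    set N := T * 2 ^ n
    set J1 : Finset (V × ℕ × ℕ) := (D ×ˢ Finset.range N).image fun q => (q.1, n + 1, q.2) with hJ1
    have hdis : Disjoint J1 J := by
      refine Finset.disjoint_left.2 fun p hp hp' => ?_
      simp only [hJ1, Finset.mem_image] at hp
      obtain ⟨q, -, rfl⟩ := hp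
      simpa using hJ _ hp'
    set t' : V → ℕ → ℝ := fun u j => (t u (2 * j) + t u (2 * j + 1)) / 2 with ht'
    set c' : V × ℕ × ℕ → ℝ := fun p =>
      if p.2.1 = n + 1 then amp n * (t p.1 (2 * p.2.2) - t p.1 (2 * p.2.2 + 1)) else c p with hc'
    have hinj : Set.InjOn (fun q : V × ℕ => (q.1, n + 1, q.2)) ↑(D ×ˢ Finset.range N) := by
      intro a _ b _ h; simp only [Prod.mk.injEq] at h; exact Prod.ext h.1 h.2.2
    have hJ' : ∀ p ∈ J1 ∪ J, n < p.2.1 := by
      intro p hp
      rcases Finset.mem_union.1 hp with hp | hp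
      · simp only [hJ1, Finset.mem_image] at hp
        obtain ⟨q, -, rfl⟩ := hp
        simp
      · have := hJ p hp; omega
    have e := ih t' (J1 ∪ J) hJ' c'
    simp only [Finset.sum_union hdis] at e
    simp only [hJ1, Finset.sum_image hinj, Finset.sum_product, hc', if_true] at e
    rw [show T * 2 ^ (n + 1) = 2 * N by simp only [N]; ring]
    simp only [sum_range_two_mul, inc_even, inc_odd, mesh_succ]
    have hJ2 : ∀ F : ℝ → V × ℕ × ℕ → ℝ, ∑ p ∈ J, F (c p) p = ∑ p ∈ J, F
        (if p.2.1 = n + 1 then amp n * (t p.1 (2 * p.2.2) - t p.1 (2 * p.2.2 + 1)) else c p) p :=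
      fun F => Finset.sum_congr rfl fun p hp => by rw [if_neg (by have := hJ p hp; omega)]
    have hA : ∀ Z : V × ℕ × ℕ → ℝ,
        ∑ u ∈ D, ∑ j ∈ Finset.range N,
          (t u (2 * j) * (inc n (fun idx => Z (u, idx)) j / 2 + amp n * Z (u, n + 1, j))
            + t u (2 * j + 1) * (inc n (fun idx => Z (u, idx)) j / 2 - amp n * Z (u, n + 1, j)))
        = ∑ u ∈ D, ∑ j ∈ Finset.range N, t' u j * inc n (fun idx => Z (u, idx)) j
          + ∑ u ∈ D, ∑ j ∈ Finset.range N,
              amp n * (t u (2 * j) - t u (2 * j + 1)) * Z (u, n + 1, j) := by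
      intro Z
      rw [← Finset.sum_add_distrib]
      refine Finset.sum_congr rfl fun u _ => ?_
      rw [← Finset.sum_add_distrib]
      refine Finset.sum_congr rfl fun j _ => ?_
      simp only [ht']
      ring
    have hB : mesh n / 2 * ∑ u ∈ D, ∑ j ∈ Finset.range N,
          (t u (2 * j) ^ 2 + t u (2 * j + 1) ^ 2)
        = mesh n * ∑ u ∈ D, ∑ j ∈ Finset.range N, t' u j ^ 2
          + ∑ u ∈ D, ∑ j ∈ Finset.range N, (amp n * (t u (2 * j) - t u (2 * j + 1))) ^ 2 := by
      simp only [Finset.mul_sum, ← Finset.sum_add_distrib, mul_pow, amp_sq, ht']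
      refine Finset.sum_congr rfl fun u _ => Finset.sum_congr rfl fun j _ => ?_
      ring
    have hJ3 : ∀ Z : V × ℕ × ℕ → ℝ, ∑ p ∈ J, c p * Z p = ∑ p ∈ J, (if p.2.1 = n + 1
        then amp n * (t p.1 (2 * p.2.2) - t p.1 (2 * p.2.2 + 1)) else c p) * Z p := fun Z =>
      hJ2 (fun a p => a * Z p)
    rw [hB]
    simp only [hA, hJ3, hJ2 (fun a p => a ^ 2), add_assoc]
    exact e

lemma dual_apply {ι : Type*} [Fintype ι] [DecidableEq ι] {N : ℕ}
    (L : StrongDual ℝ (Fin N → ι → ℝ)) (x : Fin N → ι → ℝ) :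
    L x = ∑ k : Fin N, ∑ u : ι, L (Pi.single k (Pi.single u 1)) * x k u := by
  have hx : x = ∑ k : Fin N, ∑ u : ι,
      x k u • (Pi.single k (Pi.single u 1) : Fin N → ι → ℝ) := by
    funext k' u'
    simp [Finset.sum_apply, Pi.single_apply, Finset.sum_ite_eq, ite_apply]
  conv_lhs => rw [hx]
  simp only [map_sum, map_smul, smul_eq_mul]
  exact Finset.sum_congr rfl fun k _ => Finset.sum_congr rfl fun u _ => mul_comm _ _

lemma map_incMap (D : Finset V) (n N : ℕ) :
    (gam (V × ℕ × ℕ)).map (incMap D n N) = incPi D (meshNN n) N := by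
  have := Measure.isProbabilityMeasure_map (μ := gam (V × ℕ × ℕ))
    (measurable_incMap D n N).aemeasurable
  refine Measure.ext_of_charFunDual (funext fun L => ?_)
  set t : Fin N → D → ℝ := fun k u => L (Pi.single k (Pi.single u 1)) with ht
  rw [charFunDual_apply, charFunDual_apply,
    integral_map (measurable_incMap D n N).aemeasurable (by fun_prop)]
  let t' : V → ℕ → ℝ := fun u k =>
    if h : k < N ∧ u ∈ D then t ⟨k, h.1⟩ ⟨u, h.2⟩ else 0
  have hL : ∀ Z, L (incMap D n N Z) =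
      ∑ u ∈ D, ∑ k ∈ Finset.range (N * 2 ^ n), t' u k * inc n (fun idx => Z (u, idx)) k := by
    intro Z
    rw [dual_apply, Finset.sum_comm, ← Finset.sum_coe_sort D]
    refine Finset.sum_congr rfl fun u _ => ?_
    rw [← Finset.sum_subset (Finset.range_mono (Nat.le_mul_of_pos_right N (Nat.two_pow_pos n)))
      (fun k _ hk => by
        simp only [t']
        rw [dif_neg (fun h => hk (Finset.mem_range.2 h.1)), zero_mul]),
      Finset.sum_range]
    refine Finset.sum_congr rfl fun k _ => ?_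
    simp only [t']
    rw [dif_pos ⟨k.2, u.2⟩]
    rfl
  have e := integral_cexp_inc D N n t' ∅ (by simp) 0
  simp only [Finset.sum_empty, add_zero] at e
  simp only [hL]
  rw [e]
  have h2 : ∀ x : Fin N → D → ℝ, cexp ((L x : ℂ) * I)
      = ∏ k, ∏ u, cexp ((t k u : ℂ) * (x k u : ℂ) * I) := by
    intro x
    simp only [← Complex.exp_sum, dual_apply L x, ht]
    push_cast
    simp only [Finset.sum_mul]
  simp only [h2, incPi]
  rw [integral_fintype_prod_eq_prod
    (f := fun k (x : D → ℝ) => ∏ u, cexp ((t k u : ℂ) * (x u : ℂ) * I))]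
  have h4 : ∀ k, ∫ x : D → ℝ, ∏ u, cexp ((t k u : ℂ) * (x u : ℂ) * I)
        ∂Measure.pi (fun _ : D => gaussianReal 0 (meshNN n))
      = ∏ u, ∫ x, cexp ((t k u : ℂ) * (x : ℂ) * I) ∂gaussianReal 0 (meshNN n) := fun k =>
    integral_fintype_prod_eq_prod (f := fun u (x : ℝ) => cexp ((t k u : ℂ) * (x : ℂ) * I))
  simp only [h4]
  have h3 : ∀ k u, ∫ x, cexp ((t k u : ℂ) * (x : ℂ) * I) ∂gaussianReal 0 (meshNN n)
      = cexp (-((mesh n * t k u ^ 2 : ℝ) : ℂ) / 2) := by
    intro k u
    have := charFun_gaussianReal (μ := 0) (v := meshNN n) (t k u)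
    rw [charFun_apply_real] at this
    rw [this, coe_meshNN]
    congr 1
    push_cast
    ring
  simp only [h3, ← Complex.exp_sum]
  congr 1
  simp only [← Finset.sum_div, Finset.sum_neg_distrib]
  congr 2
  push_cast
  rw [Finset.mul_sum, Finset.sum_comm (γ := Fin N), ← Finset.sum_coe_sort D]
  refine Finset.sum_congr rfl fun u _ => ?_
  rw [← Finset.sum_subset (Finset.range_mono (Nat.le_mul_of_pos_right N (Nat.two_pow_pos n)))
      (fun k _ hk => by
        simp only [t']
        rw [dif_neg (fun h => hk (Finset.mem_range.2 h.1))]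
        simp),
    Finset.mul_sum, Finset.sum_range]
  refine Finset.sum_congr rfl fun k _ => ?_
  simp only [t']
  rw [dif_pos ⟨k.2, u.2⟩]

end Vale.Agent.P161
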