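import Vale.Agent.P161.Model

/-!
The infinite volume innovations: existence, law and equivariance.
-/

open MeasureTheory ProbabilityTheory SimpleGraph Filter
open scoped Topology

namespace Vale.Agent.P161

universe u

variable {V : Type u} [DecidableEq V] {G : SimpleGraph V} [DecidableRel G.Adj] {θ : ℝ} {d : ℕ}
variable {ν : Measure (V → Bool)} [IsProbabilityMeasure ν]

set_option linter.unusedSectionVars false

lemma le_sqrt_of_forall {x a b : ℝ} (ha : 0 ≤ a) (hb : 0 ≤ b)
    (h : ∀ s : ℝ, 0 < s → x ≤ a * s / 2 + b / (2 * s)) : x ≤ Real.sqrt (a * b) := by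
  rcases ha.eq_or_lt with rfl | ha'
  · rw [zero_mul, Real.sqrt_zero]
    refine le_of_forall_pos_le_add fun ε hε => ?_
    have h1 := h (b / (2 * ε) + 1) (by positivity)
    have h2 : b / (2 * (b / (2 * ε) + 1)) ≤ ε := by
      rw [div_le_iff₀ (by positivity)]
      have : ε * (2 * (b / (2 * ε) + 1)) = b + 2 * ε := by field_simp
      linarith
    linarith
  rcases hb.eq_or_lt with rfl | hb'
  · rw [mul_zero, Real.sqrt_zero]
    refine le_of_forall_pos_le_add fun ε hε => ?_
    have h1 := h (2 * ε / a) (by positivity)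
    have h2 : a * (2 * ε / a) / 2 = ε := by field_simp
    rw [h2, zero_div] at h1
    linarith
  have hs : 0 < Real.sqrt b / Real.sqrt a := by positivity
  refine (h _ hs).trans (le_of_eq ?_)
  rw [Real.sqrt_mul ha]
  have h1 := Real.sq_sqrt ha
  have h2 := Real.sq_sqrt hb
  have h3 : 0 < Real.sqrt a := Real.sqrt_pos.2 ha'
  have h4 : 0 < Real.sqrt b := Real.sqrt_pos.2 hb'
  field_simp
  linear_combination (-(Real.sqrt b) ^ 2) * h1 + (-(Real.sqrt a) ^ 2) * h2

lemma sum_range_div (A m : ℕ) (f : ℕ → ℝ) :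
    ∑ k ∈ Finset.range (A * 2 ^ m), f (k / 2 ^ m) = 2 ^ m * ∑ k ∈ Finset.range A, f k := by
  induction m with
  | zero => simp
  | succ m ih =>
    rw [show A * 2 ^ (m + 1) = 2 * (A * 2 ^ m) by ring, sum_range_two_mul, pow_succ' (2 : ℝ),
      mul_assoc, ← ih, Finset.mul_sum]
    refine Finset.sum_congr rfl fun j _ => ?_
    have h1 : 2 * j / 2 ^ (m + 1) = j / 2 ^ m := by
      rw [pow_succ', Nat.mul_div_mul_left _ _ two_pos]
    have h2 : (2 * j + 1) / 2 ^ (m + 1) = j / 2 ^ m := by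
      rw [pow_succ', ← Nat.div_div_eq_div_mul, half_odd]
    rw [h1, h2]
    ring

/-- The accumulated squared magnetisation. -/
noncomputable def energy (G : SimpleGraph V) [DecidableRel G.Adj] (θ : ℝ) (ν : Measure (V → Bool))
    (T : ℕ) (D : Finset V) (n : ℕ) (u : V) : ℝ :=
  mesh n * ∑ k ∈ Finset.range (T * 2 ^ n), ∫ ω, mag G θ D (pos n ω k) u ^ 2 ∂probM ν

lemma mesh_mul_two_pow (n : ℕ) : mesh n * (2 : ℝ) ^ n = 1 := by
  rw [mesh, ← mul_pow]; norm_num

lemma mesh_add (n m : ℕ) : mesh (n + m) * (2 : ℝ) ^ m = mesh n := by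
  rw [mesh, mesh, pow_add, mul_assoc, ← mul_pow]
  norm_num

lemma energy_le (hθ : |θ| < 1) (T : ℕ) (D : Finset V) (n : ℕ) (u : V) :
    energy G θ ν T D n u ≤ T := by
  calc _ ≤ mesh n * ∑ k ∈ Finset.range (T * 2 ^ n), (1 : ℝ) := by
        refine mul_le_mul_of_nonneg_left (Finset.sum_le_sum fun k _ => ?_) (mesh_pos n).le
        refine (integral_mono_of_nonneg (Eventually.of_forall fun _ => sq_nonneg _)
          (integrable_const (1 : ℝ)) (Eventually.of_forall fun ω => ?_)).trans (by simp)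
        exact (sq_le_one_iff_abs_le_one _).2 (abs_mag_le hθ _ _ _)
    _ = _ := by
        simp only [Finset.sum_const, Finset.card_range, nsmul_eq_mul, mul_one]
        push_cast
        linear_combination (T : ℝ) * mesh_mul_two_pow n

lemma integrable_innX (hθ : |θ| < 1) (D : Finset V) (n : ℕ) (p : V × ℕ × ℕ) :
    Integrable (fun ω => innX G θ D n ω p) (probM ν) := by
  have h1 : Integrable (fun ω : Omega V => ω.2 p) (probM ν) := by
    refine Integrable.comp_snd (f := fun Z : V × ℕ × ℕ → ℝ => Z p) ?_ ν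
    have hmp : MeasurePreserving (fun Z : V × ℕ × ℕ → ℝ => Z p) (gam _) (gaussianReal 0 1) :=
      ⟨measurable_pi_apply p, by rw [gam, Measure.infinitePi_map_eval]⟩
    exact hmp.integrable_comp_of_integrable
      ((memLp_id_gaussianReal' 1 (by simp)).integrable le_rfl)
  refine h1.add (integrable_bdd ((measurable_coef n p.2).comp
    (measurable_pi_lambda _ fun k => measurable_drift D n p.1 k))
    (C := coefK p.2 * ∑ _k ∈ Finset.range ((p.2.2 + 1) * 2 ^ n), 2 * mesh n) fun ω => ?_)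
  refine (abs_coef_le (T := p.2.2 + 1) n (lt_of_lt_of_le (Nat.lt_succ_self _)
    (Nat.le_mul_of_pos_right _ (Nat.two_pow_pos _))) _).trans ?_
  refine mul_le_mul_of_nonneg_left (Finset.sum_le_sum fun k _ => ?_) (coefK_nonneg _)
  rw [drift, abs_mul, abs_of_pos (mesh_pos n), mul_comm]
  refine mul_le_mul_of_nonneg_right ((abs_sub _ _).trans ?_) (mesh_pos n).le
  rw [abs_spin]
  split_ifs
  · linarith [abs_mag_le hθ D (pos n ω k) p.1 (G := G)]
  · norm_num

lemma energy_step (hν : HasMarginals G θ ν) (hG : G.IsTree) (hθ : |θ| < 1) {D D' : Finset V}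
    (hD : Conn G D) (hD' : Conn G D') (hs : D ⊆ D') {u : V} (hu : u ∈ D) (T n m : ℕ) :
    mesh (n + m) * ∑ k ∈ Finset.range (T * 2 ^ n * 2 ^ m),
        ∫ ω, (mag G θ D' (pos (n + m) ω k) u - mag G θ D (pos n ω (k / 2 ^ m)) u) ^ 2 ∂probM ν
      = energy G θ ν T D' (n + m) u - energy G θ ν T D n u := by
  have key : ∀ k, ∫ ω, (mag G θ D' (pos (n + m) ω k) u
        - mag G θ D (pos n ω (k / 2 ^ m)) u) ^ 2 ∂probM ν
      = ∫ ω, mag G θ D' (pos (n + m) ω k) u ^ 2 ∂probM ν
        - ∫ ω, mag G θ D (pos n ω (k / 2 ^ m)) u ^ 2 ∂probM ν := by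
    intro k
    have e := martingale hν hG hθ hD hD' hs hu n m (k := k / 2 ^ m) (k' := k)
      (Nat.mul_div_le k (2 ^ m))
    have hA : Integrable (fun ω => mag G θ D' (pos (n + m) ω k) u ^ 2) (probM ν) :=
      integrable_bdd ((measurable_magPos D' _ k u).pow_const 2) (C := 1) fun ω => by
        rw [abs_pow]; exact pow_le_one₀ (abs_nonneg _) (abs_mag_le hθ _ _ _)
    have hB : Integrable (fun ω => mag G θ D (pos n ω (k / 2 ^ m)) u ^ 2) (probM ν) :=
      integrable_bdd ((measurable_magPos D _ _ u).pow_const 2) (C := 1) fun ω => by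
        rw [abs_pow]; exact pow_le_one₀ (abs_nonneg _) (abs_mag_le hθ _ _ _)
    have hC : Integrable (fun ω => mag G θ D (pos n ω (k / 2 ^ m)) u
        * mag G θ D' (pos (n + m) ω k) u) (probM ν) :=
      integrable_bdd ((measurable_magPos D _ _ u).mul (measurable_magPos D' _ k u)) (C := 1)
        fun ω => by
          rw [abs_mul]
          exact mul_le_one₀ (abs_mag_le hθ _ _ _) (abs_nonneg _) (abs_mag_le hθ _ _ _)
    calc _ = ∫ ω, (mag G θ D' (pos (n + m) ω k) u ^ 2 - (2 * (mag G θ D (pos n ω (k / 2 ^ m)) u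
            * mag G θ D' (pos (n + m) ω k) u) - mag G θ D (pos n ω (k / 2 ^ m)) u ^ 2))
            ∂probM ν := by congr 1; funext ω; ring
      _ = _ := by
          rw [integral_sub (f := fun ω => mag G θ D' (pos (n + m) ω k) u ^ 2)
            (g := fun ω => 2 * (mag G θ D (pos n ω (k / 2 ^ m)) u
              * mag G θ D' (pos (n + m) ω k) u) - mag G θ D (pos n ω (k / 2 ^ m)) u ^ 2)
            hA ((hC.const_mul 2).sub hB), integral_sub (hC.const_mul 2) hB, integral_const_mul, e]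
          ring
  simp only [key, Finset.sum_sub_distrib, mul_sub, sum_range_div
    (f := fun k => ∫ ω, mag G θ D (pos n ω k) u ^ 2 ∂probM ν)]
  unfold energy
  rw [show T * 2 ^ (n + m) = T * 2 ^ n * 2 ^ m by rw [pow_add, mul_assoc], ← mul_assoc, mesh_add]

lemma energy_mono (hν : HasMarginals G θ ν) (hG : G.IsTree) (hθ : |θ| < 1) {D D' : Finset V}
    (hD : Conn G D) (hD' : Conn G D') (hs : D ⊆ D') {u : V} (hu : u ∈ D) (T n m : ℕ) :
    energy G θ ν T D n u ≤ energy G θ ν T D' (n + m) u := by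
  have h := energy_step hν hG hθ hD hD' hs hu T n m
  have : 0 ≤ energy G θ ν T D' (n + m) u - energy G θ ν T D n u := by
    rw [← h]
    exact mul_nonneg (mesh_pos _).le
      (Finset.sum_nonneg fun k _ => integral_nonneg fun ω => sq_nonneg _)
  linarith

/-- The innovations are Cauchy, controlled by the energy. -/
lemma innX_diff (hν : HasMarginals G θ ν) (hG : G.IsTree) (hθ : |θ| < 1) {D D' : Finset V}
    (hD : Conn G D) (hD' : Conn G D') (hs : D ⊆ D') {u : V} (hu : u ∈ D) {T n : ℕ} (m : ℕ)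
    {idx : ℕ × ℕ} (hidx : idx ∈ lvl T n) :
    ∫ ω, |innX G θ D n ω (u, idx) - innX G θ D' (n + m) ω (u, idx)| ∂probM ν
      ≤ coefK idx * Real.sqrt (T * (energy G θ ν T D' (n + m) u - energy G θ ν T D n u)) := by
  obtain ⟨hn, hj⟩ := mem_lvl.1 hidx
  set N' := T * 2 ^ n * 2 ^ m with hN'
  set a : ℕ → Omega V → ℝ := fun k ω =>
    mag G θ D' (pos (n + m) ω k) u - mag G θ D (pos n ω (k / 2 ^ m)) u with ha
  have ham : ∀ k, Measurable (a k) := fun k =>
    (measurable_magPos D' _ k u).sub (measurable_magPos D _ _ u)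
  have hab : ∀ k ω, |a k ω| ≤ 2 := fun k ω => by
    refine (abs_sub _ _).trans ?_
    linarith [abs_mag_le hθ D' (pos (n + m) ω k) u (G := G),
      abs_mag_le hθ D (pos n ω (k / 2 ^ m)) u (G := G)]
  have hpt : ∀ ω, |innX G θ D n ω (u, idx) - innX G θ D' (n + m) ω (u, idx)|
      ≤ coefK idx * (mesh (n + m) * ∑ k ∈ Finset.range N', |a k ω|) := by
    intro ω
    simp only [innX]
    rw [add_sub_add_left_eq_sub, ← coef_stretch hn m, ← coef_sub]
    refine (abs_coef_le (n + m) hj _).trans (le_of_eq ?_)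
    congr 1
    rw [show T * 2 ^ (n + m) = N' by rw [hN', pow_add, mul_assoc], Finset.mul_sum]
    refine Finset.sum_congr rfl fun k _ => ?_
    rw [Pi.sub_apply, stretch, drift, drift, if_pos hu, if_pos (hs hu), ← mesh_add n m]
    have h2 : (2 : ℝ) ^ m ≠ 0 := by positivity
    rw [show mesh (n + m) * 2 ^ m * (spin (ω.1 u) - mag G θ D (pos n ω (k / 2 ^ m)) u) / 2 ^ m
      - mesh (n + m) * (spin (ω.1 u) - mag G θ D' (pos (n + m) ω k) u)
      = mesh (n + m) * a k ω by simp only [ha]; field_simp; ring, abs_mul, abs_of_pos (mesh_pos _)]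
  have hai : ∀ k, Integrable (fun ω => |a k ω|) (probM ν) := fun k =>
    (integrable_bdd (ham k) (hab k)).abs
  refine (integral_mono_of_nonneg (Eventually.of_forall fun _ => abs_nonneg _)
    (((integrable_finsetSum _ fun k _ => hai k).const_mul _).const_mul _)
    (Eventually.of_forall hpt)).trans ?_
  rw [integral_const_mul, integral_const_mul, integral_finsetSum _ fun k _ => hai k]
  refine mul_le_mul_of_nonneg_left ?_ (coefK_nonneg _)
  have hΔ := energy_step hν hG hθ hD hD' hs hu T n m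
  refine le_sqrt_of_forall (Nat.cast_nonneg T)
    (sub_nonneg.2 (energy_mono hν hG hθ hD hD' hs hu T n m)) fun s hs0 => ?_
  have hT : (T : ℝ) = mesh (n + m) * ∑ _k ∈ Finset.range N', (1 : ℝ) := by
    rw [Finset.sum_const, Finset.card_range, nsmul_eq_mul, mul_one, hN']
    push_cast
    linear_combination (-(T : ℝ) * (2 : ℝ) ^ n) * mesh_add n m - (T : ℝ) * mesh_mul_two_pow n
  rw [← hΔ, hT, ← hN']
  simp only [Finset.mul_sum, Finset.sum_mul, Finset.sum_div, mul_one, ← Finset.sum_add_distrib]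
  refine Finset.sum_le_sum fun k _ => ?_
  have hsq : Integrable (fun ω => a k ω ^ 2) (probM ν) :=
    integrable_bdd ((ham k).pow_const 2) (C := 4) fun ω => by
      rw [abs_pow]; exact (pow_le_pow_left₀ (abs_nonneg _) (hab k ω) 2).trans (by norm_num)
  have h1 : ∫ ω, |a k ω| ∂probM ν ≤ ∫ ω, (s / 2 + a k ω ^ 2 / (2 * s)) ∂probM ν := by
    refine integral_mono (hai k) ((integrable_const _).add (hsq.div_const _)) fun ω => ?_
    have h2 : s / 2 + a k ω ^ 2 / (2 * s) - |a k ω| = (|a k ω| - s) ^ 2 / (2 * s) := by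
      rw [← sq_abs (a k ω)]; field_simp; ring
    have h3 : 0 ≤ (|a k ω| - s) ^ 2 / (2 * s) := by positivity
    linarith
  rw [integral_add (integrable_const _) (hsq.div_const _), integral_const, probReal_univ, one_smul,
    integral_div] at h1
  refine (mul_le_mul_of_nonneg_left h1 (mesh_pos _).le).trans (le_of_eq ?_)
  simp only [ha]
  ring

/-- `Y` is the infinite volume limit of the coordinate `p` of the innovations. -/
def IsInnLimit (G : SimpleGraph V) [DecidableRel G.Adj] (θ : ℝ) (ν : Measure (V → Bool))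
    (p : V × ℕ × ℕ) (Y : Omega V → ℝ) : Prop :=
  Integrable Y (probM ν) ∧ ∀ ε > 0, ∃ F : Finset V, ∃ N : ℕ, ∀ D n, Conn G D → F ⊆ D → N ≤ n →
    ∫ ω, |innX G θ D n ω p - Y ω| ∂probM ν ≤ ε

lemma exists_limit (h : Reg G d) (hν : HasMarginals G θ ν) (hθ : |θ| < 1) (p : V × ℕ × ℕ) :
    ∃ Y : Omega V → ℝ, Measurable Y ∧ IsInnLimit G θ ν p Y := by
  obtain ⟨u, idx⟩ := p
  set T := idx.2 + 1 with hT
  have hjT : idx.2 < T * 2 ^ (idx.1 - 1) :=
    lt_of_lt_of_le (Nat.lt_succ_self _) (Nat.le_mul_of_pos_right _ (Nat.two_pow_pos _))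
  set B : ℕ → Finset V := fun R => h.ball u R
  have hB : ∀ R, Conn G (B R) := fun R => h.conn_ball u R
  have huB : ∀ R, u ∈ B R := fun R => h.mem_ball.2 (by simp)
  set e : ℕ → ℝ := fun i => energy G θ ν T (B i) (idx.1 + i) u with he
  have hBs : ∀ i j, i ≤ j → B i ⊆ B j := fun i j hij w hw =>
    h.mem_ball.2 ((h.mem_ball.1 hw).trans hij)
  have hemono : Monotone e := monotone_nat_of_le_succ fun i =>
    energy_mono hν h.tree hθ (hB i) (hB (i + 1)) (hBs _ _ (Nat.le_succ i)) (huB i) T (idx.1 + i) 1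
  have hbdd : BddAbove (Set.range e) := ⟨T, by rintro x ⟨i, rfl⟩; exact energy_le hθ T _ _ u⟩
  set q := ⨆ i, e i
  have hle : ∀ i, e i ≤ q := fun i => le_ciSup hbdd i
  have hlim : Tendsto e atTop (𝓝 q) := tendsto_atTop_ciSup hemono hbdd
  set b : ℕ → ℝ := fun i => coefK idx * Real.sqrt (T * (q - e i)) with hb
  have hb0 : Tendsto b atTop (𝓝 0) := by
    have := (((hlim.const_sub q).const_mul (T : ℝ)).sqrt).const_mul (coefK idx)
    simpa [hb] using this
  -- comparison of a later volume with the sequence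
  have hcmp : ∀ D n i, Conn G D → B i ⊆ D → idx.1 + i ≤ n → ∀ j, D ⊆ B j → n ≤ idx.1 + j →
      ∫ ω, |innX G θ D n ω (u, idx) - innX G θ (B j) (idx.1 + j) ω (u, idx)| ∂probM ν ≤ b i := by
    intro D n i hD hiD hin j hDj hnj
    obtain ⟨m, hm⟩ := Nat.exists_eq_add_of_le hnj
    obtain ⟨m', hm'⟩ := Nat.exists_eq_add_of_le hin
    rw [hm]
    refine (innX_diff hν h.tree hθ hD (hB j) hDj (hiD (huB i)) m (T := T)
      (mem_lvl.2 ⟨by omega, hjT⟩)).trans ?_
    simp only [hb]
    refine mul_le_mul_of_nonneg_left (Real.sqrt_le_sqrt ?_) (coefK_nonneg _)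
    refine mul_le_mul_of_nonneg_left ?_ (Nat.cast_nonneg _)
    have h1 := energy_mono hν h.tree hθ (hB i) hD hiD (huB i) T (idx.1 + i) m'
    rw [← hm'] at h1
    have h2 := hle j
    simp only [he] at h1 h2 ⊢
    rw [hm] at h2
    linarith
  have hX : ∀ i, Integrable (fun ω => innX G θ (B i) (idx.1 + i) ω (u, idx)) (probM ν) := fun i =>
    integrable_innX hθ _ _ _
  have hcauchy : CauchySeq fun i => (hX i).toL1 _ := by
    refine cauchySeq_of_le_tendsto_0 (fun i => 2 * b i) (fun i j N hi hj => ?_)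
      (by simpa using hb0.const_mul 2)
    have hh : ∀ i, N ≤ i → dist ((hX i).toL1 _) ((hX N).toL1 _) ≤ b N := by
      intro i hi
      rw [_root_.dist_comm, L1.dist_eq_integral_dist]
      refine le_trans (le_of_eq ?_)
        (hcmp (B N) (idx.1 + N) N (hB N) subset_rfl le_rfl i (hBs _ _ hi) (by omega))
      refine integral_congr_ae ?_
      filter_upwards [(hX i).coeFn_toL1, (hX N).coeFn_toL1] with ω e1 e2
      rw [e1, e2, Real.dist_eq]
    have h3 := _root_.dist_triangle_right ((hX i).toL1 _) ((hX j).toL1 _) ((hX N).toL1 _)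
    linarith [hh i hi, hh j hj]
  obtain ⟨L, hL⟩ := cauchySeq_tendsto_of_complete hcauchy
  refine ⟨L, (Lp.stronglyMeasurable L).measurable, L1.integrable_coeFn L, fun ε hε => ?_⟩
  have hdist : Tendsto (fun i => dist ((hX i).toL1 _) L) atTop (𝓝 0) :=
    tendsto_iff_dist_tendsto_zero.1 hL
  obtain ⟨i, hi⟩ := (hb0.eventually (eventually_le_nhds (half_pos hε))).exists
  refine ⟨B i, idx.1 + i, fun D n hD hiD hin => ?_⟩
  obtain ⟨R, hR⟩ := h.exists_ball_subset u D
  obtain ⟨j, hj1, hj2⟩ := ((hdist.eventually (eventually_le_nhds (half_pos hε))).and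
    (eventually_ge_atTop (R + n))).exists
  have hDj : D ⊆ B j := fun w hw => h.mem_ball.2 ((h.mem_ball.1 (hR hw)).trans (by omega))
  have e1 := hcmp D n i hD hiD hin j hDj (by omega)
  rw [L1.dist_eq_integral_dist] at hj1
  have e2 : ∫ ω, |innX G θ (B j) (idx.1 + j) ω (u, idx) - L ω| ∂probM ν ≤ ε / 2 := by
    refine le_trans (le_of_eq ?_) hj1
    refine integral_congr_ae ?_
    filter_upwards [(hX j).coeFn_toL1] with ω e
    rw [e, Real.dist_eq]
  have hi1 := integrable_innX (ν := ν) hθ D n (u, idx) (G := G)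
  calc ∫ ω, |innX G θ D n ω (u, idx) - L ω| ∂probM ν
      ≤ ∫ ω, (|innX G θ D n ω (u, idx) - innX G θ (B j) (idx.1 + j) ω (u, idx)|
          + |innX G θ (B j) (idx.1 + j) ω (u, idx) - L ω|) ∂probM ν :=
        integral_mono ((hi1.sub (L1.integrable_coeFn L)).abs)
          ((hi1.sub (hX j)).abs.add ((hX j).sub (L1.integrable_coeFn L)).abs)
          fun ω => abs_sub_le _ _ _
    _ ≤ ε := by
        rw [integral_add (f := fun ω =>
            |innX G θ D n ω (u, idx) - innX G θ (B j) (idx.1 + j) ω (u, idx)|)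
          (g := fun ω => |innX G θ (B j) (idx.1 + j) ω (u, idx) - L ω|)
          (hi1.sub (hX j)).abs ((hX j).sub (L1.integrable_coeFn L)).abs]
        linarith

end Vale.Agent.P161
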