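import Mathlib

/-!
Tree combinatorics used for the factor-of-IID result on the free Ising state.
-/

open SimpleGraph

namespace Vale.Agent.P161

universe u

variable {V : Type u} {G : SimpleGraph V}

/-- A tree in which every vertex has exactly `d` neighbours, with `d ≥ 2`. -/
structure Reg (G : SimpleGraph V) (d : ℕ) : Prop where
  tree : G.IsTree
  deg : ∀ v, (G.neighborSet v).ncard = d
  two_le : 2 ≤ d

lemma walk_mem_edge (hG : G.IsTree) {v v' : V} (h : G.Adj v v') (p : G.Walk v v') :
    s(v, v') ∈ p.edges :=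
  isBridge_iff_forall_walk_mem_edges.1
    (isAcyclic_iff_forall_isBridge.1 hG.isAcyclic (G.mem_edgeSet.2 h)) p

lemma exists_side_walk (hG : G.IsTree) {v v' x : V}
    (hx : G.dist x v' = G.dist x v + 1) :
    ∃ p : G.Walk x v, p.length = G.dist x v ∧ v' ∉ p.support := by
  classical
  obtain ⟨p, hp⟩ := hG.connected.exists_walk_length_eq_dist x v
  refine ⟨p, hp, fun hv' => ?_⟩
  have h1 := G.dist_le (p.takeUntil v' hv')
  have h2 := p.length_takeUntil_le_length hv'
  omega

lemma not_mem_edges_of_not_mem_support {a b v v' : V} {p : G.Walk a b} (h : v' ∉ p.support) :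
    s(v, v') ∉ p.edges := fun he => h (p.snd_mem_support_of_mem_edges he)

lemma cross_edge (hG : G.IsTree) {v v' x y : V} (h : G.Adj v v')
    (hx : G.dist x v' = G.dist x v + 1) (hy : G.dist y v = G.dist y v' + 1) (hxy : G.Adj x y) :
    x = v ∧ y = v' := by
  obtain ⟨p, -, hp⟩ := exists_side_walk hG hx
  obtain ⟨q, -, hq⟩ := exists_side_walk hG hy
  have he := walk_mem_edge hG h (p.reverse.append (Walk.cons hxy q))
  have h1 : s(v, v') ∉ p.reverse.edges :=
    not_mem_edges_of_not_mem_support (by simpa using hp)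
  have h2 : s(v, v') ∉ q.edges := by
    rw [Sym2.eq_swap]
    exact not_mem_edges_of_not_mem_support hq
  simp only [Walk.edges_append, Walk.edges_cons, List.mem_append, List.mem_cons] at he
  rcases he with he | he | he
  · exact absurd he h1
  · rcases Sym2.eq_iff.1 he with ⟨rfl, rfl⟩ | ⟨rfl, rfl⟩
    · exact ⟨rfl, rfl⟩
    · simp at hx
  · exact absurd he h2

lemma dist_through (hG : G.IsTree) {v v' a b : V} (h : G.Adj v v')
    (ha : G.dist a v' = G.dist a v + 1) (hb : G.dist b v = G.dist b v' + 1) :
    G.dist a b = G.dist a v + G.dist v b := by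
  classical
  obtain ⟨p, hp, hp'⟩ := exists_side_walk hG ha
  obtain ⟨q, hq, hq'⟩ := exists_side_walk hG hb
  obtain ⟨r, hr⟩ := hG.connected.exists_walk_length_eq_dist a b
  have he := walk_mem_edge hG h (p.reverse.append (r.append q))
  simp only [Walk.edges_append, List.mem_append] at he
  have h1 : s(v, v') ∉ p.reverse.edges :=
    not_mem_edges_of_not_mem_support (by simpa using hp')
  have h2 : s(v, v') ∉ q.edges := by
    rw [Sym2.eq_swap]
    exact not_mem_edges_of_not_mem_support hq'
  rcases he with he | he | he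
  · exact absurd he h1
  · have hv : v ∈ r.support := r.fst_mem_support_of_mem_edges he
    refine le_antisymm hG.connected.dist_triangle ?_
    have e := congrArg Walk.length (r.take_spec hv)
    rw [Walk.length_append] at e
    have e1 := G.dist_le (r.takeUntil v hv)
    have e2 := G.dist_le (r.dropUntil v hv)
    omega
  · exact absurd he h2

lemma dist_succ_or (hG : G.IsTree) (x : V) {v v' : V} (h : G.Adj v v') :
    G.dist x v = G.dist x v' + 1 ∨ G.dist x v' = G.dist x v + 1 :=
  hG.dist_eq_dist_add_one_of_adj x h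

lemma exists_adj_closer (hG : G.IsTree) {v u : V} {k : ℕ} (h : G.dist v u = k + 1) :
    ∃ v', G.Adj v v' ∧ G.dist v' u = k := by
  obtain ⟨p, hp⟩ := hG.connected.exists_walk_length_eq_dist v u
  match p with
  | .nil => simp at h
  | .cons hadj q =>
    rename_i w
    refine ⟨w, hadj, ?_⟩
    have h1 := G.dist_le q
    simp only [Walk.length_cons] at hp
    rcases dist_succ_or hG u hadj with h2 | h2 <;>
      (rw [G.dist_comm, G.dist_comm (u := u)] at h2; omega)

/-- A nonempty finite vertex set spanning a connected subgraph. -/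
def Conn (G : SimpleGraph V) (D : Finset V) : Prop :=
  D.Nonempty ∧ ∀ u ∈ D, ∀ v ∈ D, ∃ p : G.Walk u v, ∀ x ∈ p.support, x ∈ D

lemma conn_of_induce {D : Finset V} (h : (G.induce (D : Set V)).Connected) : Conn G D := by
  obtain ⟨⟨x, hx⟩⟩ := h.nonempty
  refine ⟨⟨x, hx⟩, fun u hu v hv => ?_⟩
  obtain ⟨p⟩ := h.preconnected ⟨u, hu⟩ ⟨v, hv⟩
  refine ⟨p.map (Embedding.induce (G := G) (D : Set V)).toHom, fun y hy => ?_⟩
  have hy' : y ∈ p.support.map (Embedding.induce (G := G) (D : Set V)).toHom := by
    rw [← Walk.support_map]; exact hy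
  obtain ⟨z, -, rfl⟩ := List.mem_map.1 hy'
  exact z.2

lemma conn_singleton (v : V) : Conn G {v} := by
  refine ⟨⟨v, by simp⟩, fun a ha b hb => ?_⟩
  rw [Finset.mem_singleton] at ha hb
  subst ha hb
  exact ⟨.nil, by simp⟩

/-- The next vertex towards another vertex of a connected set stays in the set. -/
lemma Conn.next_mem (hG : G.IsTree) {D : Finset V} (hD : Conn G D) {u v v' : V}
    (hu : u ∈ D) (hv : v ∈ D) (h : G.Adj v v') (hd : G.dist u v = G.dist u v' + 1) :
    v' ∈ D := by
  obtain ⟨q, -, hq⟩ := exists_side_walk hG hd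
  obtain ⟨p, hp⟩ := hD.2 v hv u hu
  have he := walk_mem_edge hG h (p.append q)
  have h2 : s(v, v') ∉ q.edges := by
    rw [Sym2.eq_swap]
    exact not_mem_edges_of_not_mem_support hq
  simp only [Walk.edges_append, List.mem_append, h2, or_false] at he
  exact hp _ (p.snd_mem_support_of_mem_edges he)

/-- A vertex outside a connected set has at most one neighbour inside. -/
lemma Conn.unique_adj (hG : G.IsTree) {D : Finset V} (hD : Conn G D) {v p q : V}
    (hv : v ∉ D) (hp : p ∈ D) (hq : q ∈ D) (hvp : G.Adj v p) (hvq : G.Adj v q) : p = q := by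
  by_contra hne
  obtain ⟨r, hr⟩ := hD.2 q hq p hp
  have he := walk_mem_edge hG hvp (Walk.cons hvq r)
  simp only [Walk.edges_cons, List.mem_cons] at he
  rcases he with he | he
  · rcases Sym2.eq_iff.1 he with ⟨-, e⟩ | ⟨e, -⟩
    · exact hne e
    · exact hv (e ▸ hq)
  · exact hv (hr _ (r.fst_mem_support_of_mem_edges he))

lemma Conn.insert [DecidableEq V] {D : Finset V} (hD : Conn G D) {v p : V} (hp : p ∈ D)
    (hvp : G.Adj v p) : Conn G (insert v D) := by
  refine ⟨Finset.insert_nonempty v D, fun a ha b hb => ?_⟩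
  have key : ∀ a ∈ Insert.insert v D, ∃ r : G.Walk a p,
      ∀ x ∈ r.support, x ∈ Insert.insert v D := by
    intro a ha
    rcases Finset.mem_insert.1 ha with rfl | ha
    · exact ⟨Walk.cons hvp .nil, by simp [hp]⟩
    · obtain ⟨r, hr⟩ := hD.2 a ha p hp
      exact ⟨r, fun x hx => Finset.mem_insert_of_mem (hr x hx)⟩
  obtain ⟨r, hr⟩ := key a ha
  obtain ⟨s, hs⟩ := key b hb
  refine ⟨r.append s.reverse, fun x hx => ?_⟩
  rw [Walk.mem_support_append_iff, Walk.support_reverse, List.mem_reverse] at hx
  exact hx.elim (hr x) (hs x)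

lemma Conn.exists_adj_of_ssubset {D D' : Finset V} (hD : D.Nonempty) (hD' : Conn G D')
    (hs : D ⊂ D') : ∃ v ∈ D', v ∉ D ∧ ∃ p ∈ D, G.Adj v p := by
  obtain ⟨a, ha⟩ := hD
  obtain ⟨b, hb, hb'⟩ := Finset.exists_of_ssubset hs
  obtain ⟨r, hr⟩ := hD'.2 b hb a (hs.subset ha)
  obtain ⟨e, he, h1, h2⟩ := r.exists_boundary_dart {x | x ∉ D} hb' (by simpa using ha)
  refine ⟨e.fst, hr _ (r.dart_fst_mem_support_of_mem_darts he), h1, e.snd, ?_, e.adj⟩
  simpa using h2

namespace Reg

variable {d : ℕ}

lemma finite_nbhd (h : Reg G d) (v : V) : (G.neighborSet v).Finite :=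
  Set.finite_of_ncard_ne_zero (by have := h.deg v; have := h.two_le; omega)

lemma sphere_succ_subset (h : Reg G d) (v : V) (k : ℕ) :
    {u | G.dist v u = k + 1} ⊆
      ⋃ x ∈ {u | G.dist v u = k}, {u ∈ G.neighborSet x | G.dist v u = k + 1} := by
  intro u hu
  simp only [Set.mem_ofPred_eq] at hu
  obtain ⟨x, hx, hx'⟩ := exists_adj_closer h.tree (v := u) (u := v) (by rwa [G.dist_comm])
  simp only [Set.mem_iUnion]
  exact ⟨x, by rwa [Set.mem_ofPred_eq, G.dist_comm], hx.symm, hu⟩

lemma finite_sphere (h : Reg G d) (v : V) (k : ℕ) : {u | G.dist v u = k}.Finite := by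
  induction k with
  | zero =>
    refine Set.Finite.subset (Set.finite_singleton v) fun u hu => ?_
    exact ((h.tree.connected v u).dist_eq_zero_iff.1 hu).symm
  | succ k ih =>
    exact (ih.biUnion fun x _ => (h.finite_nbhd x).subset fun u hu => hu.1).subset
      (h.sphere_succ_subset v k)

lemma card_children_le (h : Reg G d) (v x : V) (k : ℕ) (hk : 1 ≤ k) (hx : G.dist v x = k) :
    {u ∈ G.neighborSet x | G.dist v u = k + 1}.ncard ≤ d - 1 := by
  obtain ⟨p, hp, hp'⟩ := exists_adj_closer h.tree (v := x) (u := v) (k := k - 1)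
    (by rw [G.dist_comm]; omega)
  have : {u ∈ G.neighborSet x | G.dist v u = k + 1} ⊂ G.neighborSet x := by
    refine ⟨fun u hu => hu.1, fun hh => ?_⟩
    have := (hh hp).2
    rw [G.dist_comm] at this
    omega
  have := Set.ncard_lt_ncard this (h.finite_nbhd x)
  rw [h.deg x] at this
  omega

lemma card_sphere_le (h : Reg G d) (v : V) (k : ℕ) :
    ({u | G.dist v u = k}.ncard : ℝ) ≤ 2 * ((d : ℝ) - 1) ^ k := by
  have hd : (2 : ℝ) ≤ d := by exact_mod_cast h.two_le
  induction k with
  | zero =>
    have : {u | G.dist v u = 0} ⊆ {v} := fun u hu =>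
      ((h.tree.connected v u).dist_eq_zero_iff.1 hu).symm
    have := Set.ncard_le_ncard this (Set.finite_singleton v)
    simp only [Set.ncard_singleton] at this
    have : (({u | G.dist v u = 0}.ncard : ℕ) : ℝ) ≤ 1 := by exact_mod_cast this
    simp only [pow_zero]
    linarith
  | succ k ih =>
    rcases Nat.eq_zero_or_pos k with rfl | hk
    · have : {u | G.dist v u = 0 + 1} = G.neighborSet v := by
        ext u; simp [dist_eq_one_iff_adj]
      rw [this, h.deg]
      simp only [pow_succ, pow_zero, one_mul]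
      linarith
    · classical
      set S := (h.finite_sphere v k).toFinset with hS
      have h1 : {u | G.dist v u = k + 1}.ncard ≤ S.card * (d - 1) := by
        have hsub := h.sphere_succ_subset v k
        have h2 : {u | G.dist v u = k + 1}.ncard ≤
            (⋃ x ∈ S, {u ∈ G.neighborSet x | G.dist v u = k + 1}).ncard := by
          refine Set.ncard_le_ncard ?_ (S.finite_toSet.biUnion fun x _ =>
            (h.finite_nbhd x).subset fun u hu => hu.1)
          intro u hu
          have := hsub hu
          simpa [hS] using this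
        refine h2.trans ((Finset.set_ncard_biUnion_le _ _).trans ?_)
        refine (Finset.sum_le_card_nsmul _ _ (d - 1) fun x hx => ?_).trans_eq (by simp)
        exact h.card_children_le v x k hk (by simpa [hS] using hx)
      have h3 : ({u | G.dist v u = k + 1}.ncard : ℝ) ≤ S.card * ((d : ℝ) - 1) := by
        have := (Nat.cast_le (α := ℝ)).2 h1
        rw [Nat.cast_mul, Nat.cast_sub (by have := h.two_le; omega), Nat.cast_one] at this
        exact this
      have h4 : (S.card : ℝ) = {u | G.dist v u = k}.ncard := by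
        rw [Set.ncard_eq_toFinset_card _ (h.finite_sphere v k)]
      rw [h4] at h3
      calc _ ≤ _ := h3
        _ ≤ 2 * ((d : ℝ) - 1) ^ k * ((d : ℝ) - 1) := by
          gcongr; linarith
        _ = _ := by ring

lemma sum_pow_dist_le (h : Reg G d) {z : ℝ} (hz : 0 ≤ z) (hz' : ((d : ℝ) - 1) * z < 1)
    (v : V) (F : Finset V) :
    ∑ u ∈ F, z ^ G.dist v u ≤ 2 / (1 - ((d : ℝ) - 1) * z) := by
  classical
  have hd : (2 : ℝ) ≤ d := by exact_mod_cast h.two_le
  rw [← Finset.sum_fiberwise_of_maps_to
    (t := F.image (G.dist v)) (g := G.dist v) (fun u hu => Finset.mem_image_of_mem _ hu)]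
  have hb : ∀ k, ∑ u ∈ F.filter (fun u => G.dist v u = k), z ^ G.dist v u
      ≤ 2 * (((d : ℝ) - 1) * z) ^ k := by
    intro k
    rw [Finset.sum_congr rfl (fun u hu => by rw [(Finset.mem_filter.1 hu).2]),
      Finset.sum_const, nsmul_eq_mul, mul_pow, ← mul_assoc]
    gcongr
    refine le_trans ?_ (h.card_sphere_le v k)
    rw [Set.ncard_eq_toFinset_card _ (h.finite_sphere v k)]
    exact_mod_cast Finset.card_le_card (fun u hu => by simp [(Finset.mem_filter.1 hu).2])
  refine (Finset.sum_le_sum fun k _ => hb k).trans ?_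
  rw [← Finset.mul_sum, div_eq_mul_inv]
  gcongr
  have h0 : 0 ≤ ((d : ℝ) - 1) * z := mul_nonneg (by linarith) hz
  rw [← tsum_geometric_of_lt_one h0 hz']
  exact (summable_geometric_of_lt_one h0 hz').sum_le_tsum _ fun k _ => pow_nonneg h0 k

lemma summable_pow_dist (h : Reg G d) {z : ℝ} (hz : 0 ≤ z) (hz' : ((d : ℝ) - 1) * z < 1)
    (v : V) : Summable fun u => z ^ G.dist v u :=
  summable_of_sum_le (fun _ => pow_nonneg hz _) fun F => h.sum_pow_dist_le hz hz' v F

lemma countable (h : Reg G d) : Countable V := by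
  obtain ⟨o⟩ := h.tree.connected.nonempty
  have : (Set.univ : Set V) = ⋃ k, {u | G.dist o u = k} := by ext u; simp
  rw [← Set.countable_univ_iff, this]
  exact Set.countable_iUnion fun k => (h.finite_sphere o k).countable

/-- The closed ball, as a finite set. -/
noncomputable def ball (h : Reg G d) (o : V) (R : ℕ) : Finset V := by
  classical exact (Finset.range (R + 1)).biUnion fun k => (h.finite_sphere o k).toFinset

lemma mem_ball (h : Reg G d) {o u : V} {R : ℕ} : u ∈ h.ball o R ↔ G.dist o u ≤ R := by
  classical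
  simp [ball]

lemma conn_ball (h : Reg G d) (o : V) (R : ℕ) : Conn G (h.ball o R) := by
  classical
  refine ⟨⟨o, by simp [h.mem_ball]⟩, fun a ha b hb => ?_⟩
  obtain ⟨p, hp⟩ := h.tree.connected.exists_walk_length_eq_dist o a
  obtain ⟨q, hq⟩ := h.tree.connected.exists_walk_length_eq_dist o b
  refine ⟨p.reverse.append q, fun x hx => ?_⟩
  rw [h.mem_ball] at ha hb ⊢
  rw [Walk.mem_support_append_iff, Walk.support_reverse, List.mem_reverse] at hx
  rcases hx with hx | hx
  · have := G.dist_le (p.takeUntil x hx)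
    have := p.length_takeUntil_le_length hx
    omega
  · have := G.dist_le (q.takeUntil x hx)
    have := q.length_takeUntil_le_length hx
    omega

lemma exists_ball_subset (h : Reg G d) (o : V) (F : Finset V) : ∃ R, F ⊆ h.ball o R :=
  ⟨F.sup (G.dist o), fun _ hu => h.mem_ball.2 (Finset.le_sup hu)⟩

end Reg

/-- The one inequality on which everything rests: for `θ < r` and `(d-1) θ r < 1`,
convolving `r ^ dist` with `θ ^ dist` multiplies it by at most a constant. -/
lemma Reg.schur {d : ℕ} (h : Reg G d) {θ r : ℝ} (hθ : 0 ≤ θ) (hr : θ < r)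
    (hz : ((d : ℝ) - 1) * (θ * r) < 1) (F : Finset V) (v w : V) :
    ∑ u ∈ F, θ ^ G.dist v u * r ^ G.dist u w
      ≤ 2 / (1 - ((d : ℝ) - 1) * (θ * r)) / (1 - θ / r) * r ^ G.dist v w := by
  classical
  have hr0 : 0 < r := lt_of_le_of_lt hθ hr
  set C := 2 / (1 - ((d : ℝ) - 1) * (θ * r)) with hC
  have hC0 : 0 ≤ C := div_nonneg (by norm_num) (by linarith)
  set lam := C / (1 - θ / r) with hlam
  have hq : θ / r < 1 := (div_lt_one hr0).2 hr
  have hlam0 : 0 ≤ lam := div_nonneg hC0 (by linarith)
  have hClam : C ≤ lam := le_div_self hC0 (by linarith) (by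
    have : 0 ≤ θ / r := div_nonneg hθ hr0.le
    linarith)
  generalize hk : G.dist v w = k
  induction k generalizing v F with
  | zero =>
    obtain rfl := (h.tree.connected v w).dist_eq_zero_iff.1 hk
    have := h.sum_pow_dist_le (z := θ * r) (by positivity) hz v F
    simp only [pow_zero, mul_one, mul_pow] at this ⊢
    refine le_trans (le_of_eq (Finset.sum_congr rfl fun u _ => by rw [G.dist_comm (u := u)]))
      (this.trans hClam)
  | succ k ih =>
    obtain ⟨v', hv', hv'w⟩ := exists_adj_closer h.tree hk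
    rw [← Finset.sum_filter_add_sum_filter_not F (fun u => G.dist u v' = G.dist u v + 1)]
    have h1 : ∑ u ∈ F.filter (fun u => G.dist u v' = G.dist u v + 1),
        θ ^ G.dist v u * r ^ G.dist u w ≤ C * r ^ (k + 1) := by
      have hb : G.dist w v = G.dist w v' + 1 := by
        rw [G.dist_comm, hk, G.dist_comm, hv'w]
      calc _ = ∑ u ∈ F.filter (fun u => G.dist u v' = G.dist u v + 1),
            (θ * r) ^ G.dist v u * r ^ (k + 1) := Finset.sum_congr rfl fun u hu => by
              rw [dist_through h.tree hv' (Finset.mem_filter.1 hu).2 hb, hk, mul_pow,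
                G.dist_comm (u := u) (v := v), pow_add]
              ring
        _ ≤ _ := by
              rw [← Finset.sum_mul]
              gcongr
              exact h.sum_pow_dist_le (by positivity) hz v _
    have h2 : ∑ u ∈ F.filter (fun u => ¬ G.dist u v' = G.dist u v + 1),
        θ ^ G.dist v u * r ^ G.dist u w ≤ θ * (lam * r ^ k) := by
      calc _ = θ * ∑ u ∈ F.filter (fun u => ¬ G.dist u v' = G.dist u v + 1),
            θ ^ G.dist v' u * r ^ G.dist u w := by
              rw [Finset.mul_sum]
              refine Finset.sum_congr rfl fun u hu => ?_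
              have := (dist_succ_or h.tree u hv').resolve_right (Finset.mem_filter.1 hu).2
              rw [G.dist_comm (u := v) (v := u), G.dist_comm (u := v') (v := u), this, pow_succ]
              ring
        _ ≤ _ := mul_le_mul_of_nonneg_left (ih _ v' hv'w) hθ
    refine (add_le_add h1 h2).trans (le_of_eq ?_)
    have : (1 - θ / r) * lam = C := by
      rw [hlam]; exact mul_div_cancel₀ _ (by linarith : (1 - θ / r) ≠ 0)
    rw [← this, pow_succ]
    field_simp
    ring

end Vale.Agent.P161
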