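import Vale.Agent.P161.Tree
import Vale.Agent.P161.Defs

/-!
Finite volume free Ising weights on trees and the decay bound for conditional magnetisations.
-/

open SimpleGraph

set_option linter.unusedSectionVars false

namespace Vale.Agent.P161

universe u

variable {V : Type u} [DecidableEq V] {G : SimpleGraph V} [DecidableRel G.Adj] {θ : ℝ}

omit [DecidableEq V] in
lemma spin_mul_self (b : Bool) : spin b * spin b = 1 := by cases b <;> norm_num [spin]

omit [DecidableEq V] in
lemma abs_spin (b : Bool) : |spin b| = 1 := by cases b <;> norm_num [spin]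

omit [DecidableEq V] in
lemma spin_mem (b : Bool) : -1 ≤ spin b ∧ spin b ≤ 1 := by cases b <;> norm_num [spin]

@[simp] lemma edgeW_mk (θ : ℝ) (η : V → Bool) (a b : V) :
    edgeW θ η s(a, b) = (1 + θ * spin (η a) * spin (η b)) / 2 := rfl

/-- The edges of `G` inside a finite set. -/
def edgesIn (G : SimpleGraph V) [DecidableRel G.Adj] (D : Finset V) : Finset (Sym2 V) :=
  D.sym2.filter (· ∈ G.edgeSet)

@[simp] lemma mk_mem_edgesIn {D : Finset V} {a b : V} :
    s(a, b) ∈ edgesIn G D ↔ a ∈ D ∧ b ∈ D ∧ G.Adj a b := by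
  simp [edgesIn, and_assoc]

/-- The product weight of a configuration on a finite set. -/
noncomputable def w (G : SimpleGraph V) [DecidableRel G.Adj] (θ : ℝ) (D : Finset V)
    (η : V → Bool) : ℝ :=
  1 / 2 * ∏ e ∈ edgesIn G D, edgeW θ η e

/-- The configuration with pluses exactly on `A`. -/
def chi (A : Finset V) : V → Bool := fun v => decide (v ∈ A)

/-- Sum over all configurations of a finite set. -/
def S (D : Finset V) (f : (V → Bool) → ℝ) : ℝ := ∑ A ∈ D.powerset, f (chi A)

/-- A function of configurations that only looks at `D`. -/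
def DepOn {β : Type*} (D : Finset V) (f : (V → Bool) → β) : Prop :=
  ∀ η η', (∀ v ∈ D, η v = η' v) → f η = f η'

omit [DecidableRel G.Adj] in
lemma DepOn.mono {β : Type*} {D D' : Finset V} {f : (V → Bool) → β} (h : DepOn D f)
    (hs : D ⊆ D') : DepOn D' f := fun η η' he => h η η' fun v hv => he v (hs hv)

lemma depOn_w (G : SimpleGraph V) [DecidableRel G.Adj] (θ : ℝ) (D : Finset V) :
    DepOn D (w G θ D) := by
  intro η η' h
  unfold w
  congr 1
  refine Finset.prod_congr rfl fun e he => ?_
  induction e using Sym2.ind with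
  | _ a b =>
    obtain ⟨ha, hb, -⟩ := mk_mem_edgesIn.1 he
    simp [h a ha, h b hb]

lemma w_pos (hθ : |θ| < 1) (D : Finset V) (η : V → Bool) : 0 < w G θ D η := by
  refine mul_pos (by norm_num) (Finset.prod_pos fun e _ => ?_)
  induction e using Sym2.ind with
  | _ a b =>
    rw [edgeW_mk]
    have := abs_lt.1 hθ
    cases η a <;> cases η b <;> simp [spin] <;> linarith

omit [DecidableRel G.Adj] in
lemma S_insert {D : Finset V} {v : V} (hv : v ∉ D) (f : (V → Bool) → ℝ) :
    S (insert v D) f = S D (fun η => f (Function.update η v false) + f (Function.update η v true)) := by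
  simp only [S, Finset.sum_powerset_insert hv, ← Finset.sum_add_distrib]
  refine Finset.sum_congr rfl fun A hA => ?_
  have hvA : v ∉ A := fun h => hv (Finset.mem_powerset.1 hA h)
  have e1 : Function.update (chi A) v false = chi A :=
    Function.update_eq_self_iff.2 (by simp [chi, hvA])
  have e2 : Function.update (chi A) v true = chi (insert v A) := by
    funext x
    by_cases hx : x = v <;> simp [chi, hx]
  rw [e1, e2]

lemma edgesIn_insert (hG : G.IsTree) {D : Finset V} (hD : Conn G D) {v p : V} (hv : v ∉ D)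
    (hp : p ∈ D) (hvp : G.Adj v p) :
    edgesIn G (insert v D) = insert s(v, p) (edgesIn G D) := by
  ext e
  induction e using Sym2.ind with
  | _ a b =>
    simp only [mk_mem_edgesIn, Finset.mem_insert]
    constructor
    · rintro ⟨rfl | ha, rfl | hb, hab⟩
      · exact absurd hab G.irrefl
      · exact Or.inl (by rw [hD.unique_adj hG hv hb hp hab hvp])
      · exact Or.inl (by rw [hD.unique_adj hG hv ha hp hab.symm hvp, Sym2.eq_swap])
      · exact Or.inr ⟨ha, hb, hab⟩
    · rintro (h | ⟨ha, hb, hab⟩)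
      · rcases Sym2.eq_iff.1 h with ⟨rfl, rfl⟩ | ⟨rfl, rfl⟩
        · exact ⟨Or.inl rfl, Or.inr hp, hvp⟩
        · exact ⟨Or.inr hp, Or.inl rfl, hvp.symm⟩
      · exact ⟨Or.inr ha, Or.inr hb, hab⟩

lemma w_insert (hG : G.IsTree) {D : Finset V} (hD : Conn G D) {v p : V} (hv : v ∉ D)
    (hp : p ∈ D) (hvp : G.Adj v p) (η : V → Bool) :
    w G θ (insert v D) η = w G θ D η * edgeW θ η s(v, p) := by
  unfold w
  rw [edgesIn_insert hG hD hv hp hvp, Finset.prod_insert (by simp [hv])]
  ring

lemma S_w_insert (hG : G.IsTree) {D : Finset V} (hD : Conn G D) {v p : V} (hv : v ∉ D)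
    (hp : p ∈ D) (hvp : G.Adj v p) {f : (V → Bool) → ℝ} (hf : DepOn D f) :
    S (insert v D) (fun η => w G θ (insert v D) η * f η) = S D (fun η => w G θ D η * f η) := by
  rw [S_insert hv]
  unfold S
  refine Finset.sum_congr rfl fun A _ => ?_
  have hag : ∀ b, ∀ x ∈ D, Function.update (chi A) v b x = chi A x := fun b x hx =>
    Function.update_of_ne (fun e : x = v => hv (e ▸ hx)) _ _
  simp only [w_insert hG hD hv hp hvp]
  rw [depOn_w G θ D _ _ (hag false), depOn_w G θ D _ _ (hag true), hf _ _ (hag false),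
    hf _ _ (hag true)]
  simp only [edgeW_mk, Function.update_self, hag false p hp, hag true p hp]
  cases chi A p <;> simp [spin] <;> ring

lemma Conn.induction_up {D D' : Finset V} (hD : Conn G D) (hD' : Conn G D')
    (hs : D ⊆ D') {P : Finset V → Prop} (h0 : P D)
    (h1 : ∀ (E : Finset V) (v p : V), Conn G E → D ⊆ E → E ⊆ D' → v ∈ D' → v ∉ E → p ∈ E →
      G.Adj v p → P E → P (Insert.insert v E)) : P D' := by
  suffices H : ∀ n, ∀ E, Conn G E → D ⊆ E → E ⊆ D' → (D' \ E).card = n → P E → P D' from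
    H _ D hD subset_rfl hs rfl h0
  intro n
  induction n with
  | zero =>
    intro E _ _ hE' hc hP
    have : E = D' := Finset.Subset.antisymm hE'
      (Finset.sdiff_eq_empty_iff_subset.1 (Finset.card_eq_zero.1 hc))
    exact this ▸ hP
  | succ n ih =>
    intro E hE hDE hE' hc hP
    have hss : E ⊂ D' := by
      refine ⟨hE', fun h => ?_⟩
      rw [Finset.sdiff_eq_empty_iff_subset.2 h] at hc
      simp at hc
    obtain ⟨v, hv, hv', p, hp, hvp⟩ := hD'.exists_adj_of_ssubset hE.1 hss
    refine ih _ (hE.insert hp hvp) (hDE.trans (Finset.subset_insert _ _))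
      (Finset.insert_subset hv hE') ?_ (h1 E v p hE hDE hE' hv hv' hp hvp hP)
    rw [Finset.sdiff_insert, Finset.card_erase_of_mem (by simp [hv, hv']), hc]
    rfl

lemma S_w_mono (hG : G.IsTree) {D D' : Finset V} (hD : Conn G D) (hD' : Conn G D')
    (hs : D ⊆ D') {f : (V → Bool) → ℝ} (hf : DepOn D f) :
    S D' (fun η => w G θ D' η * f η) = S D (fun η => w G θ D η * f η) := by
  refine Conn.induction_up hD hD' hs
    (P := fun E => S E (fun η => w G θ E η * f η) = S D (fun η => w G θ D η * f η)) rfl ?_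
  intro E v p hE hDE _ _ hv hp hvp ih
  rw [S_w_insert hG hE hv hp hvp (hf.mono hDE), ih]

lemma edgesIn_singleton (o : V) : edgesIn G {o} = ∅ := by
  ext e
  induction e using Sym2.ind with
  | _ a b =>
    simp only [mk_mem_edgesIn, Finset.mem_singleton, Finset.notMem_empty, iff_false]
    rintro ⟨rfl, rfl, h⟩
    exact G.irrefl h

lemma S_w_eq_one (hG : G.IsTree) {D : Finset V} (hD : Conn G D) :
    S D (w G θ D) = 1 := by
  obtain ⟨o, ho⟩ := hD.1
  have := S_w_mono (θ := θ) hG (conn_singleton o) hD (by simpa using ho) (f := fun _ => 1)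
    (fun _ _ _ => rfl)
  simp only [mul_one] at this
  rw [show S D (w G θ D) = S D (fun η => w G θ D η) from rfl, this]
  rw [show ({o} : Finset V) = insert o ∅ by simp, S_insert (Finset.notMem_empty o)]
  simp [S, w, edgesIn_singleton]
  norm_num

/-- The field term of the posterior. -/
def fieldSum (D : Finset V) (y : V → ℝ) (η : V → Bool) : ℝ := ∑ u ∈ D, y u * spin (η u)

/-- Posterior weight given the observation `y`. -/
noncomputable def W (G : SimpleGraph V) [DecidableRel G.Adj] (θ : ℝ) (D : Finset V) (y : V → ℝ)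
    (η : V → Bool) : ℝ :=
  w G θ D η * Real.exp (fieldSum D y η)

/-- Partition function. -/
noncomputable def Z (G : SimpleGraph V) [DecidableRel G.Adj] (θ : ℝ) (D : Finset V)
    (y : V → ℝ) : ℝ := S D (W G θ D y)

/-- Unnormalised magnetisation at `v`. -/
noncomputable def M (G : SimpleGraph V) [DecidableRel G.Adj] (θ : ℝ) (D : Finset V)
    (y : V → ℝ) (v : V) : ℝ := S D (fun η => W G θ D y η * spin (η v))

/-- The posterior magnetisation at `v` given fields `y` on `D`. -/
noncomputable def mag (G : SimpleGraph V) [DecidableRel G.Adj] (θ : ℝ) (D : Finset V)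
    (y : V → ℝ) (v : V) : ℝ := M G θ D y v / Z G θ D y

lemma W_pos (hθ : |θ| < 1) (D : Finset V) (y : V → ℝ) (η : V → Bool) : 0 < W G θ D y η :=
  mul_pos (w_pos hθ D η) (Real.exp_pos _)

lemma Z_pos (hθ : |θ| < 1) (D : Finset V) (y : V → ℝ) : 0 < Z G θ D y :=
  Finset.sum_pos (fun _ _ => W_pos hθ D y _) ⟨∅, Finset.empty_mem_powerset D⟩

lemma abs_M_le (hθ : |θ| < 1) (D : Finset V) (y : V → ℝ) (v : V) :
    |M G θ D y v| ≤ Z G θ D y := by
  refine (Finset.abs_sum_le_sum_abs _ _).trans (Finset.sum_le_sum fun A _ => ?_)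
  rw [abs_mul, abs_spin, mul_one, abs_of_pos (W_pos hθ D y _)]

lemma abs_mag_le (hθ : |θ| < 1) (D : Finset V) (y : V → ℝ) (v : V) :
    |mag G θ D y v| ≤ 1 := by
  rw [mag, abs_div, abs_of_pos (Z_pos hθ D y), div_le_one (Z_pos hθ D y)]
  exact abs_M_le hθ D y v

lemma W_congr {D : Finset V} {y y' : V → ℝ} (h : ∀ u ∈ D, y u = y' u) (η : V → Bool) :
    W G θ D y η = W G θ D y' η := by
  unfold W fieldSum
  rw [Finset.sum_congr rfl (fun u hu => by rw [h u hu])]

lemma mag_congr {D : Finset V} {y y' : V → ℝ} (h : ∀ u ∈ D, y u = y' u) (v : V) :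
    mag G θ D y v = mag G θ D y' v := by
  simp only [mag, M, Z, S, W_congr h]

lemma mag_update_of_not_mem {D : Finset V} {y : V → ℝ} {u : V} (hu : u ∉ D) (t : ℝ) (v : V) :
    mag G θ D (Function.update y u t) v = mag G θ D y v :=
  mag_congr (fun x hx => Function.update_of_ne (fun e => hu (by rwa [← e])) _ _) v

omit [DecidableEq V] in
lemma moebius_lip {P Q : ℝ} (hP : 0 ≤ P) (hQ : 0 ≤ Q) (hPQ : 0 < P + Q) (δ : ℝ) :
    |(P * Real.exp δ - Q * Real.exp (-δ)) / (P * Real.exp δ + Q * Real.exp (-δ))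
      - (P - Q) / (P + Q)| ≤ |δ| := by
  set f : ℝ → ℝ :=
    fun t => (P * Real.exp t - Q * Real.exp (-t)) / (P * Real.exp t + Q * Real.exp (-t)) with hf
  have hpos : ∀ t, 0 < P * Real.exp t + Q * Real.exp (-t) := by
    intro t
    have h1 := Real.exp_pos t
    have h2 := Real.exp_pos (-t)
    rcases hP.lt_or_eq with h | h
    · positivity
    · subst h
      simp only [zero_add] at hPQ
      positivity
  have hd : ∀ t, HasDerivAt f (4 * P * Q / (P * Real.exp t + Q * Real.exp (-t)) ^ 2) t := by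
    intro t
    have h1 : HasDerivAt (fun s => P * Real.exp s) (P * Real.exp t) t :=
      (Real.hasDerivAt_exp t).const_mul P
    have h2 : HasDerivAt (fun s => Q * Real.exp (-s)) (-(Q * Real.exp (-t))) t := by
      simpa [mul_comm] using ((hasDerivAt_neg t).exp.const_mul Q)
    have he : Real.exp t * Real.exp (-t) = 1 := by rw [← Real.exp_add]; simp
    refine ((h1.sub h2).div (h1.add h2) (hpos t).ne').congr_deriv ?_
    simp only [Pi.add_apply, Pi.sub_apply]
    congr 1
    linear_combination (4 * P * Q) * he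
  have hle : ∀ t, ‖4 * P * Q / (P * Real.exp t + Q * Real.exp (-t)) ^ 2‖ ≤ 1 := by
    intro t
    rw [Real.norm_eq_abs, abs_of_nonneg (by positivity),
      div_le_one (by have := hpos t; positivity)]
    have he : Real.exp t * Real.exp (-t) = 1 := by rw [← Real.exp_add]; simp
    nlinarith [sq_nonneg (P * Real.exp t - Q * Real.exp (-t)), mul_nonneg hP hQ]
  have := convex_univ.norm_image_sub_le_of_norm_hasDerivWithin_le (f := f)
    (fun t _ => (hd t).hasDerivWithinAt) (fun t _ => hle t) (Set.mem_univ 0) (Set.mem_univ δ)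
  simpa [hf] using this

lemma mag_self_lip (hθ : |θ| < 1) {D : Finset V} {v : V} (hv : v ∈ D) (y : V → ℝ) (t : ℝ) :
    |mag G θ D (Function.update y v t) v - mag G θ D y v| ≤ |t - y v| := by
  set δ := t - y v with hδ
  have hW : ∀ η, W G θ D (Function.update y v t) η
      = W G θ D y η * Real.exp (δ * spin (η v)) := by
    intro η
    rw [W, W, mul_assoc, ← Real.exp_add]
    congr 2
    rw [fieldSum, fieldSum, ← Finset.add_sum_erase _ _ hv, ← Finset.add_sum_erase _ _ hv]
    rw [Function.update_self, Finset.sum_congr rfl (fun u hu => by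
      rw [Function.update_of_ne (Finset.ne_of_mem_erase hu)])]
    rw [hδ]; ring
  set P := S D (fun η => if η v then W G θ D y η else 0) with hP
  set Q := S D (fun η => if η v then 0 else W G θ D y η) with hQ
  have e1 : Z G θ D y = P + Q := by
    simp only [Z, hP, hQ, S, ← Finset.sum_add_distrib]
    exact Finset.sum_congr rfl fun A _ => by cases chi A v <;> simp
  have e2 : M G θ D y v = P - Q := by
    simp only [M, hP, hQ, S, ← Finset.sum_sub_distrib]
    exact Finset.sum_congr rfl fun A _ => by cases chi A v <;> simp [spin]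
  have e3 : Z G θ D (Function.update y v t) = P * Real.exp δ + Q * Real.exp (-δ) := by
    simp only [Z, hP, hQ, S, Finset.sum_mul, ← Finset.sum_add_distrib]
    exact Finset.sum_congr rfl fun A _ => by rw [hW]; cases chi A v <;> simp [spin]
  have e4 : M G θ D (Function.update y v t) v = P * Real.exp δ - Q * Real.exp (-δ) := by
    simp only [M, hP, hQ, S, Finset.sum_mul, ← Finset.sum_sub_distrib]
    exact Finset.sum_congr rfl fun A _ => by rw [hW]; cases chi A v <;> simp [spin]
  unfold mag
  rw [e1, e2, e3, e4]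
  have h0 : ∀ A, 0 ≤ W G θ D y (chi A) := fun A => (W_pos hθ D y _).le
  refine moebius_lip ?_ ?_ (e1 ▸ Z_pos hθ D y) δ <;>
    refine Finset.sum_nonneg fun A _ => ?_ <;> dsimp only <;> split_ifs <;>
      first | exact le_rfl | exact h0 A

omit [DecidableRel G.Adj] in
lemma S_union {A B : Finset V} (h : Disjoint A B) (f : (V → Bool) → ℝ) :
    S (A ∪ B) f = ∑ a ∈ A.powerset, ∑ b ∈ B.powerset, f (chi (a ∪ b)) := by
  induction B using Finset.induction_on generalizing f with
  | empty => simp [S]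
  | @insert x s hx ih =>
    obtain ⟨hxA, hs⟩ := Finset.disjoint_insert_right.1 h
    have hxu : x ∉ A ∪ s := by simp [hxA, hx]
    rw [Finset.union_insert, S_insert hxu, ih hs]
    refine Finset.sum_congr rfl fun a ha => ?_
    rw [Finset.sum_powerset_insert hx, ← Finset.sum_add_distrib]
    refine Finset.sum_congr rfl fun b hb => ?_
    have hxab : x ∉ a ∪ b := by
      simp only [Finset.mem_union, not_or]
      exact ⟨fun h => hxA (Finset.mem_powerset.1 ha h), fun h => hx (Finset.mem_powerset.1 hb h)⟩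
    have e1 : Function.update (chi (a ∪ b)) x false = chi (a ∪ b) :=
      Function.update_eq_self_iff.2 (by simp [chi, hxab])
    have e2 : Function.update (chi (a ∪ b)) x true = chi (insert x (a ∪ b)) := by
      funext z
      by_cases hz : z = x <;> simp [chi, hz]
    rw [e1, e2, Finset.union_insert]

lemma w_split (hG : G.IsTree) {D : Finset V} {v v' : V} (h : G.Adj v v') (hv : v ∈ D)
    (hv' : v' ∈ D) (η : V → Bool) :
    w G θ D η = w G θ (D.filter fun x => G.dist x v' = G.dist x v + 1) η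
      * w G θ (D.filter fun x => ¬ G.dist x v' = G.dist x v + 1) η
      * (1 + θ * spin (η v) * spin (η v')) := by
  set A := D.filter fun x => G.dist x v' = G.dist x v + 1 with hA
  set B := D.filter fun x => ¬ G.dist x v' = G.dist x v + 1 with hB
  have hvA : v ∈ A := by simp [hA, hv, dist_eq_one_iff_adj.2 h]
  have hv'B : v' ∈ B := by simp [hB, hv']
  have hunion : ∀ x, x ∈ D ↔ x ∈ A ∨ x ∈ B := by
    intro x; simp [hA, hB]; tauto
  have hBside : ∀ x ∈ B, G.dist x v = G.dist x v' + 1 := fun x hx =>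
    (dist_succ_or hG x h).resolve_right (Finset.mem_filter.1 hx).2
  have hAside : ∀ x ∈ A, G.dist x v' = G.dist x v + 1 := fun x hx => (Finset.mem_filter.1 hx).2
  have hAB : ∀ x, x ∈ A → x ∉ B := fun x hx hx' => by
    have := hAside x hx; have := hBside x hx'; omega
  have he : edgesIn G D = insert s(v, v') (edgesIn G A ∪ edgesIn G B) := by
    ext e
    induction e using Sym2.ind with
    | _ a b =>
      simp only [mk_mem_edgesIn, Finset.mem_insert, Finset.mem_union, hunion]
      constructor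
      · rintro ⟨ha | ha, hb | hb, hab⟩
        · exact Or.inr (Or.inl ⟨ha, hb, hab⟩)
        · obtain ⟨rfl, rfl⟩ := cross_edge hG h (hAside a ha) (hBside b hb) hab
          exact Or.inl rfl
        · obtain ⟨rfl, rfl⟩ := cross_edge hG h (hAside b hb) (hBside a ha) hab.symm
          exact Or.inl Sym2.eq_swap
        · exact Or.inr (Or.inr ⟨ha, hb, hab⟩)
      · rintro (he | ⟨ha, hb, hab⟩ | ⟨ha, hb, hab⟩)
        · rcases Sym2.eq_iff.1 he with ⟨rfl, rfl⟩ | ⟨rfl, rfl⟩
          · exact ⟨Or.inl hvA, Or.inr hv'B, h⟩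
          · exact ⟨Or.inr hv'B, Or.inl hvA, h.symm⟩
        · exact ⟨Or.inl ha, Or.inl hb, hab⟩
        · exact ⟨Or.inr ha, Or.inr hb, hab⟩
  have hnot : s(v, v') ∉ edgesIn G A ∪ edgesIn G B := by
    simp only [Finset.mem_union, mk_mem_edgesIn, not_or, not_and]
    exact ⟨fun _ h' => absurd hv'B (hAB v' h'), fun h' => absurd h' (hAB v hvA)⟩
  have hdis : Disjoint (edgesIn G A) (edgesIn G B) := by
    refine Finset.disjoint_left.2 fun e he1 he2 => ?_
    induction e using Sym2.ind with
    | _ a b => exact hAB a (mk_mem_edgesIn.1 he1).1 (mk_mem_edgesIn.1 he2).1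
  unfold w
  rw [he, Finset.prod_insert hnot, Finset.prod_union hdis, edgeW_mk]
  ring

lemma W_split (hG : G.IsTree) {D : Finset V} {v v' : V} (h : G.Adj v v') (hv : v ∈ D)
    (hv' : v' ∈ D) (y : V → ℝ) (η : V → Bool) :
    W G θ D y η = W G θ (D.filter fun x => G.dist x v' = G.dist x v + 1) y η
      * W G θ (D.filter fun x => ¬ G.dist x v' = G.dist x v + 1) y η
      * (1 + θ * spin (η v) * spin (η v')) := by
  unfold W fieldSum
  rw [w_split hG h hv hv' η, ← Finset.sum_filter_add_sum_filter_not D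
    (fun x => G.dist x v' = G.dist x v + 1) (fun u => y u * spin (η u)), Real.exp_add]
  ring

lemma depOn_W (G : SimpleGraph V) [DecidableRel G.Adj] (θ : ℝ) (D : Finset V) (y : V → ℝ) :
    DepOn D (W G θ D y) := fun η η' he => by
  unfold W fieldSum
  rw [depOn_w G θ D η η' he, Finset.sum_congr rfl (fun u hu => by rw [he u hu])]

/-- Given the far side, the magnetisation at `v` is an affine function of the one at `v'`
with slope at most `θ`. -/
lemma mag_affine (hG : G.IsTree) (hθ0 : 0 ≤ θ) (hθ : θ < 1) {D : Finset V} {v v' : V}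
    (h : G.Adj v v') (hv : v ∈ D) (hv' : v' ∈ D) (y : V → ℝ) :
    ∃ a b : ℝ, |b| ≤ θ ∧ ∀ y' : V → ℝ,
      (∀ x ∈ D, G.dist x v' = G.dist x v + 1 → y' x = y x) →
      mag G θ D y' v = a + b * mag G θ D y' v' := by
  set A := D.filter fun x => G.dist x v' = G.dist x v + 1 with hA
  set B := D.filter fun x => ¬ G.dist x v' = G.dist x v + 1 with hB
  have hθ' : |θ| < 1 := by rwa [abs_of_nonneg hθ0]
  set α := mag G θ A y v with hα
  have hα1 : |α| ≤ 1 := abs_mag_le hθ' _ _ _
  have hvA : v ∈ A := by simp [hA, hv, dist_eq_one_iff_adj.2 h]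
  have hv'B : v' ∈ B := by simp [hB, hv']
  have hdisj : Disjoint A B := Finset.disjoint_filter_filter_not _ _ _
  have hD : A ∪ B = D := Finset.filter_union_filter_not_eq _ _
  refine ⟨α * (1 - θ ^ 2) / (1 - θ ^ 2 * α ^ 2), θ * (1 - α ^ 2) / (1 - θ ^ 2 * α ^ 2), ?_, ?_⟩
  · have h2 : α ^ 2 ≤ 1 := (sq_le_one_iff_abs_le_one α).2 hα1
    have hθ2 : θ ^ 2 < 1 := by nlinarith
    have hpos : 0 < 1 - θ ^ 2 * α ^ 2 := by nlinarith [sq_nonneg α, sq_nonneg θ]
    rw [abs_div, abs_of_nonneg (mul_nonneg hθ0 (by linarith)), abs_of_pos hpos, div_le_iff₀ hpos]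
    exact mul_le_mul_of_nonneg_left (by nlinarith [sq_nonneg α]) hθ0
  intro y' hy'
  have hMA : M G θ A y v = M G θ A y' v ∧ Z G θ A y = Z G θ A y' := by
    have : ∀ η, W G θ A y η = W G θ A y' η := fun η => W_congr (fun x hx =>
      (hy' x (Finset.mem_filter.1 hx).1 (Finset.mem_filter.1 hx).2).symm) η
    simp [M, Z, S, this]
  set MA := M G θ A y' v
  set ZA := Z G θ A y'
  set MB := M G θ B y' v'
  set ZB := Z G θ B y'
  have hmain : ∀ g k : Bool → ℝ,
      S D (fun η => W G θ D y' η * (g (η v) * k (η v'))) =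
        S A (fun η => W G θ A y' η * g (η v)) * S B (fun η => W G θ B y' η * k (η v'))
        + θ * (S A (fun η => W G θ A y' η * (g (η v) * spin (η v))) *
          S B (fun η => W G θ B y' η * (k (η v') * spin (η v')))) := by
    intro g k
    conv_lhs => rw [← hD, S_union hdisj]
    simp only [S, Finset.sum_mul_sum]
    rw [Finset.mul_sum, ← Finset.sum_add_distrib]
    refine Finset.sum_congr rfl fun a ha => ?_
    rw [Finset.mul_sum, ← Finset.sum_add_distrib]
    refine Finset.sum_congr rfl fun b hb => ?_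
    have hagA : ∀ x ∈ A, chi (a ∪ b) x = chi a x := by
      intro x hx
      have : x ∉ b := fun hxb => Finset.disjoint_left.1 hdisj hx (Finset.mem_powerset.1 hb hxb)
      simp [chi, this]
    have hagB : ∀ x ∈ B, chi (a ∪ b) x = chi b x := by
      intro x hx
      have : x ∉ a := fun hxa => Finset.disjoint_right.1 hdisj hx (Finset.mem_powerset.1 ha hxa)
      simp [chi, this]
    rw [hD, W_split hG h hv hv', depOn_W G θ _ y' _ _ hagA, depOn_W G θ _ y' _ _ hagB,
      hagA v hvA, hagB v' hv'B]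
    ring
  have eZ : Z G θ D y' = ZA * ZB + θ * (MA * MB) := by
    simpa [Z, M, S, ZA, ZB, MA, MB] using hmain (fun _ => 1) (fun _ => 1)
  have eM : M G θ D y' v = MA * ZB + θ * (ZA * MB) := by
    simpa [Z, M, S, ZA, ZB, MA, MB, spin_mul_self] using hmain spin (fun _ => 1)
  have eM' : M G θ D y' v' = ZA * MB + θ * (MA * ZB) := by
    simpa [Z, M, S, ZA, ZB, MA, MB, spin_mul_self] using hmain (fun _ => 1) spin
  have hαeq : α = MA / ZA := by rw [hα, mag, hMA.1, hMA.2]
  have hZA : 0 < ZA := Z_pos hθ' A y'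
  have hZD : 0 < Z G θ D y' := Z_pos hθ' D y'
  have hMA' : |MA| ≤ ZA := abs_M_le hθ' A y' v
  have hden : 0 < ZA ^ 2 - θ ^ 2 * MA ^ 2 := by
    have h1 : MA ^ 2 ≤ ZA ^ 2 := sq_le_sq.2 (by rwa [abs_of_pos hZA])
    have h2 : θ ^ 2 * MA ^ 2 ≤ θ ^ 2 * ZA ^ 2 := mul_le_mul_of_nonneg_left h1 (sq_nonneg θ)
    have hθ2 : θ ^ 2 < 1 := by nlinarith
    have h3 : 0 < (1 - θ ^ 2) * ZA ^ 2 := mul_pos (by linarith) (pow_pos hZA 2)
    linarith
  unfold mag
  rw [eM, eM', hαeq]
  rw [eZ] at hZD ⊢
  have ea : MA / ZA * (1 - θ ^ 2) / (1 - θ ^ 2 * (MA / ZA) ^ 2)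
      = MA * ZA * (1 - θ ^ 2) / (ZA ^ 2 - θ ^ 2 * MA ^ 2) := by
    field_simp
  have eb : θ * (1 - (MA / ZA) ^ 2) / (1 - θ ^ 2 * (MA / ZA) ^ 2)
      = θ * (ZA ^ 2 - MA ^ 2) / (ZA ^ 2 - θ ^ 2 * MA ^ 2) := by
    field_simp
  rw [ea, eb, div_mul_div_comm, div_add_div _ _ hden.ne' (mul_ne_zero hden.ne' hZD.ne'),
    div_eq_div_iff hZD.ne' (mul_ne_zero hden.ne' (mul_ne_zero hden.ne' hZD.ne'))]
  ring

/-- Changing the field at `u` moves the magnetisation at `v` by at most `θ ^ dist u v` times
the change. -/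
lemma mag_update_le (hG : G.IsTree) (hθ0 : 0 ≤ θ) (hθ : θ < 1) {D : Finset V} (hD : Conn G D)
    {u v : V} (hu : u ∈ D) (hv : v ∈ D) (y : V → ℝ) (t : ℝ) :
    |mag G θ D (Function.update y u t) v - mag G θ D y v| ≤ θ ^ G.dist v u * |t - y u| := by
  generalize hk : G.dist v u = k
  induction k generalizing v with
  | zero =>
    obtain rfl := (hG.connected v u).dist_eq_zero_iff.1 hk
    simpa using mag_self_lip (by rwa [abs_of_nonneg hθ0]) hv y t
  | succ k ih =>
    obtain ⟨v', hvv', hv'u⟩ := exists_adj_closer hG hk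
    have huv : G.dist u v = G.dist u v' + 1 := by rw [G.dist_comm, hk, G.dist_comm, hv'u]
    have hv' : v' ∈ D := hD.next_mem hG hu hv hvv' huv
    obtain ⟨a, b, hb, hab⟩ := mag_affine hG hθ0 hθ hvv' hv hv' y
    rw [hab _ (fun x _ hx => Function.update_of_ne (by rintro rfl; omega) _ _),
      hab y (fun _ _ _ => rfl),
      show a + b * mag G θ D (Function.update y u t) v' - (a + b * mag G θ D y v')
        = b * (mag G θ D (Function.update y u t) v' - mag G θ D y v') by ring, abs_mul, pow_succ]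
    calc _ ≤ θ * (θ ^ k * |t - y u|) :=
          mul_le_mul hb (ih hv' hv'u) (abs_nonneg _) hθ0
      _ = _ := by ring

lemma mag_lip (hG : G.IsTree) (hθ0 : 0 ≤ θ) (hθ : θ < 1) {D : Finset V} (hD : Conn G D)
    {v : V} (hv : v ∈ D) (y y' : V → ℝ) :
    |mag G θ D y' v - mag G θ D y v| ≤ ∑ u ∈ D, θ ^ G.dist v u * |y' u - y u| := by
  have key : ∀ F : Finset V, F ⊆ D →
      |mag G θ D (F.piecewise y' y) v - mag G θ D y v|
        ≤ ∑ u ∈ F, θ ^ G.dist v u * |y' u - y u| := by
    intro F
    induction F using Finset.induction_on with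
    | empty => simp
    | @insert x s hx ih =>
      intro hs
      rw [Finset.piecewise_insert, Finset.sum_insert hx]
      refine (abs_sub_le _ (mag G θ D (s.piecewise y' y) v) _).trans (add_le_add ?_
        (ih ((Finset.subset_insert _ _).trans hs)))
      have := mag_update_le hG hθ0 hθ hD (hs (Finset.mem_insert_self _ _)) hv
        (s.piecewise y' y) (y' x)
      rwa [Finset.piecewise_eq_of_notMem _ _ _ hx] at this
  refine le_trans (le_of_eq ?_) (key D subset_rfl)
  rw [mag_congr (y := D.piecewise y' y) (y' := y')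
    (fun u hu => Finset.piecewise_eq_of_mem _ _ _ hu)]

end Vale.Agent.P161
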